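import Vale.Agent.P307.H227.OrdBase
import Vale.Agent.P307.Ow.Flasque
import Vale.Agent.P307.H67.Thresh

/-!
Categoricity transfer for classes with a family indexed by linear orders.
-/

universe u

open FirstOrder Cardinal Function Language

namespace Vale.Agent.P307.H227

variable {L : Language.{u, u}}

/-- A class with a family indexed by linear orders which is categorical in arbitrarily large
cardinals is categorical in all sufficiently large cardinals. -/
theorem eventually_of_ordFamily {K : AEC L} (F : OrdFamily K)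
    (h : ∀ χ : Cardinal.{u}, ∃ κ, χ ≤ κ ∧ K.CategoricalIn κ) :
    ∃ χ : Cardinal.{u}, ∀ κ, χ ≤ κ → K.CategoricalIn κ := by
  have hK := AEC.isLS_LS K
  set l := K.LS with hl
  have hF : F.Moves := OrdFamily.moves_of_unbounded hK h
  obtain ⟨k, h1, h2, -, h4, h5⟩ := (F.toOSys hF).flasque {κ | max l ℵ₀ < κ ∧ K.CategoricalIn κ} (by
    intro a
    obtain ⟨κ, h1, h2⟩ := h (max a (Order.succ (max l ℵ₀)))
    exact ⟨κ, ⟨Order.succ_le_iff.1 ((le_max_right _ _).trans h1), h2⟩,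
      (le_max_left _ _).trans h1⟩)
  have hbdd : BddAbove (Set.range k) := bddAbove_of_small
  have hk0 : max l ℵ₀ < k 0 := (h2 0).1
  have hbase : F.Std (⨆ n, k n) :=
    OrdFamily.std_base hF hK k h1 hk0
      (fun n => OrdFamily.Std.of_cat hK (h2 n).1 (h2 n).2) h4
  have hθ : max l ℵ₀ < ⨆ n, k n := hk0.trans_le (le_ciSup hbdd 0)
  refine ⟨⨆ n, k n, fun κ hκ => ?_⟩
  have hall : ∀ κ, (⨆ n, k n) ≤ κ → F.Std κ := by
    intro κ
    induction κ using WellFoundedLT.induction with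
    | ind κ ih =>
      intro hκ
      rcases hκ.eq_or_lt with rfl | hlt
      · exact hbase
      · exact OrdFamily.std_step hF hK hθ hlt
          (fun κ' h6 h7 => ih κ' h7 h6) (fun X Y _ _ i h6 h7 => h5 X Y i h6 h7)
  exact (hall κ hκ).cat hK (hθ.trans_le hκ)

/-- Q1 for all classes which are eventually categorical as soon as they are categorical in
arbitrarily large cardinals. -/
theorem q1_of_eventually (P : ∀ (L : Language.{u, u}), AEC L → Prop)
    (hP : ∀ (L : Language.{u, u}) (K : AEC L), P L K →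
      (∀ χ : Cardinal.{u}, ∃ κ, χ ≤ κ ∧ K.CategoricalIn κ) →
      ∃ χ : Cardinal.{u}, ∀ κ, χ ≤ κ → K.CategoricalIn κ) (l : Cardinal.{u}) :
    ∃ μ : Cardinal.{u}, l ≤ μ ∧ ∀ (L : Language.{u, u}) (K : AEC L), K.LS ≤ l → P L K →
      ∀ κ : Cardinal.{u}, μ ≤ κ → K.CategoricalIn κ →
        ∀ κ' : Cardinal.{u}, μ ≤ κ' → K.CategoricalIn κ' := by
  obtain ⟨Λ, hΛ⟩ : ∃ Λ : Type u, #Λ = l := ⟨l.out, mk_out l⟩
  have h : ∀ c : CodeTy Λ, ∃ b : Cardinal.{u}, (∀ κ ∈ spec c, κ ≤ b) ∨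
      ∀ b', ∃ κ ∈ spec c, b' < κ := by
    intro c
    by_cases hb : ∃ b : Cardinal.{u}, ∀ κ ∈ spec c, κ ≤ b
    · obtain ⟨b, hb⟩ := hb
      exact ⟨b, Or.inl hb⟩
    · push Not at hb
      exact ⟨0, Or.inr hb⟩
  choose b hb using h
  have hbdd : BddAbove (Set.range b) := bddAbove_of_small
  obtain ⟨μ₀, hμ₀, hμ⟩ := H67.exists_threshold l
  refine ⟨max μ₀ (Order.succ (⨆ c, b c)), hμ₀.trans (le_max_left _ _), ?_⟩
  rintro L K hK hPK κ hκ hcat κ' hκ'
  have hLS : K.IsLS #Λ := AEC.isLS_of_LS_le (hK.trans hΛ.ge)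
  obtain ⟨c, hc, -⟩ := exists_code K hLS
  rcases hb c with h1 | h1
  · exfalso
    have h2 : κ ≤ b c := h1 κ ((hc κ).2 hcat)
    have h3 : b c < κ := (Order.lt_succ_of_le (le_ciSup hbdd c)).trans_le
      ((le_max_right _ _).trans hκ)
    exact absurd h2 (not_le.2 h3)
  · refine hμ L K hK (hP L K hPK fun a => ?_) κ' ((le_max_left _ _).trans hκ')
    obtain ⟨κ₂, h2, h3⟩ := h1 a
    exact ⟨κ₂, h3.le, (hc κ₂).1 h2⟩

end Vale.Agent.P307.H227
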