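import Vale.Agent.P307.Pw.Unb

/-!
Categoricity transfer for families indexed by linear orders, with conditions on large strong
substructures only.
-/

universe u v w

open FirstOrder Cardinal Function Language

namespace Vale.Agent.P307.Pw

open H227
open Ow (le_map map_le_range)

variable {L : Language.{u, u}}

namespace Fam

variable {K : AEC L} {F : Fam K}

/-- Every strong embedding of a large member of the family in one which belongs to an order of
cardinality `κ` induces a map of points up to an automorphism. -/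
def HomAtL (F : Fam K) (l κ : Cardinal.{u}) : Prop :=
  ∀ (I J : Type u) [LinearOrder I] [LinearOrder J], #J = κ → max l ℵ₀ < #I →
    ∀ θ : F.obj I ↪[L] F.obj J, K.Emb θ →
      ∃ (σ : F.obj J ≃[L] F.obj J) (t : I → J), F.Ind (σ.toEmbedding.comp θ) t

/-- Every large strong substructure of a member which belongs to an order of cardinality `κ` is
conjugate to a standard one. -/
def ConjAtL (F : Fam K) (l κ : Cardinal.{u}) : Prop :=
  ∀ (J : Type u) [LinearOrder J], #J = κ → ∀ S : L.Substructure (F.obj J), K.le S →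
    max l ℵ₀ < #S →
    ∃ (σ : F.obj J ≃[L] F.obj J) (A : Set J), S.map σ.toEmbedding.toHom = F.sub A

/-- Both properties above `l`. -/
def HomGeL (F : Fam K) (l : Cardinal.{u}) : Prop :=
  ∀ κ, max l ℵ₀ < κ → F.HomAtL l κ ∧ F.ConjAtL l κ

/-- Strong embeddings of large members of the family into a strong substructure of a member which
belongs to an order of cardinality `κ` can be moved to standard position together with the strong
substructure. -/
def StdAtL (F : Fam K) (l κ : Cardinal.{u}) : Prop :=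
  ∀ (I J : Type u) [LinearOrder I] [LinearOrder J], #J = κ → max l ℵ₀ < #I →
    ∀ θ : F.obj I ↪[L] F.obj J, K.Emb θ → ∀ S : L.Substructure (F.obj J), K.le S →
      θ.toHom.range ≤ S →
      ∃ (σ : F.obj J ≃[L] F.obj J) (t : I → J) (A : Set J),
        F.Ind (σ.toEmbedding.comp θ) t ∧ S.map σ.toEmbedding.toHom = F.sub A

theorem moves_of_unboundedL {l : Cardinal.{u}} (hK : F.Ok l)
    (hunb : ∀ χ : Cardinal.{u}, ∃ κ, χ ≤ κ ∧ K.CategoricalIn κ ∧ F.HomAtL l κ) : F.Moves := by
  classical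
  intro W _ x y P hxP hyP
  by_cases hxy : x = y
  · subst hxy
    exact ⟨F.map (inc _), ⟨inc (insert x P), ind_map (inc (insert x P)), fun z hz => hz,
      fun z _ => rfl⟩, fun a => F.map_incl _ a⟩
  set m : Cardinal.{u} := max ℵ₀ #W with hm
  have hm0 : ℵ₀ ≤ m := le_max_left _ _
  obtain ⟨D', _, D, Y, -, hD, hY, hYD, hsep⟩ := H67.exists_many_cuts hm0
  obtain ⟨κ, hκ1, hκ2, hκ3⟩ := hunb (max (Order.succ (max l ℵ₀)) #(D' ×ₗ W))
  have hκl : max l ℵ₀ < κ := Order.succ_le_iff.1 ((le_max_left _ _).trans hκ1)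
  have hκ0 : ℵ₀ ≤ κ := (le_max_right l ℵ₀).trans hκl.le
  let Q : Type u := κ.ord.ToType
  have hQ : #Q = κ := mk_ord_toType κ
  let Ω : Type u := (D' ×ₗ W) ⊕ₗ Q
  have hΩ : #Ω = κ := by
    change #((D' ×ₗ W) ⊕ Q) = κ
    rw [mk_sum, lift_id, lift_id, hQ]
    exact add_eq_right hκ0 ((le_max_right _ _).trans hκ1)
  obtain ⟨θ₀⟩ := hκ2.2 (F.obj Ω) (F.obj Q) (F.mem_obj Ω) (F.mem_obj Q)
    (by rw [card_obj hK Ω (by rwa [hΩ]), hΩ]) (by rw [card_obj hK Q (by rwa [hQ]), hQ])
  have hθ₀ : K.Emb θ₀.toEmbedding := AEC.Emb.of_equiv _ (F.mem_obj Ω)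
  obtain ⟨σ, t, ht₀⟩ := hκ3 Ω Q hQ (by rw [hΩ]; exact hκl) θ₀.toEmbedding hθ₀
  let θ : F.obj Ω ≃[L] F.obj Q := σ.comp θ₀
  have ht : F.Ind θ.toEmbedding t := ht₀
  have hsurj : Surjective t := by
    have h1 : F.sub (Set.univ : Set Q) ≤ F.sub (Set.range t) := by
      intro b _
      have h2 := ht.mem_range (θ.symm b)
      change θ (θ.symm b) ∈ _ at h2
      rwa [θ.apply_symm_apply] at h2
    exact fun q => F.sub_le_iff.1 h1 (Set.mem_univ q)
  let te : Ω ≃ Q := Equiv.ofBijective t ⟨ht.inj, hsurj⟩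
  let s : Q → Ω := te.symm
  have hst : ∀ z, s (t z) = z := fun z => te.symm_apply_apply z
  have hts : ∀ q, t (s q) = q := fun q => te.apply_symm_apply q
  have hs : F.Ind θ.symm.toEmbedding s := by
    refine ht.of_comp ?_
    have h1 : θ.toEmbedding.comp θ.symm.toEmbedding = Language.Embedding.refl L _ := by
      apply Language.Embedding.ext
      intro a
      exact θ.apply_symm_apply a
    have h2 : t ∘ s = id := funext hts
    rw [h1, h2]
    refine ⟨injective_id, fun A a => ?_, fun b _ => ⟨b, rfl⟩⟩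
    rw [Set.image_id]
    rfl
  let pl : (D' ×ₗ W) ↪o Ω := OrderEmbedding.ofStrictMono _ Sum.Lex.inl_strictMono
  let pt : D' → W → Ω := fun d w => pl (toLex (d, w))
  let B : Set Q := {q | ∃ d ∈ D, ∃ w, q = t (pt d w)}
  have hB : #B ≤ m := by
    have h1 : #B ≤ #(D × W) :=
      mk_le_of_surjective (f := fun p : D × W => (⟨t (pt p.1.1 p.2), p.1.1, p.1.2, p.2, rfl⟩ : B))
        (by
          rintro ⟨_, d, hd, w, rfl⟩
          exact ⟨(⟨d, hd⟩, w), rfl⟩)
    refine h1.trans ?_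
    rw [mk_prod, lift_id, lift_id]
    exact (mul_le_mul' hD (le_max_right _ _)).trans (mul_eq_self hm0).le
  have hcode : #(Option B × Option B) ≤ m := by
    simp only [mk_prod, lift_id, mk_option]
    have h1 : #B + 1 ≤ m := add_le_of_le hm0 hB (one_le_aleph0.trans hm0)
    exact (mul_le_mul' h1 h1).trans (mul_eq_self hm0).le
  obtain ⟨f, hf1, hf2, hf3⟩ := exists_four hm0 _ hcode Y hY
    (fun d => H67.cutCode B (t (pt d x)))
  obtain ⟨d1, hd1, h01, h11⟩ := hsep _ (hf1 0) _ (hf1 1) (hf2 (by decide))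
  obtain ⟨d2, hd2, h12, h22⟩ := hsep _ (hf1 1) _ (hf1 2) (hf2 (by decide))
  obtain ⟨d3, hd3, h23, -⟩ := hsep _ (hf1 2) _ (hf1 3) (hf2 (by decide))
  have hlh : min x y < max x y := by
    rcases lt_or_gt_of_ne hxy with h | h
    · rwa [min_eq_left h.le, max_eq_right h.le]
    · rwa [min_eq_right h.le, max_eq_left h.le]
  obtain ⟨ε₀, he1, he2, he3⟩ := exists_eps hlh x h11 h12 h22 h23
  let ε : W ↪o Ω := ε₀.trans pl
  have hεx : ∃ i, ε x = pt (f i) x := by
    rcases lt_or_gt_of_ne hxy with h | h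
    · refine ⟨1, ?_⟩
      rw [min_eq_left h.le] at he1
      change pl (ε₀ x) = _
      rw [he1]
    · refine ⟨2, ?_⟩
      rw [max_eq_left h.le] at he2
      change pl (ε₀ x) = _
      rw [he2]
  have hεy : ∃ i, ε y = pt (f i) x := by
    rcases lt_or_gt_of_ne hxy with h | h
    · refine ⟨2, ?_⟩
      rw [max_eq_right h.le] at he2
      change pl (ε₀ y) = _
      rw [he2]
    · refine ⟨1, ?_⟩
      rw [min_eq_right h.le] at he1
      change pl (ε₀ y) = _
      rw [he1]
  have hεP : ∀ z ∈ P, t (ε z) ∈ B := by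
    intro z hz
    have hzx : z ≠ x := fun h => hxP (by rwa [← h])
    have hzy : z ≠ y := fun h => hyP (by rwa [← h])
    obtain ⟨d, hd, h⟩ := he3 z (by
      rcases min_choice x y with h | h <;> rw [h] <;> assumption) (by
      rcases max_choice x y with h | h <;> rw [h] <;> assumption)
    refine ⟨d, ?_, z, ?_⟩
    · rcases hd with rfl | rfl | rfl <;> assumption
    · change t (pl (ε₀ z)) = _
      rw [h]
  have hcxy : H67.cutCode B (t (ε x)) = H67.cutCode B (t (ε y)) := by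
    obtain ⟨i, hi⟩ := hεx
    obtain ⟨j, hj⟩ := hεy
    rw [hi, hj]
    exact hf3 i j
  have hxB : t (ε x) ∉ B := by
    rintro ⟨d, hd, w, h⟩
    obtain ⟨i, hi⟩ := hεx
    rw [hi] at h
    have h1 := ht.inj h
    have h2 : toLex (f i, x) = toLex (d, w) := pl.injective h1
    have h3 : f i = d := congrArg Prod.fst (toLex.injective h2)
    exact hYD _ (hf1 i) (h3 ▸ hd)
  obtain ⟨η, hη⟩ := exists_eta B (t (ε x)) (t (ε y)) hcxy
  have hΨ1 : F.Ind (θ.toEmbedding.comp (F.map ((inc (insert x P)).trans ε)))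
      (t ∘ (inc (insert x P)).trans ε) := (ind_map _).comp ht
  have hmemB : ∀ z : ↥(insert x P), t (ε z.1) ∈ insert (t (ε x)) B := by
    intro z
    rcases z.2 with h | h
    · exact Or.inl (by rw [h])
    · exact Or.inr (hεP _ h)
  obtain ⟨ψ, hψ, ht2⟩ := exists_cores_ind hΨ1 (inc (insert (t (ε x)) B))
    (fun z => ⟨t (ε z.1), hmemB z⟩) fun z => rfl
  set t2 : ↥(insert x P) → ↥(insert (t (ε x)) B) := fun z => ⟨t (ε z.1), hmemB z⟩ with ht2def
  have ht2v : ∀ z, (t2 z).1 = t (ε z.1) := fun z => rfl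
  have hΨ : F.Ind (θ.symm.toEmbedding.comp ((F.map η).comp ψ)) (s ∘ (η ∘ t2)) :=
    (ht2.comp (ind_map η)).comp hs
  have hx2 : ∀ z, z.1 = x → (s ∘ (η ∘ t2)) z = ε y := by
    intro z hz
    change s (η (t2 z)) = _
    rw [hη, ht2v, hz, if_pos rfl, hst]
  have hP2 : ∀ z, z.1 ∈ P → (s ∘ (η ∘ t2)) z = ε z.1 := by
    intro z hz
    have h1 : t (ε z.1) ≠ t (ε x) := fun h => hxB (h ▸ hεP _ hz)
    change s (η (t2 z)) = _
    rw [hη, ht2v, if_neg h1, hst]
  obtain ⟨θ', hθ', ht'⟩ := exists_cores_ind hΨ ε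
    (fun z : ↥(insert x P) => if z.1 = x then y else z.1) fun z => by
      by_cases hz : z.1 = x
      · rw [if_pos hz, hx2 z hz]
      · rw [if_neg hz, hP2 z (z.2.resolve_left hz)]
  refine ⟨θ', ⟨_, ht', fun z hz => if_pos hz, fun z hz => if_neg (by
    intro (h : z.1 = x)
    exact hxP (by rwa [← h]))⟩,
    fun a => ?_⟩
  · apply (F.map ε).injective
    rw [hθ']
    change θ.symm (F.map η (ψ (F.map (incl (Set.subset_insert x P)) a))) = _
    have h1 : F.map (inc (insert (t (ε x)) B)) (ψ (F.map (incl (Set.subset_insert x P)) a)) =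
        θ (F.map ε (F.map (inc P) a)) := by
      rw [hψ]
      change θ (F.map ((inc (insert x P)).trans ε) _) = _
      rw [F.map_trans, F.map_incl]
    have h2 : θ (F.map ε (F.map (inc P) a)) ∈ F.sub B := by
      have h3 : θ (F.map ε (F.map (inc P) a)) ∈ F.sub (t '' (ε '' P)) :=
        (ht.mem _ _).2 ((F.map_mem_sub_image ε).2 ⟨a, rfl⟩)
      refine F.sub_mono ?_ h3
      rintro _ ⟨_, ⟨z, hz, rfl⟩, rfl⟩
      exact hεP z hz
    obtain ⟨b, hb⟩ := h2
    have hb' : F.map (inc B) b = θ (F.map ε (F.map (inc P) a)) := hb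
    have h3 : ψ (F.map (incl (Set.subset_insert x P)) a) =
        F.map (incl (Set.subset_insert (t (ε x)) B)) b := by
      apply (F.map (inc (insert (t (ε x)) B))).injective
      rw [h1, ← hb', F.map_incl]
    have h4 : (incl (Set.subset_insert (t (ε x)) B)).trans η = inc B := by
      ext z
      change η (incl (Set.subset_insert (t (ε x)) B) z) = z.1
      rw [hη]
      have h5 : (incl (Set.subset_insert (t (ε x)) B) z).1 = z.1 := rfl
      rw [h5, if_neg]
      intro h6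
      exact hxB (h6 ▸ z.2)
    rw [h3, ← F.map_trans, h4, hb']
    exact θ.symm_apply_apply _

/-- A member which embeds strongly into a member of the family is one. -/
theorem std_of_embL (hF : F.Moves) {l : Cardinal.{u}} (hK : F.Ok l) (hC : F.HomGeL l) {N Z : Type u}
    [L.Structure N] [LinearOrder Z] (f : N ↪[L] F.obj Z) (hf : K.Emb f)
    (hN : max l ℵ₀ < #N) {X : Type u} [LinearOrder X] (hX : #X = #N) :
    Nonempty (N ≃[L] F.obj X) := by
  have hZ : max l ℵ₀ < #Z := by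
    by_contra h
    rw [not_lt] at h
    have h3 : #N ≤ max l ℵ₀ := (mk_le_of_injective f.injective).trans
      ((card_obj_le hK Z).trans (add_le_of_le (le_max_right _ _) h (le_max_left _ _)))
    exact absurd hN (not_lt.2 h3)
  obtain ⟨σ, B, hB₀⟩ := (hC #Z hZ).2 Z rfl f.toHom.range hf
    (by rwa [← mk_congr f.equivRange.toEquiv])
  have hB : (σ.toEmbedding.comp f).toHom.range = F.sub B := by
    have h0 : (f.toHom.range).map σ.toEmbedding.toHom = F.sub B := hB₀
    rw [← h0]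
    ext b
    constructor
    · rintro ⟨n, rfl⟩
      exact ⟨f n, ⟨n, rfl⟩, rfl⟩
    · rintro ⟨_, ⟨n, rfl⟩, rfl⟩
      exact ⟨n, rfl⟩
  have e1 : N ≃[L] (σ.toEmbedding.comp f).toHom.range := (σ.toEmbedding.comp f).equivRange
  rw [hB] at e1
  have e2 : F.obj B ≃[L] F.sub B := (F.map (inc B)).equivRange
  have h1 : #(F.obj B) = #N := mk_congr (e1.symm.comp e2).toEquiv
  have h2 : max l ℵ₀ < #B := by
    by_contra h
    rw [not_lt] at h
    have h3 : #N ≤ max l ℵ₀ := by
      rw [← h1]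
      exact (card_obj_le hK B).trans
        (add_le_of_le (le_max_right _ _) h (le_max_left _ _))
    exact absurd hN (not_lt.2 h3)
  have h3 : #X = #B := by rw [hX, ← h1, card_obj hK B h2]
  obtain ⟨i⟩ : Nonempty (B ≃ X) := Cardinal.eq.1 h3.symm
  obtain ⟨e3, -⟩ := hF.exists_iso i
  exact ⟨e3.comp (e2.symm.comp e1)⟩

/-- Extension of a strong embedding to a strong extension of the same cardinality. -/
theorem extend_embL (hF : F.Moves) {l : Cardinal.{u}} (hC : F.HomGeL l) {U V Z : Type u}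
    [L.Structure U] [L.Structure V] [LinearOrder Z] (hlU : max l ℵ₀ < #U) (j : U ↪[L] V)
    (hj : K.Emb j) (hUV : #V = #U) (hU : ℵ₀ ≤ #U) (hstd : F.Std #U)
    (hfl : ∀ (X Y : Type u) [LinearOrder X] [LinearOrder Y] (i : X ↪o Y), #X = #U → #Y = #U →
      Surjective (rs i : F.Gp Y → F.Gp X))
    (f : U ↪[L] F.obj Z) (hf : K.Emb f) (hZ : #U < #Z) :
    ∃ f' : V ↪[L] F.obj Z, K.Emb f' ∧ ∀ u, f' (j u) = f u := by
  let X : Type u := (#U).ord.ToType
  have hX : #X = #U := mk_ord_toType _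
  obtain ⟨φ⟩ := hstd U hj.mem_left rfl X hX
  obtain ⟨ψ₀⟩ := hstd V hj.mem_right hUV X hX
  have hφ : K.Emb φ.symm.toEmbedding := AEC.Emb.of_equiv _ (F.mem_obj X)
  have hψ₀ : K.Emb ψ₀.toEmbedding := AEC.Emb.of_equiv _ hj.mem_right
  obtain ⟨σ₁, t, ht₀⟩ := (hC #X (by rwa [hX])).1 X X rfl (by rwa [hX])
    (ψ₀.toEmbedding.comp (j.comp φ.symm.toEmbedding)) (hψ₀.comp (hj.comp hφ))
  let ψ : V ≃[L] F.obj X := σ₁.comp ψ₀
  have hψ : K.Emb ψ.toEmbedding := AEC.Emb.of_equiv _ hj.mem_right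
  have ht : F.Ind (ψ.toEmbedding.comp (j.comp φ.symm.toEmbedding)) t := ht₀
  obtain ⟨σ₂, t', ht'₀⟩ := (hC #Z (hlU.trans hZ)).1 X Z rfl (by rwa [hX])
    (f.comp φ.symm.toEmbedding) (hf.comp hφ)
  have ht' : F.Ind ((σ₂.toEmbedding.comp f).comp φ.symm.toEmbedding) t' := ht'₀
  obtain ⟨s, hs⟩ := SymmetricFamily.exists_extend (⟨t, ht.inj⟩ : X ↪ X) (⟨t', ht'.inj⟩ : X ↪ Z)
    (hU.trans hZ.le) (by rwa [hX])
  obtain ⟨G, hG, -⟩ := hF.exists_lift s ∅ s.injective fun x hx => absurd hx (Set.notMem_empty x)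
  obtain ⟨g, hg⟩ := factor ht' ((ht.comp hG).congr (t' := t') fun x => DFunLike.congr_fun hs x)
  obtain ⟨h, hh⟩ := exists_unconj hF (fun Y' _ i hY' => hfl X Y' i hX (hY'.trans hX)) ht g
  obtain ⟨e, he, he'⟩ := h.2.ind
  refine ⟨σ₂.symm.toEmbedding.comp (G.comp (e.toEmbedding.comp ψ.toEmbedding)), ?_,
    fun u => ?_⟩
  · exact (AEC.Emb.of_equiv _ (F.mem_obj Z)).comp (hG.emb.comp (he'.emb.comp hψ))
  · have h1 := hh (φ u)
    change h.1 (ψ (j (φ.symm (φ u)))) = ψ (j (φ.symm (g.1 (φ u)))) at h1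
    rw [φ.symm_apply_apply] at h1
    have h2 := hg (φ u)
    change σ₂ (f (φ.symm (φ u))) = G (ψ (j (φ.symm (g.1 (φ u))))) at h2
    rw [φ.symm_apply_apply] at h2
    change σ₂.symm (G (e (ψ (j u)))) = f u
    rw [he, h1, ← h2, σ₂.symm_apply_apply]

/-- The step above the critical cardinal. -/
theorem std_stepL (hF : F.Moves) {l θ κ : Cardinal.{u}} (hK : F.Ok l) (hC : F.HomGeL l)
    (hθ : max l ℵ₀ < θ) (hθκ : θ < κ) (hstd : ∀ κ', θ ≤ κ' → κ' < κ → F.Std κ')
    (hfl : ∀ (X Y : Type u) [LinearOrder X] [LinearOrder Y] (i : X ↪o Y), #X = #Y → θ ≤ #X →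
      Surjective (rs i : F.Gp Y → F.Gp X)) : F.Std κ := by
  intro N _ hN hNκ X _ hX
  have hθ0 : ℵ₀ ≤ θ := (le_max_right _ _).trans hθ.le
  have hlθ : l ≤ θ := (le_max_left _ _).trans hθ.le
  have hκ0 : ℵ₀ ≤ κ := hθ0.trans hθκ.le
  obtain ⟨en⟩ : Nonempty (κ.ord.ToType ≃ N) := Cardinal.eq.1 (by rw [mk_ord_toType, hNκ])
  obtain ⟨D, hD⟩ : ∃ D : Set N, #D = θ := le_mk_iff_exists_set.1 (by rw [hNκ]; exact hθκ.le)
  choose hull hh1 hh2 hh3 using hK.ls.2.2 N hN
  let S : κ.ord.ToType → L.Substructure N := wellFounded_lt.fix fun a rec =>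
    hull (D ∪ {en a} ∪ ⋃ b : Set.Iio a, (rec b.1 b.2 : Set N))
  have hS : ∀ a, S a = hull (D ∪ {en a} ∪ ⋃ b : Set.Iio a, (S b.1 : Set N)) :=
    fun a => wellFounded_lt.fix_eq _ a
  have hSle : ∀ a, K.le (S a) := fun a => by rw [hS]; exact hh1 _
  have hSD : ∀ a, D ⊆ S a := fun a => by
    rw [hS]
    exact (Set.subset_union_left.trans Set.subset_union_left).trans (hh2 _)
  have hSen : ∀ a, en a ∈ S a := fun a => by
    rw [hS]
    exact hh2 _ (Or.inl (Or.inr rfl))
  have hSlt : ∀ b a, b < a → S b ≤ S a := fun b a h => by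
    intro x hx
    rw [hS a]
    exact hh2 _ (Or.inr (Set.mem_iUnion.2 ⟨⟨b, h⟩, hx⟩))
  have hSm : Monotone S := fun b a h => by
    rcases h.eq_or_lt with rfl | h
    · exact le_rfl
    · exact hSlt b a h
  have hcard : ∀ a, #(S a) ≤ θ + #(Set.Iio a) := by
    intro a
    induction a using WellFoundedLT.induction with
    | ind a ih =>
      have hm : ℵ₀ ≤ θ + #(Set.Iio a) := hθ0.trans (self_le_add_right _ _)
      have h1 : #(⋃ b : Set.Iio a, (S b.1 : Set N)) ≤ θ + #(Set.Iio a) := by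
        refine (mk_iUnion_le _).trans ?_
        calc #(Set.Iio a) * ⨆ b : Set.Iio a, #(S b.1)
            ≤ (θ + #(Set.Iio a)) * (θ + #(Set.Iio a)) := by
              refine mul_le_mul' (self_le_add_left _ _) (ciSup_le' fun b => ?_)
              refine (ih b.1 b.2).trans (add_le_add le_rfl ?_)
              exact mk_le_mk_of_subset fun x hx => Set.mem_Iio.2 (lt_trans (Set.mem_Iio.1 hx) b.2)
          _ = θ + #(Set.Iio a) := mul_eq_self hm
      rw [hS]
      refine (hh3 _).trans ?_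
      have h2 : #(D ∪ {en a} ∪ ⋃ b : Set.Iio a, (S b.1 : Set N) : Set N) ≤ θ + #(Set.Iio a) := by
        refine (mk_union_le _ _).trans (add_le_of_le hm ((mk_union_le _ _).trans ?_) h1)
        rw [hD, mk_singleton]
        exact add_le_of_le hm (self_le_add_right _ _) (one_le_aleph0.trans hm)
      exact add_le_of_le hm h2 (hlθ.trans (self_le_add_right _ _))
  have hlt : ∀ a, #(S a) < κ := fun a => by
    refine (hcard a).trans_lt (add_lt_of_lt hκ0 hθκ ?_)
    exact mk_Iio_toType_ord_lt a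
  have hge : ∀ a, θ ≤ #(S a) := fun a => by
    rw [← hD]
    exact mk_le_mk_of_subset (hSD a)
  let Z : Type u := κ.ord.ToType
  have hZ : #Z = κ := mk_ord_toType κ
  obtain ⟨f, hf1, hf2⟩ := exists_coherent_family (fun a => (S a ↪[L] F.obj Z))
    (fun {b a} h g => g.comp (Substructure.inclusion (hSlt b a h))) (fun a g => K.Emb g) (by
      intro a g hg1 hg2
      by_cases hne : Nonempty (Set.Iio a)
      · have hinc : Monotone fun b : Set.Iio a => S b.1 := fun b c h => hSm h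
        obtain ⟨G, hG1, hG2⟩ := SymmetricFamily.glue_emb (K := K) (fun b : Set.Iio a => S b.1) hinc
          (fun b => g b.1 b.2) (fun b => hg1 b.1 b.2) (by
            intro b c hbc x
            rcases hbc.eq_or_lt with rfl | h
            · rfl
            · have h1 := hg2 b.1 c.1 h c.2
              exact DFunLike.congr_fun h1 x)
        have hU : K.le (⨆ b : Set.Iio a, S b.1) :=
          K.chain_smooth _ (fun b c h => hinc h) fun b => hSle b.1
        have hUa : (⨆ b : Set.Iio a, S b.1) ≤ S a := iSup_le fun b => hSlt b.1 a b.2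
        have hj := (AEC.sle_of_le_le hUa hU (hSle a)).2
        have hDU : D ⊆ (⨆ b : Set.Iio a, S b.1 : L.Substructure N) := by
          obtain ⟨b⟩ := hne
          exact (hSD b.1).trans (le_iSup (fun b : Set.Iio a => S b.1) b)
        have hUθ : θ ≤ #(⨆ b : Set.Iio a, S b.1 : L.Substructure N) := by
          rw [← hD]
          exact mk_le_mk_of_subset hDU
        have hUeq : #(S a) = #(⨆ b : Set.Iio a, S b.1 : L.Substructure N) := by
          refine le_antisymm ?_ (mk_le_mk_of_subset hUa)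
          have hU0 := hθ0.trans hUθ
          rw [hS]
          refine (hh3 _).trans (add_le_of_le hU0 ?_ (hlθ.trans hUθ))
          have h3 : (D ∪ {en a} ∪ ⋃ b : Set.Iio a, (S b.1 : Set N) : Set N) ⊆
              insert (en a) ((⨆ b : Set.Iio a, S b.1 : L.Substructure N) : Set N) := by
            rintro x ((hx | hx) | hx)
            · exact Or.inr (hDU hx)
            · exact Or.inl hx
            · obtain ⟨b, hb⟩ := Set.mem_iUnion.1 hx
              exact Or.inr (le_iSup (fun b : Set.Iio a => S b.1) b hb)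
          refine (mk_le_mk_of_subset h3).trans (mk_insert_le.trans ?_)
          exact add_le_of_le hU0 le_rfl (one_le_aleph0.trans hU0)
        obtain ⟨f', h1, h2⟩ := extend_embL hF hC (hθ.trans_le hUθ) (Substructure.inclusion hUa) hj hUeq
          (hθ0.trans hUθ) (hstd _ hUθ (hUeq.symm.trans_lt (hlt a)))
          (fun X Y _ _ i hX hY => hfl X Y i (hX.trans hY.symm) (hUθ.trans hX.ge)) G hG1
          (by rw [hZ]; exact hUeq.symm.trans_lt (hlt a))
        refine ⟨f', h1, fun b hb => ?_⟩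
        apply Language.Embedding.ext
        intro x
        have h3 := h2 (Substructure.inclusion (le_iSup (fun b : Set.Iio a => S b.1) ⟨b, hb⟩) x)
        have h4 := hG2 ⟨b, hb⟩ x
        change f' (Substructure.inclusion _ x) = g b hb x
        rw [← h4, ← h3]
        rfl
      · obtain ⟨e⟩ := hstd _ (hge a) (hlt a) (S a) (K.mem_of_le _ (hSle a)).1 rfl
          (#(S a)).ord.ToType (mk_ord_toType _)
        obtain ⟨i⟩ : Nonempty ((#(S a)).ord.ToType ↪ Z) := by
          rw [← Cardinal.le_def, mk_ord_toType, hZ]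
          exact (hlt a).le
        obtain ⟨G, hG, -⟩ := hF.exists_lift i ∅ i.injective fun x hx =>
          absurd hx (Set.notMem_empty x)
        refine ⟨G.comp e.toEmbedding, ?_, fun b hb => absurd ⟨⟨b, hb⟩⟩ hne⟩
        exact hG.emb.comp (AEC.Emb.of_equiv e (K.mem_of_le _ (hSle a)).1))
  have hne : Nonempty κ.ord.ToType := by
    rw [← mk_ne_zero_iff, mk_ord_toType]
    exact (aleph0_pos.trans_le hκ0).ne'
  obtain ⟨G, hG1, -⟩ := SymmetricFamily.glue_emb (K := K) S hSm f hf1 (by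
    intro b c hbc x
    rcases hbc.eq_or_lt with rfl | h
    · rfl
    · exact DFunLike.congr_fun (hf2 b c h) x)
  have htop : (⨆ a, S a) = ⊤ := by
    rw [eq_top_iff]
    intro x _
    have h1 := hSen (en.symm x)
    rw [en.apply_symm_apply] at h1
    exact le_iSup S (en.symm x) h1
  have e1 : N ≃[L] (⊤ : L.Substructure N) := Substructure.topEquiv.symm
  rw [← htop] at e1
  refine std_of_embL hF hK hC (G.comp e1.toEmbedding) (hG1.comp (AEC.Emb.of_equiv e1 hN)) ?_ ?_
  · rw [hNκ]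
    exact hθ.trans hθκ
  · rw [hX, hNκ]

/-- Choice of an isomorphism for which a strong extension induces an inclusion of sets of points. -/
theorem exists_reprL (hF : F.Moves) {l : Cardinal.{u}} (hC : F.HomGeL l) {N N' Z : Type u}
    [L.Structure N] [L.Structure N'] [LinearOrder Z] {A B : Set Z} (hlB : max l ℵ₀ < #B)
    (hlA : max l ℵ₀ < #A)
    (hAB : A ⊆ B) (j : N ↪[L] N') (hj : K.Emb j)
    (φ : N ≃[L] F.obj A) (ψ₀ : N' ≃[L] F.obj B) (hc : #A < #B) :
    ∃ φ' : N' ≃[L] F.obj B,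
      F.Ind (φ'.toEmbedding.comp (j.comp φ.symm.toEmbedding)) (incl hAB) := by
  have hφ : K.Emb φ.symm.toEmbedding := AEC.Emb.of_equiv _ (F.mem_obj A)
  have hψ₀ : K.Emb ψ₀.toEmbedding := AEC.Emb.of_equiv _ hj.mem_right
  obtain ⟨σ, t, ht₀⟩ := (hC #B hlB).1 A B rfl hlA
    (ψ₀.toEmbedding.comp (j.comp φ.symm.toEmbedding)) (hψ₀.comp (hj.comp hφ))
  let ψ : N' ≃[L] F.obj B := σ.comp ψ₀
  have ht : F.Ind (ψ.toEmbedding.comp (j.comp φ.symm.toEmbedding)) t := ht₀
  let et := Equiv.ofInjective t ht.inj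
  let f : Set.range t ↪ B := et.symm.toEmbedding.trans (incl hAB).toEmbedding
  obtain ⟨β, hβ⟩ := extend_function_of_lt f (by rwa [mk_range_eq t ht.inj]) ⟨Equiv.refl B⟩
  obtain ⟨e, he⟩ := hF.exists_iso β
  refine ⟨e.comp ψ, ?_⟩
  refine (ht.comp he).congr fun x => ?_
  have h1 := hβ (et x)
  change β (t x) = incl hAB (et.symm (et x)) at h1
  rw [et.symm_apply_apply] at h1
  exact h1

/-- The critical cardinal. -/
theorem std_baseL (hF : F.Moves) {l : Cardinal.{u}} (hK : F.Ok l) (hC : F.HomGeL l)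
    (k : ℕ → Cardinal.{u}) (hk : StrictMono k) (hk0 : max l ℵ₀ < k 0) (hstd : ∀ n, F.Std (k n))
    (hst : ∀ (n : ℕ) (X Y Z : Type u) [LinearOrder X] [LinearOrder Y] [LinearOrder Z]
        (i : X ↪o Y) (j : Y ↪o Z), #X = k n → #Y = k (n + 1) →
        #Z = k (n + 2) → ∀ g : F.Gp Y, ∃ h : F.Gp Z, rs (i.trans j) h = rs i g) :
    F.Std (⨆ n, k n) := by
  intro N _ hN hNθ X _ hX
  have hkχ : ∀ n, max l ℵ₀ < k n := fun n => hk0.trans_le (hk.monotone (Nat.zero_le n))
  have hk_0 : ∀ n, ℵ₀ ≤ k n := fun n => (le_max_right _ _).trans (hkχ n).le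
  have hkl : ∀ n, l ≤ k n := fun n => (le_max_left _ _).trans (hkχ n).le
  have hbdd : BddAbove (Set.range k) := bddAbove_of_small
  have hkle : ∀ n, k n ≤ #N := fun n => by
    rw [hNθ]
    exact le_ciSup hbdd n
  obtain ⟨D, hD1, hD2⟩ := SymmetricFamily.exists_layers k hNθ.le
  choose B hB using fun n => le_mk_iff_exists_set.1 (hkle n)
  choose hull hh1 hh2 hh3 using hK.ls.2.2 N hN
  obtain ⟨S, hS0, hS1⟩ : ∃ S : ℕ → L.Substructure N, S 0 = hull (D 0 ∪ B 0) ∧
      ∀ n, S (n + 1) = hull ((S n : Set N) ∪ (D (n + 1) ∪ B (n + 1))) :=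
    ⟨fun n => Nat.rec (motive := fun _ => L.Substructure N) (hull (D 0 ∪ B 0))
      (fun n T => hull ((T : Set N) ∪ (D (n + 1) ∪ B (n + 1)))) n, rfl, fun n => rfl⟩
  have hSle : ∀ n, K.le (S n) := fun n => by
    cases n with
    | zero => rw [hS0]; exact hh1 _
    | succ n => rw [hS1]; exact hh1 _
  have hSDB : ∀ n, D n ∪ B n ⊆ S n := fun n => by
    cases n with
    | zero => rw [hS0]; exact hh2 _
    | succ n =>
      rw [hS1]
      exact Set.subset_union_right.trans (hh2 _)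
  have hSs : ∀ n, S n ≤ S (n + 1) := fun n => by
    intro x hx
    rw [hS1]
    exact hh2 _ (Or.inl hx)
  have hSm : Monotone S := monotone_nat_of_le_succ hSs
  have hDB : ∀ n, #(D n ∪ B n : Set N) ≤ k n := fun n =>
    (mk_union_le _ _).trans (add_le_of_le (hk_0 n) (hD1 n) (hB n).le)
  have hcard : ∀ n, #(S n) = k n := by
    have hge : ∀ n, k n ≤ #(S n) := fun n => by
      rw [← hB n]
      exact mk_le_mk_of_subset (Set.subset_union_right.trans (hSDB n))
    intro n
    refine le_antisymm ?_ (hge n)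
    induction n with
    | zero =>
      rw [hS0]
      exact (hh3 _).trans (add_le_of_le (hk_0 0) (hDB 0) (hkl 0))
    | succ n ih =>
      rw [hS1]
      refine (hh3 _).trans (add_le_of_le (hk_0 _) ?_ (hkl _))
      exact (mk_union_le _ _).trans (add_le_of_le (hk_0 _)
        (ih.trans (hk.monotone (Nat.le_succ n))) (hDB _))
  have hmem : ∀ n, K.mem (S n) := fun n => (K.mem_of_le _ (hSle n)).1
  let Z : Type u := (⨆ n, k n).ord.ToType
  have hZ : #Z = ⨆ n, k n := mk_ord_toType _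
  choose P hP using fun n => le_mk_iff_exists_set.1 (show k n ≤ #Z by
    rw [hZ]
    exact le_ciSup hbdd n)
  let A : ℕ → Set Z := fun n => {z | ∃ m ≤ n, z ∈ P m}
  have hAm : Monotone A := by
    rintro m n hmn z ⟨r, hr, hz⟩
    exact ⟨r, hr.trans hmn, hz⟩
  have hAc : ∀ n, #(A n) = k n := by
    intro n
    refine le_antisymm ?_ ?_
    · induction n with
      | zero =>
        rw [← hP 0]
        refine mk_le_mk_of_subset ?_
        rintro z ⟨m, hm, hz⟩
        rwa [Nat.le_zero.1 hm] at hz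
      | succ n ih =>
        have h1 : A (n + 1) ⊆ A n ∪ P (n + 1) := by
          rintro z ⟨m, hm, hz⟩
          rcases Nat.le_succ_iff.1 hm with h | h
          · exact Or.inl ⟨m, h, hz⟩
          · rw [h] at hz
            exact Or.inr hz
        refine (mk_le_mk_of_subset h1).trans ((mk_union_le _ _).trans ?_)
        exact add_le_of_le (hk_0 _) (ih.trans (hk.monotone (Nat.le_succ n))) (hP _).le
    · rw [← hP n]
      exact mk_le_mk_of_subset fun z hz => ⟨n, le_rfl, hz⟩
  have hinc : ∀ n, K.Emb (Substructure.inclusion (hSs n)) := fun n =>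
    (AEC.sle_of_le_le (hSs n) (hSle n) (hSle (n + 1))).2
  have hψ : ∀ n, Nonempty (S n ≃[L] F.obj (A n)) := fun n =>
    hstd n (S n) (hmem n) (hcard n) (A n) (hAc n)
  have hrep : ∀ n (φ : S n ≃[L] F.obj (A n)), ∃ φ' : S (n + 1) ≃[L] F.obj (A (n + 1)),
      F.Ind (φ'.toEmbedding.comp ((Substructure.inclusion (hSs n)).comp φ.symm.toEmbedding))
        (incl (hAm (Nat.le_succ n))) := fun n φ =>
    exists_reprL hF hC (by rw [hAc]; exact hkχ _) (by rw [hAc]; exact hkχ _) (hAm (Nat.le_succ n)) _ (hinc n) φ (hψ (n + 1)).some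
      (by rw [hAc, hAc]; exact hk (Nat.lt_succ_self n))
  choose e he using hrep
  let φ : ∀ n, S n ≃[L] F.obj (A n) := fun n =>
    Nat.rec (motive := fun n => S n ≃[L] F.obj (A n)) (hψ 0).some e n
  have hφ : ∀ n, F.Ind ((φ (n + 1)).toEmbedding.comp
      ((Substructure.inclusion (hSs n)).comp (φ n).symm.toEmbedding))
      (incl (hAm (Nat.le_succ n))) := fun n => he n (φ n)
  let i : ∀ n, A n ↪o A (n + 1) := fun n => incl (hAm (Nat.le_succ n))
  choose g hg using fun n => factor (hφ n) (ind_map (i n))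
  have hg' : ∀ n (x : S n), φ (n + 1) (Substructure.inclusion (hSs n) x) =
      F.map (i n) ((g n).1 (φ n x)) := by
    intro n x
    have h1 := hg n (φ n x)
    change φ (n + 1) (Substructure.inclusion (hSs n) ((φ n).symm (φ n x))) = _ at h1
    rwa [(φ n).symm_apply_apply] at h1
  have hmul : ∀ n (a b : F.Gp (A (n + 1))), rs (i n) (a * b) = rs (i n) a * rs (i n) b := by
    intro n a b
    apply rs_eq
    intro c
    rw [Subgroup.coe_mul, Subgroup.coe_mul, Equiv.Perm.mul_apply, Equiv.Perm.mul_apply,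
      rs_spec, rs_spec]
  have htrans : ∀ n (a : F.Gp (A (n + 2))), rs ((i n).trans (i (n + 1))) a =
      rs (i n) (rs (i (n + 1)) a) := by
    intro n a
    apply rs_eq
    intro c
    rw [F.map_trans, F.map_trans, rs_spec, rs_spec]
  obtain ⟨γ, hγ⟩ := mittag (G := fun n => F.Gp (A n)) (E := fun n => F.Gp (A n))
    (fun n a b => a * b) (fun n e e' => ⟨e' * e⁻¹, inv_mul_cancel_right e' e⟩) (fun n => rs (i n))
    (fun n a => rs (i n) a * g n)
    (fun n a b => by rw [hmul, mul_assoc]) (fun n => ⟨1⟩) (fun n a => by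
      obtain ⟨h, hh⟩ := hst n _ _ _ (i n) (i (n + 1)) (hAc n) (hAc (n + 1)) (hAc (n + 2)) a
      exact ⟨h, by rw [← hh, htrans]⟩)
  choose s hs hs' using fun n => (γ n).2.ind
  let f : ∀ n, S n ↪[L] F.obj Z := fun n =>
    (F.map (inc (A n))).comp ((s n).toEmbedding.comp (φ n).toEmbedding)
  have hf : ∀ n, K.Emb (f n) := fun n =>
    (F.emb_map _).comp ((hs' n).emb.comp (AEC.Emb.of_equiv _ (hmem n)))
  have hfv : ∀ n x, f n x = F.map (inc (A n)) ((γ n).1 (φ n x)) := fun n x => by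
    rw [← hs]
    rfl
  have hfs : ∀ n (x : S n), f (n + 1) (Substructure.inclusion (hSs n) x) = f n x := by
    intro n x
    refine (hfv (n + 1) _).trans ?_
    rw [hfv n x, hg' n x, ← rs_spec (i n) (γ (n + 1)), F.map_incl]
    refine congrArg (F.map (inc (A n))) ?_
    rw [← hγ n]
    rfl
  have hfc : ∀ m n (hmn : m ≤ n) (x : S m), f n (Substructure.inclusion (hSm hmn) x) = f m x := by
    intro m n hmn
    induction n, hmn using Nat.le_induction with
    | base =>
      intro x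
      rfl
    | succ n hmn ih =>
      intro x
      rw [← ih x, ← hfs n]
      rfl
  obtain ⟨G, hG1, -⟩ := SymmetricFamily.glue_emb (K := K) (ι := ULift.{u} ℕ) (fun n => S n.down)
    (fun m n h => hSm h) (fun n => f n.down) (fun n => hf n.down)
    (fun m n h x => hfc m.down n.down h x)
  have htop : (⨆ n : ULift.{u} ℕ, S n.down) = ⊤ := by
    rw [eq_top_iff]
    intro x _
    obtain ⟨n, hn⟩ := hD2 x
    exact le_iSup (fun n : ULift.{u} ℕ => S n.down) ⟨n⟩ (hSDB n (Or.inl hn))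
  have e1 : N ≃[L] (⊤ : L.Substructure N) := Substructure.topEquiv.symm
  rw [← htop] at e1
  refine std_of_embL hF hK hC (G.comp e1.toEmbedding) (hG1.comp (AEC.Emb.of_equiv e1 hN)) ?_ ?_
  · exact (hkχ 0).trans_le (hkle 0)
  · rw [hX, hNθ]

theorem StdAtL.homAtL {l κ : Cardinal.{u}} (h : F.StdAtL l κ) : F.HomAtL l κ := by
  intro I J lo lo' hJ hI θ hθ
  obtain ⟨σ, t, -, h1, -⟩ := h I J hJ hI θ hθ ⊤ (K.le_refl (F.mem_obj J)) le_top
  exact ⟨σ, t, h1⟩

theorem homGe_of_unboundedL {l : Cardinal.{u}} (hK : F.Ok l)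
    (hunb : ∀ χ : Cardinal.{u}, ∃ κ, χ ≤ κ ∧ K.CategoricalIn κ ∧ F.StdAtL l κ ∧ F.ConjAtL l κ)
    (hF : F.Moves) : F.HomGeL l := by
  classical
  intro κ₀ hκ₀
  have hhom : F.HomAtL l κ₀ := by
    intro I J lo lo' hJ hI θ hθ
    subst hJ
    obtain ⟨κ, hκ1, -, hstd, -⟩ := hunb #J
    have hκ0 : ℵ₀ ≤ κ := ((le_max_right l ℵ₀).trans hκ₀.le).trans hκ1
    let Z : Type u := J ⊕ₗ κ.ord.ToType
    have hZ : #Z = κ := by
      change #(J ⊕ κ.ord.ToType) = κ
      rw [mk_sum, lift_id, lift_id, mk_ord_toType]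
      exact add_eq_right hκ0 hκ1
    let j : J ↪o Z := lft
    obtain ⟨τ, t', W, h1, h2⟩ := hstd I Z hZ hI ((F.map j).comp θ) (AEC.Emb.comp (F.emb_map j) hθ)
      (F.map j).toHom.range (F.emb_map j) (by
        rintro _ ⟨a, rfl⟩
        exact ⟨θ a, rfl⟩)
    let ρ : F.obj J ↪[L] F.obj Z := τ.toEmbedding.comp (F.map j)
    have hρtop : ρ.toHom.range = F.sub W := by
      rw [← h2]
      ext y
      constructor
      · rintro ⟨a, rfl⟩
        exact ⟨F.map j a, ⟨a, rfl⟩, rfl⟩
      · rintro ⟨_, ⟨a, rfl⟩, rfl⟩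
        exact ⟨a, rfl⟩
    obtain ⟨ρ', hρ'⟩ := F.exists_cores ρ (inc W) fun n => by
      have h1 : ρ n ∈ ρ.toHom.range := ⟨n, rfl⟩
      rw [hρtop] at h1
      refine F.sub_mono ?_ h1
      exact fun w hw => ⟨⟨w, hw⟩, rfl⟩
    have hρ's : Surjective ρ' := by
      intro y
      have h1 : F.map (inc W) y ∈ ρ.toHom.range := by
        rw [hρtop]
        exact ⟨y, rfl⟩
      obtain ⟨x, hx⟩ := h1
      refine ⟨x, (F.map (inc W)).injective ?_⟩
      rw [hρ']
      exact hx
    obtain ⟨ε, hε⟩ := Fam.exists_equiv_of_surj ρ' hρ's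
    have hcard : #(F.obj W) = #J := by
      rw [← Fam.card_obj hK J hκ₀]
      exact (mk_congr ε.toEquiv).symm
    have hW : max l ℵ₀ < #W := by
      by_contra h1
      rw [not_lt] at h1
      have h2 : #J ≤ max l ℵ₀ := by
        rw [← hcard]
        exact (Fam.card_obj_le hK W).trans
          (add_le_of_le (le_max_right _ _) h1 (le_max_left _ _))
      exact absurd hκ₀ (not_lt.2 h2)
    have hWJ : #W = #J := by rw [← hcard, Fam.card_obj hK W hW]
    obtain ⟨β⟩ : Nonempty (W ≃ J) := Cardinal.eq.1 hWJ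
    obtain ⟨e, he⟩ := hF.exists_iso β
    have htW : ∀ i, t' i ∈ W := by
      intro i
      have h3 : F.sub (Set.range t') ≤ F.sub W := by
        intro b hb
        obtain ⟨a, rfl⟩ := h1.rng b hb
        rw [← hρtop]
        exact ⟨θ a, rfl⟩
      exact F.sub_le_iff.1 h3 ⟨i, rfl⟩
    let t'' : I → W := fun i => ⟨t' i, htW i⟩
    have h4 : F.Ind (ε.toEmbedding.comp θ) t'' := by
      refine (ind_map (inc W)).of_comp ?_
      have h5 : (F.map (inc W)).comp (ε.toEmbedding.comp θ) =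
          τ.toEmbedding.comp ((F.map j).comp θ) := by
        apply Language.Embedding.ext
        intro a
        change F.map (inc W) (ε (θ a)) = τ (F.map j (θ a))
        rw [hε, hρ']
        rfl
      rw [h5]
      exact h1.congr fun _ => rfl
    refine ⟨e.comp ε, β ∘ t'', ?_⟩
    exact h4.comp he
  refine ⟨hhom, ?_⟩
  intro J lo hJ S hS hSl
  have hJ' : max l ℵ₀ < #J := by rw [hJ]; exact hκ₀
  obtain ⟨κ, hκ1, -, -, hconj⟩ := hunb #J
  have hκ0 : ℵ₀ ≤ κ := ((le_max_right l ℵ₀).trans hJ'.le).trans hκ1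
  let Z : Type u := J ⊕ₗ κ.ord.ToType
  have hZ : #Z = κ := by
    change #(J ⊕ κ.ord.ToType) = κ
    rw [mk_sum, lift_id, lift_id, mk_ord_toType]
    exact add_eq_right hκ0 hκ1
  let j : J ↪o Z := lft
  obtain ⟨τ, A, h1⟩ := hconj Z hZ (S.map (F.map j).toHom) (le_map (F.map j) (F.emb_map j) hS)
    (by rwa [← mk_congr ((F.map j).substructureEquivMap S).toEquiv])
  let θ₀ : F.obj A ↪[L] F.obj Z := τ.symm.toEmbedding.comp (F.map (inc A))
  have hθ₀ : θ₀.toHom.range = S.map (F.map j).toHom := by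
    ext y
    constructor
    · rintro ⟨a, rfl⟩
      have h2 : F.map (inc A) a ∈ F.sub A := ⟨a, rfl⟩
      rw [← h1] at h2
      obtain ⟨z, hz, hz2⟩ := h2
      have h3 : θ₀ a = z := by
        change τ.symm (F.map (inc A) a) = z
        rw [← hz2]
        exact τ.symm_apply_apply z
      change θ₀ a ∈ S.map (F.map j).toHom
      rw [h3]
      exact hz
    · intro hy
      have h2 : τ y ∈ F.sub A := by
        rw [← h1]
        exact ⟨y, hy, rfl⟩
      obtain ⟨a, ha⟩ := h2
      refine ⟨a, ?_⟩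
      change τ.symm (F.map (inc A) a) = y
      have h3 : F.map (inc A) a = τ y := ha
      rw [h3]
      exact τ.symm_apply_apply y
  have hθ₀K : K.Emb θ₀ := by
    unfold AEC.Emb
    rw [hθ₀]
    exact le_map (F.map j) (F.emb_map j) hS
  obtain ⟨θ, hθ⟩ := F.exists_cores θ₀ j fun n => by
    have h2 : θ₀ n ∈ S.map (F.map j).toHom := by
      rw [← hθ₀]
      exact ⟨n, rfl⟩
    obtain ⟨z, -, hz⟩ := h2
    exact (F.mem_range_map j).1 ⟨z, hz⟩
  have hθj : (F.map j).comp θ = θ₀ := by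
    apply Language.Embedding.ext
    exact hθ
  have hθK : K.Emb θ := by
    refine AEC.Emb.of_comp (F.emb_map j) ?_
    rw [hθj]
    exact hθ₀K
  have hrange : θ.toHom.range = S := by
    apply strong_map_injective (F.map j)
    rw [← hθ₀, ← hθj]
    ext y
    constructor
    · rintro ⟨_, ⟨a, rfl⟩, rfl⟩
      exact ⟨a, rfl⟩
    · rintro ⟨a, rfl⟩
      exact ⟨_, ⟨a, rfl⟩, rfl⟩
  obtain ⟨σ, t, ht⟩ := hhom A J hJ (by
    by_contra h9
    rw [not_lt] at h9
    have h10 : #S ≤ max l ℵ₀ := by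
      rw [← hrange, ← mk_congr θ.equivRange.toEquiv]
      exact (Fam.card_obj_le hK A).trans (add_le_of_le (le_max_right _ _) h9 (le_max_left _ _))
    exact absurd hSl (not_lt.2 h10)) θ hθK
  refine ⟨σ, Set.range t, ?_⟩
  ext b
  constructor
  · rintro ⟨y, hy, rfl⟩
    have hy' : y ∈ θ.toHom.range := by rw [hrange]; exact hy
    obtain ⟨a, rfl⟩ := hy'
    exact ht.mem_range a
  · intro hb
    obtain ⟨a, rfl⟩ := ht.rng b hb
    refine ⟨θ a, ?_, rfl⟩
    have h2 : θ a ∈ θ.toHom.range := ⟨a, rfl⟩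
    rw [hrange] at h2
    exact h2

end Fam

/-- A class with a family indexed by linear orders which is categorical in arbitrarily large
cardinals is categorical in all sufficiently large cardinals. -/
theorem eventually_of_famL {K : AEC L} (F : Fam K) {l : Cardinal.{u}} (hK : F.Ok l)
    (hF : F.Moves) (hC : F.HomGeL l)
    (h : ∀ χ : Cardinal.{u}, ∃ κ, χ ≤ κ ∧ K.CategoricalIn κ) :
    ∃ χ : Cardinal.{u}, ∀ κ, χ ≤ κ → K.CategoricalIn κ := by
  obtain ⟨k, h1, h2, -, h4, h5⟩ := (F.toOSys hF).flasque {κ | max l ℵ₀ < κ ∧ K.CategoricalIn κ} (by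
    intro a
    obtain ⟨κ, h1, h2⟩ := h (max a (Order.succ (max l ℵ₀)))
    exact ⟨κ, ⟨Order.succ_le_iff.1 ((le_max_right _ _).trans h1), h2⟩,
      (le_max_left _ _).trans h1⟩)
  have hbdd : BddAbove (Set.range k) := bddAbove_of_small
  have hk0 : max l ℵ₀ < k 0 := (h2 0).1
  have hbase : F.Std (⨆ n, k n) :=
    Fam.std_baseL hF hK hC k h1 hk0
      (fun n => Fam.Std.of_cat hK (h2 n).1 (h2 n).2) h4
  have hθ : max l ℵ₀ < ⨆ n, k n := hk0.trans_le (le_ciSup hbdd 0)
  refine ⟨⨆ n, k n, fun κ hκ => ?_⟩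
  have hall : ∀ κ, (⨆ n, k n) ≤ κ → F.Std κ := by
    intro κ
    induction κ using WellFoundedLT.induction with
    | ind κ ih =>
      intro hκ
      rcases hκ.eq_or_lt with rfl | hlt
      · exact hbase
      · exact Fam.std_stepL hF hK hC hθ hlt
          (fun κ' h6 h7 => ih κ' h7 h6) (fun X Y _ _ i h6 h7 => h5 X Y i h6 h7)
  exact (hall κ hκ).cat hK (hθ.trans_le hκ)

/-- A class with a family indexed by linear orders, whose strong embeddings can be moved to standard
position at unboundedly many categoricity cardinals, if they are large, is categorical in all large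
cardinals. -/
theorem eventually_of_stdAtL {K : AEC L} (F : Fam K) {l : Cardinal.{u}} (hK : F.Ok l)
    (h : ∀ χ : Cardinal.{u}, ∃ κ, χ ≤ κ ∧ K.CategoricalIn κ ∧ F.StdAtL l κ ∧ F.ConjAtL l κ) :
    ∃ χ : Cardinal.{u}, ∀ κ, χ ≤ κ → K.CategoricalIn κ := by
  have hF : F.Moves := Fam.moves_of_unboundedL hK fun χ => by
    obtain ⟨κ, h1, h2, h3, -⟩ := h χ
    exact ⟨κ, h1, h2, h3.homAtL⟩
  exact eventually_of_famL F hK hF (Fam.homGe_of_unboundedL hK h hF) fun χ => by
    obtain ⟨κ, h1, h2, -⟩ := h χ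
    exact ⟨κ, h1, h2⟩

end Vale.Agent.P307.Pw
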