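import Vale.Agent.P307.H227.Fam

/-!
The group functor of a symmetric family.
-/

universe u

open FirstOrder Cardinal Function Language

namespace Vale.Agent.P307.H227

variable {L : Language.{u, u}}

namespace SymmetricFamily

variable {K : AEC L} {χ : Cardinal.{u}} (F : SymmetricFamily K χ)

/-- `σ` is an automorphism of the structure `obj X` which is the identity on points. -/
structure IsPt {X : Type u} (σ : Equiv.Perm (F.obj X)) : Prop where
  iso : ∃ e : F.obj X ≃[L] F.obj X, ∀ a, e a = σ a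
  pt : ∀ (x : X) (a : F.obj X), σ a ∈ F.sub {x}ᶜ ↔ a ∈ F.sub {x}ᶜ

theorem IsPt.one {X : Type u} : F.IsPt (1 : Equiv.Perm (F.obj X)) where
  iso := ⟨Language.Equiv.refl L _, fun _ => rfl⟩
  pt _ _ := Iff.rfl

variable {F}

theorem IsPt.mul {X : Type u} {σ τ : Equiv.Perm (F.obj X)} (hσ : F.IsPt σ) (hτ : F.IsPt τ) :
    F.IsPt (σ * τ) where
  iso := by
    obtain ⟨e, he⟩ := hσ.iso
    obtain ⟨f, hf⟩ := hτ.iso
    exact ⟨e.comp f, fun a => by
      rw [Equiv.Perm.mul_apply, ← hf, ← he]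
      rfl⟩
  pt x a := by
    rw [Equiv.Perm.mul_apply, hσ.pt, hτ.pt]

theorem IsPt.inv {X : Type u} {σ : Equiv.Perm (F.obj X)} (hσ : F.IsPt σ) : F.IsPt σ⁻¹ where
  iso := by
    obtain ⟨e, he⟩ := hσ.iso
    refine ⟨e.symm, fun a => ?_⟩
    rw [Equiv.Perm.eq_inv_iff_eq, ← he]
    exact e.apply_symm_apply a
  pt x a := by
    rw [← hσ.pt x (σ⁻¹ a), show σ (σ⁻¹ a) = a from σ.apply_symm_apply a]

/-- An automorphism which is the identity on points preserves all large strong substructures. -/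
theorem IsPt.mem_sub {X : Type u} {σ : Equiv.Perm (F.obj X)} (hσ : F.IsPt σ) {A : Set X}
    (hA : χ < #A) (a : F.obj X) : σ a ∈ F.sub A ↔ a ∈ F.sub A := by
  have key : ∀ {τ : Equiv.Perm (F.obj X)}, F.IsPt τ → ∀ a ∈ F.sub A, τ a ∈ F.sub A := by
    intro τ hτ a ha
    obtain ⟨e, he⟩ := hτ.iso
    have h1 := K.le_iso e (F.sub A) (F.le_sub hA)
    have h2 : #((F.sub A).map e.toHom) = #A := by
      have h3 : #((F.sub A).map e.toHom) = #(F.sub A) :=
        (mk_congr (e.toEmbedding.substructureEquivMap (F.sub A)).toEquiv).symm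
      rw [h3, F.card_sub A, F.card A hA.le]
    obtain ⟨B, hB1, -, hB2⟩ := F.exists_sub (by rw [h2]; exact hA) h1
    have h4 : B ⊆ A := by
      intro x hx
      by_contra hxA
      have h5 : F.sub B ≤ F.sub {x}ᶜ := by
        rw [← hB2]
        rintro _ ⟨b, hb, rfl⟩
        change e b ∈ F.sub {x}ᶜ
        rw [he, hτ.pt]
        have h6 : A ⊆ {x}ᶜ := by
          intro y hy hyx
          rw [Set.mem_singleton_iff] at hyx
          exact hxA (by rwa [← hyx])
        exact F.sub_mono h6 hb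
      exact (F.sub_le_iff hB1).1 h5 hx rfl
    rw [← he]
    have h6 : e a ∈ (F.sub A).map e.toHom := ⟨a, ha, rfl⟩
    rw [hB2] at h6
    exact F.sub_mono h4 h6
  constructor
  · intro h
    have h1 := key hσ.inv _ h
    rwa [show σ⁻¹ (σ a) = a from σ.symm_apply_apply a] at h1
  · exact key hσ a

variable (F)

/-- The group over the set `X`: automorphisms of `obj X` which are the identity on points (and only
the identity for small `X`). -/
def Gp (X : Type u) : Subgroup (Equiv.Perm (F.obj X)) where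
  carrier := {σ | F.IsPt σ ∧ (¬ χ < #X → σ = 1)}
  mul_mem' := by
    rintro σ τ ⟨h1, h2⟩ ⟨h3, h4⟩
    exact ⟨h1.mul h3, fun h => by rw [h2 h, h4 h, one_mul]⟩
  one_mem' := ⟨IsPt.one F, fun _ => rfl⟩
  inv_mem' := by
    rintro σ ⟨h1, h2⟩
    exact ⟨h1.inv, fun h => by rw [h2 h, inv_one]⟩

variable {F}

theorem exists_perm {X Y : Type u} {R : Set (F.obj X × F.obj Y)} (hR : IsPI L R)
    (hl : ∀ a, ∃ b, (a, b) ∈ R) (hr : ∀ b, ∃ a, (a, b) ∈ R) :
    ∃ e : F.obj X ≃[L] F.obj Y, ∀ a, (a, e a) ∈ R := hR.exists_equiv hl hr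

/-- The restriction of an automorphism which is the identity on points. -/
theorem IsPt.exists_res (hχ : ℵ₀ ≤ χ) {X Y : Type u} (i : X ↪ Y) (hX : χ < #X) {σ : Equiv.Perm (F.obj Y)}
    (hσ : F.IsPt σ) : ∃ τ : Equiv.Perm (F.obj X), F.IsPt τ ∧
      ∀ a, F.map i (τ a) = σ (F.map i a) := by
  obtain ⟨s, hs⟩ := hσ.iso
  have hA : χ < #(Set.range i) := by rwa [mk_range_eq i i.injective]
  obtain ⟨e, he⟩ := (isPI_pull (s.toEmbedding.comp (F.map i)) (F.map i)).exists_equiv
    (by
      intro a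
      have h1 : σ (F.map i a) ∈ F.sub (Set.range i) :=
        (hσ.mem_sub hA _).2 ((F.mem_range_map i).1 ⟨a, rfl⟩)
      obtain ⟨b, hb⟩ := (F.mem_range_map i).2 h1
      refine ⟨b, ?_⟩
      change s (F.map i a) = F.map i b
      rw [hs, hb])
    (by
      intro b
      have h1 : σ⁻¹ (F.map i b) ∈ F.sub (Set.range i) :=
        (hσ.inv.mem_sub hA _).2 ((F.mem_range_map i).1 ⟨b, rfl⟩)
      obtain ⟨a, ha⟩ := (F.mem_range_map i).2 h1
      refine ⟨a, ?_⟩
      change s (F.map i a) = F.map i b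
      rw [hs, ha]
      exact σ.apply_symm_apply _)
  have he' : ∀ a, F.map i (e a) = σ (F.map i a) := by
    intro a
    have h1 : s (F.map i a) = F.map i (e a) := he a
    rw [← h1, hs]
  refine ⟨e.toEquiv, ⟨⟨e, fun _ => rfl⟩, ?_⟩, he'⟩
  intro x a
  have hx : χ < #(i '' {x}ᶜ : Set Y) := by
    rw [mk_image_eq i.injective]
    exact card_compl hχ hX x
  change e a ∈ F.sub {x}ᶜ ↔ _
  rw [← F.map_mem_sub_image i, he', hσ.mem_sub hx, F.map_mem_sub_image]

/-- The restriction map of the group functor. -/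
theorem exists_res (hχ : ℵ₀ ≤ χ) {X Y : Type u} (i : X ↪ Y) (σ : F.Gp Y) :
    ∃ τ : F.Gp X, (χ < #X → ∀ a, F.map i (τ.1 a) = σ.1 (F.map i a)) := by
  by_cases hX : χ < #X
  · obtain ⟨τ, h1, h2⟩ := σ.2.1.exists_res hχ i hX
    exact ⟨⟨τ, h1, fun h => absurd hX h⟩, fun _ => h2⟩
  · exact ⟨1, fun h => absurd h hX⟩

/-- The restriction map of the group functor. -/
noncomputable def rs (hχ : ℵ₀ ≤ χ) {X Y : Type u} (i : X ↪ Y) (σ : F.Gp Y) : F.Gp X :=
  (exists_res hχ i σ).choose

theorem rs_spec (hχ : ℵ₀ ≤ χ) {X Y : Type u} (i : X ↪ Y) (σ : F.Gp Y) (hX : χ < #X)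
    (a : F.obj X) : F.map i ((rs hχ i σ).1 a) = σ.1 (F.map i a) :=
  (exists_res hχ i σ).choose_spec hX a

theorem rs_eq (hχ : ℵ₀ ≤ χ) {X Y : Type u} {i : X ↪ Y} {σ : F.Gp Y} {τ : F.Gp X}
    (h : χ < #X → ∀ a, F.map i (τ.1 a) = σ.1 (F.map i a)) : rs hχ i σ = τ := by
  by_cases hX : χ < #X
  · apply Subtype.ext
    apply Equiv.ext
    intro a
    apply (F.map i).injective
    rw [rs_spec hχ i σ hX, h hX]
  · apply Subtype.ext
    rw [(rs hχ i σ).2.2 hX, τ.2.2 hX]

theorem cover {X ι : Type u} [LinearOrder ι] [WellFoundedLT ι] [Nonempty ι]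
    (S : ι → Set X) (hS : Monotone S) (hc : ∀ x, ∃ i, x ∈ S i) (hb : ∀ i, χ < #(S i))
    (a : F.obj X) : ∃ i, a ∈ F.sub (S i) := by
  have hm : Monotone fun i => F.sub (S i) := fun i j hij => F.sub_mono (hS hij)
  have h1 : K.le (⨆ i, F.sub (S i)) :=
    K.chain_smooth _ (fun i j hij => hm hij) fun i => F.le_sub (hb i)
  obtain ⟨i₀⟩ := ‹Nonempty ι›
  have h2 : χ < #(⨆ i, F.sub (S i) : L.Substructure (F.obj X)) := by
    have h3 : #(F.sub (S i₀)) = #(S i₀) := by rw [F.card_sub, F.card _ (hb i₀).le]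
    refine (hb i₀).trans_le ?_
    rw [← h3]
    exact mk_le_of_injective
      (Substructure.inclusion (le_iSup (fun i => F.sub (S i)) i₀)).injective
  obtain ⟨B, -, -, hB⟩ := F.exists_sub h2 h1
  have h4 : B = Set.univ := by
    rw [Set.eq_univ_iff_forall]
    intro x
    obtain ⟨i, hi⟩ := hc x
    refine (F.sub_le_iff (hb i)).1 ?_ hi
    rw [← hB]
    exact le_iSup (fun i => F.sub (S i)) i
  have h5 : a ∈ ⨆ i, F.sub (S i) := by
    rw [hB, h4]
    exact F.sub_univ a
  rwa [Substructure.mem_iSup_of_directed (directed_of_isDirected_le hm)] at h5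

theorem card_diff (hχ : ℵ₀ ≤ χ) {X : Type u} {A : Set X} (hA : χ < #A) (x : X) :
    χ < #(A \ {x} : Set X) := by
  by_contra h
  rw [not_lt] at h
  have h1 : A ⊆ insert x (A \ {x}) := by
    intro y hy
    by_cases hyx : y = x
    · exact Or.inl hyx
    · exact Or.inr ⟨hy, hyx⟩
  have h2 : #A ≤ #(A \ {x} : Set X) + 1 := (mk_le_mk_of_subset h1).trans mk_insert_le
  have h3 : #(A \ {x} : Set X) + 1 ≤ χ := by
    calc #(A \ {x} : Set X) + 1 ≤ χ + χ := add_le_add h (one_le_aleph0.trans hχ)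
      _ = χ := add_eq_self hχ
  exact absurd hA (not_lt.2 (h2.trans h3))

/-- Two embeddings of one structure give a partial isomorphism. -/
theorem isPI_push {M N C : Type u} [L.Structure M] [L.Structure N] [L.Structure C]
    (f : C ↪[L] M) (g : C ↪[L] N) : IsPI L {p : M × N | ∃ c, f c = p.1 ∧ g c = p.2} where
  eq_iff := by
    rintro _ ⟨c, h1, h2⟩ _ ⟨d, h3, h4⟩
    rw [← h1, ← h2, ← h3, ← h4, f.injective.eq_iff, g.injective.eq_iff]
  fun_iff := by
    rintro n G x hx q ⟨d, h3, h4⟩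
    choose c hc1 hc2 using hx
    rw [← h3, ← h4]
    have e1 : (fun i => (x i).1) = f ∘ c := funext fun i => (hc1 i).symm
    have e2 : (fun i => (x i).2) = g ∘ c := funext fun i => (hc2 i).symm
    rw [e1, e2, ← f.map_fun, ← g.map_fun, f.injective.eq_iff, g.injective.eq_iff]
  rel_iff := by
    rintro n r x hx
    choose c hc1 hc2 using hx
    have e1 : (fun i => (x i).1) = f ∘ c := funext fun i => (hc1 i).symm
    have e2 : (fun i => (x i).2) = g ∘ c := funext fun i => (hc2 i).symm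
    rw [e1, e2, f.map_rel, g.map_rel]

/-- The union of a chain of partial isomorphisms is a partial isomorphism. -/
theorem isPI_chain {M N ι : Type u} [L.Structure M] [L.Structure N] [LinearOrder ι] [Nonempty ι]
    (R : ι → Set (M × N)) (hR : ∀ i, IsPI L (R i)) (hm : Monotone R) :
    IsPI L {p | ∃ i, p ∈ R i} where
  eq_iff := by
    rintro p ⟨i, hi⟩ q ⟨j, hj⟩
    exact (hR (max i j)).eq_iff p (hm (le_max_left i j) hi) q (hm (le_max_right i j) hj)
  fun_iff := by
    rintro n f x hx q ⟨j, hj⟩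
    choose k hk using hx
    obtain ⟨m, hm'⟩ := Finite.exists_le k
    exact (hR (max m j)).fun_iff f x
      (fun i => hm ((hm' i).trans (le_max_left m j)) (hk i)) q (hm (le_max_right m j) hj)
  rel_iff := by
    rintro n r x hx
    choose k hk using hx
    obtain ⟨m, hm'⟩ := Finite.exists_le k
    exact (hR m).rel_iff r x fun i => hm (hm' i) (hk i)

theorem map_incl {X : Type u} {A B : Set X} (h : A ⊆ B) (c : F.obj A) :
    F.map (Embedding.subtype (· ∈ B)) (F.map (Set.embeddingOfSubset A B h) c) =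
      F.map (Embedding.subtype (· ∈ A)) c := by
  rw [← F.map_trans]
  rfl

/-- Gluing along a chain. -/
theorem exists_glue (hχ : ℵ₀ ≤ χ) {X ι : Type u} [LinearOrder ι] [WellFoundedLT ι] [Nonempty ι]
    (S : ι → Set X) (hS : Monotone S) (hc : ∀ x, ∃ i, x ∈ S i) (hb : ∀ i, χ < #(S i))
    (g : ∀ i, F.Gp (S i))
    (hg : ∀ i j (hij : i ≤ j), rs hχ (Set.embeddingOfSubset (S i) (S j) (hS hij)) (g j) = g i) :
    ∃ h : F.Gp X, ∀ i, rs hχ (Embedding.subtype (· ∈ S i)) h = g i := by
  choose s hs using fun i => (g i).2.1.iso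
  let R : ι → Set (F.obj X × F.obj X) := fun i => {p | ∃ c : F.obj (S i),
    F.map (Embedding.subtype (· ∈ S i)) c = p.1 ∧
      ((F.map (Embedding.subtype (· ∈ S i))).comp (s i).toEmbedding) c = p.2}
  have hR : ∀ i, IsPI L (R i) := fun i => isPI_push _ _
  have hmR : Monotone R := by
    rintro i j hij p ⟨c, h1, h2⟩
    refine ⟨F.map (Set.embeddingOfSubset (S i) (S j) (hS hij)) c, ?_, ?_⟩
    · rw [map_incl, h1]
    · rw [← h2]
      change F.map _ (s j _) = F.map _ (s i c)
      rw [hs, hs, ← rs_spec hχ _ (g j) (hb i), hg i j hij, map_incl]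
  have hRi := isPI_chain R hR hmR
  obtain ⟨e, he⟩ := hRi.exists_equiv
    (by
      intro a
      obtain ⟨i, c, hc'⟩ := cover S hS hc hb a
      exact ⟨_, i, c, hc', rfl⟩)
    (by
      intro b
      obtain ⟨i, c, hc'⟩ := cover S hS hc hb b
      refine ⟨F.map (Embedding.subtype (· ∈ S i)) ((s i).symm c), i, (s i).symm c, rfl, ?_⟩
      change F.map _ (s i ((s i).symm c)) = b
      rw [(s i).apply_symm_apply]
      exact hc')
  have hval : ∀ i c, e (F.map (Embedding.subtype (· ∈ S i)) c) =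
      F.map (Embedding.subtype (· ∈ S i)) ((g i).1 c) := by
    intro i c
    have h1 := he (F.map (Embedding.subtype (· ∈ S i)) c)
    have h2 : (F.map (Embedding.subtype (· ∈ S i)) c,
        F.map (Embedding.subtype (· ∈ S i)) ((g i).1 c)) ∈ {p | ∃ i, p ∈ R i} := by
      refine ⟨i, c, rfl, ?_⟩
      change F.map _ (s i c) = _
      rw [hs]
    exact (hRi.eq_iff _ h1 _ h2).1 rfl
  obtain ⟨i₀⟩ := ‹Nonempty ι›
  have hX : χ < #X := (hb i₀).trans_le (mk_set_le _)
  have key : ∀ x, (F.sub ({x}ᶜ : Set X)).map e.toHom = F.sub {x}ᶜ := by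
    intro x
    have hx := card_compl hχ hX x
    have h1 := K.le_iso e (F.sub {x}ᶜ) (F.le_sub hx)
    have h2 : #((F.sub ({x}ᶜ : Set X)).map e.toHom) = #({x}ᶜ : Set X) := by
      have h3 : #((F.sub ({x}ᶜ : Set X)).map e.toHom) = #(F.sub ({x}ᶜ : Set X)) :=
        (mk_congr (e.toEmbedding.substructureEquivMap (F.sub {x}ᶜ)).toEquiv).symm
      rw [h3, F.card_sub, F.card _ hx.le]
    obtain ⟨B, hB1, -, hB2⟩ := F.exists_sub (by rw [h2]; exact hx) h1
    have h3 : ({x}ᶜ : Set X) ⊆ B := by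
      intro y hy
      obtain ⟨i, hi⟩ := hc y
      have h4 : χ < #(S i \ {x} : Set X) := card_diff hχ (hb i) x
      have h5 : F.sub (S i \ {x}) ≤ F.sub B := by
        have e1 : Embedding.subtype (· ∈ S i) '' {y : S i | y.1 ≠ x} = S i \ {x} := by
          ext z
          constructor
          · rintro ⟨w, hw, rfl⟩
            exact ⟨w.2, hw⟩
          · rintro ⟨hz, hzx⟩
            exact ⟨⟨z, hz⟩, hzx, rfl⟩
        have hT : χ < #({y : S i | y.1 ≠ x} : Set (S i)) := by
          rw [← e1, mk_image_eq (Embedding.injective _)] at h4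
          exact h4
        intro a ha
        obtain ⟨c, rfl⟩ : ∃ c : F.obj (S i), F.map (Embedding.subtype (· ∈ S i)) c = a := by
          obtain ⟨d, rfl⟩ := ha
          exact ⟨F.map (Set.embeddingOfSubset _ _ Set.sdiff_subset) d, map_incl _ _⟩
        rw [← e1, F.map_mem_sub_image] at ha
        have hc' : (g i).1⁻¹ c ∈ F.sub {y : S i | y.1 ≠ x} := ((g i).2.1.inv.mem_sub hT _).2 ha
        rw [← hB2]
        refine ⟨F.map (Embedding.subtype (· ∈ S i)) ((g i).1⁻¹ c), ?_, ?_⟩
        · have h6 := (F.map_mem_sub_image (Embedding.subtype (· ∈ S i))).2 hc'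
          rw [e1] at h6
          refine F.sub_mono ?_ h6
          rintro z ⟨-, hz⟩
          exact hz
        · change e _ = _
          rw [hval, show (g i).1 ((g i).1⁻¹ c) = c from (g i).1.apply_symm_apply c]
      exact (F.sub_le_iff h4).1 h5 ⟨hi, hy⟩
    have h6 : x ∉ B := by
      intro hxB
      have h7 : B = Set.univ := by
        rw [Set.eq_univ_iff_forall]
        intro y
        by_cases hy : y = x
        · rwa [hy]
        · exact h3 hy
      have h8 : F.sub (Set.univ : Set X) ≤ F.sub {x}ᶜ := by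
        intro b _
        have h9 : e b ∈ (F.sub ({x}ᶜ : Set X)).map e.toHom := by
          rw [hB2, h7]
          exact F.sub_univ _
        obtain ⟨b', hb', hbb⟩ := h9
        rwa [← e.injective hbb]
      have h9 := (F.sub_le_iff (by rwa [mk_univ])).1 h8 (Set.mem_univ x)
      exact h9 rfl
    rw [hB2]
    congr 1
    refine Set.Subset.antisymm ?_ h3
    intro y hy hyx
    rw [Set.mem_singleton_iff] at hyx
    exact h6 (by rwa [← hyx])
  have hpt : F.IsPt e.toEquiv := by
    refine ⟨⟨e, fun _ => rfl⟩, fun x a => ?_⟩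
    change e a ∈ _ ↔ _
    constructor
    · intro h
      rw [← key x] at h
      obtain ⟨b', hb', hbb⟩ := h
      rwa [← e.injective hbb]
    · intro h
      rw [← key x]
      exact ⟨a, h, rfl⟩
  refine ⟨⟨e.toEquiv, hpt, fun h => absurd hX h⟩, fun i => rs_eq hχ fun _ a => ?_⟩
  exact (hval i a).symm

theorem exists_ext (hχ : ℵ₀ ≤ χ) {X ι : Type u} [LinearOrder ι] [WellFoundedLT ι] [Nonempty ι]
    (S : ι → Set X) (hS : Monotone S) (hc : ∀ x, ∃ i, x ∈ S i) (hb : ∀ i, χ < #(S i))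
    (g h : F.Gp X) (hgh : ∀ i, rs hχ (Embedding.subtype (· ∈ S i)) g =
      rs hχ (Embedding.subtype (· ∈ S i)) h) : g = h := by
  apply Subtype.ext
  apply Equiv.ext
  intro a
  obtain ⟨i, c, hc'⟩ := cover S hS hc hb a
  rw [← hc']
  change g.1 (F.map _ c) = h.1 (F.map _ c)
  rw [← rs_spec hχ _ g (hb i), ← rs_spec hχ _ h (hb i), hgh i]

/-- The group functor of a symmetric family. -/
noncomputable def toGF (F : SymmetricFamily K χ) (hχ : ℵ₀ ≤ χ) : GF (Order.succ χ) where
  G X := F.Gp X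
  grp X := inferInstance
  res i g := rs hχ i g
  res_mul i g h := by
    apply rs_eq hχ
    intro hX a
    rw [Subgroup.coe_mul, Subgroup.coe_mul, Equiv.Perm.mul_apply, Equiv.Perm.mul_apply,
      rs_spec hχ i g hX, rs_spec hχ i h hX]
  res_refl g := by
    apply rs_eq hχ
    intro hX a
    rw [F.map_refl, F.map_refl]
  res_trans i j g := by
    apply rs_eq hχ
    intro hX a
    have hY := hX.trans_le (mk_le_of_injective i.injective)
    rw [F.map_trans, F.map_trans, rs_spec hχ i _ hX, rs_spec hχ j _ hY]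
  ext S hS hc hb g h hgh :=
    exists_ext hχ S hS hc (fun i => Order.succ_le_iff.1 (hb i)) g h hgh
  glue S hS hc hb g hg :=
    exists_glue hχ S hS hc (fun i => Order.succ_le_iff.1 (hb i)) g hg

end SymmetricFamily

end Vale.Agent.P307.H227
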