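import Vale.Agent.P307.H227.Step

/-!
The critical cardinal: Mittag-Leffler.
-/

universe u v w

open FirstOrder Cardinal Function Language

namespace Vale.Agent.P307.H227

variable {L : Language.{u, u}}

/-- A form of the Mittag-Leffler argument: transitive actions with stable images. -/
theorem mittag {G : ℕ → Type v} {E : ℕ → Type w} (act : ∀ n, G n → E n → E n)
    (tr : ∀ n (e e' : E n), ∃ g, act n g e = e') (r : ∀ n, G (n + 1) → G n)
    (ρ : ∀ n, E (n + 1) → E n)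
    (hρ : ∀ n g e, ρ n (act (n + 1) g e) = act n (r n g) (ρ n e)) (ne : ∀ n, Nonempty (E n))
    (st : ∀ n (g : G (n + 1)), ∃ h : G (n + 2), r n (r (n + 1) h) = r n g) :
    ∃ e : ∀ n, E n, ∀ n, ρ n (e (n + 1)) = e n := by
  have key : ∀ n (x : {x : E n // ∃ y, ρ n y = x}),
      ∃ x' : {x : E (n + 1) // ∃ y, ρ (n + 1) y = x}, ρ n x'.1 = x.1 := by
    rintro n ⟨x, y, rfl⟩
    obtain ⟨z⟩ := ne (n + 2)
    obtain ⟨g, hg⟩ := tr (n + 1) (ρ (n + 1) z) y
    obtain ⟨h, hh⟩ := st n g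
    refine ⟨⟨ρ (n + 1) (act (n + 2) h z), _, rfl⟩, ?_⟩
    change ρ n (ρ (n + 1) (act (n + 2) h z)) = ρ n y
    rw [hρ, hρ, hh, ← hρ, hg]
  choose s hs using key
  obtain ⟨y₀⟩ := ne 1
  let x : ∀ n, {x : E n // ∃ y, ρ n y = x} := fun n =>
    Nat.rec (motive := fun n => {x : E n // ∃ y, ρ n y = x}) ⟨ρ 0 y₀, y₀, rfl⟩ s n
  exact ⟨fun n => (x n).1, fun n => hs n (x n)⟩

namespace SymmetricFamily

variable {K : AEC L} {χ : Cardinal.{u}} {F : SymmetricFamily K χ}

theorem rs_mul (hχ : ℵ₀ ≤ χ) {X Y : Type u} (i : X ↪ Y) (g h : F.Gp Y) :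
    rs hχ i (g * h) = rs hχ i g * rs hχ i h := (F.toGF hχ).res_mul i g h

theorem rs_trans (hχ : ℵ₀ ≤ χ) {X Y Z : Type u} (i : X ↪ Y) (j : Y ↪ Z) (g : F.Gp Z) :
    rs hχ (i.trans j) g = rs hχ i (rs hχ j g) := (F.toGF hχ).res_trans i j g

/-- A filtration of a set of cardinality at most the supremum of an increasing sequence. -/
theorem exists_layers {N : Type u} (k : ℕ → Cardinal.{u})
    (hN : #N ≤ ⨆ n, k n) : ∃ D : ℕ → Set N, (∀ n, #(D n) ≤ k n) ∧ ∀ x, ∃ n, x ∈ D n := by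
  obtain ⟨φ⟩ : Nonempty (N ↪ Σ n : ℕ, (k n).out) := by
    rw [← Cardinal.le_def]
    refine hN.trans ?_
    rw [mk_sigma]
    simp only [mk_out]
    exact iSup_le_sum.{0, u} k
  refine ⟨fun n => {x | (φ x).1 = n}, fun n => ?_, fun x => ⟨_, rfl⟩⟩
  have h1 : Function.Injective
      (fun x : {x : N | (φ x).1 = n} => (cast (by rw [x.2]) (φ x.1).2 : (k n).out)) := by
    rintro ⟨x, hx⟩ ⟨y, hy⟩ hxy
    apply Subtype.ext
    apply φ.injective
    have hx' : (φ x).1 = n := hx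
    have hy' : (φ y).1 = n := hy
    refine Sigma.ext (hx'.trans hy'.symm) ?_
    have h2 : HEq (cast (by rw [hx']) (φ x).2 : (k n).out) (φ x).2 := cast_heq _ _
    have h3 : HEq (cast (by rw [hy']) (φ y).2 : (k n).out) (φ y).2 := cast_heq _ _
    exact h2.symm.trans ((heq_of_eq hxy).trans h3)
  exact (mk_le_of_injective h1).trans (mk_out _).le

/-- The critical cardinal. -/
theorem std_base (hχ : ℵ₀ ≤ χ) {l : Cardinal.{u}} (hK : K.IsLS l) (hl : l ≤ χ)
    (k : ℕ → Cardinal.{u}) (hk : StrictMono k) (hk0 : χ < k 0) (hstd : ∀ n, F.Std (k n))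
    (hst : ∀ (n : ℕ) (X Y Z : Type u) (i : X ↪ Y) (j : Y ↪ Z), #X = k n → #Y = k (n + 1) →
        #Z = k (n + 2) → ∀ g : F.Gp Y, ∃ h : F.Gp Z, rs hχ (i.trans j) h = rs hχ i g) :
    F.Std (⨆ n, k n) := by
  intro N _ hN hNθ X hX
  have hkχ : ∀ n, χ < k n := fun n => hk0.trans_le (hk.monotone (Nat.zero_le n))
  have hk_0 : ∀ n, ℵ₀ ≤ k n := fun n => hχ.trans (hkχ n).le
  have hbdd : BddAbove (Set.range k) := bddAbove_of_small
  have hkle : ∀ n, k n ≤ #N := fun n => by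
    rw [hNθ]
    exact le_ciSup hbdd n
  obtain ⟨D, hD1, hD2⟩ := exists_layers k hNθ.le
  choose B hB using fun n => le_mk_iff_exists_set.1 (hkle n)
  choose hull hh1 hh2 hh3 using hK.2.2 N hN
  obtain ⟨S, hS0, hS1⟩ : ∃ S : ℕ → L.Substructure N, S 0 = hull (D 0 ∪ B 0) ∧
      ∀ n, S (n + 1) = hull ((S n : Set N) ∪ (D (n + 1) ∪ B (n + 1))) :=
    ⟨fun n => Nat.rec (motive := fun _ => L.Substructure N) (hull (D 0 ∪ B 0))
      (fun n T => hull ((T : Set N) ∪ (D (n + 1) ∪ B (n + 1)))) n, rfl, fun n => rfl⟩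
  have hSle : ∀ n, K.le (S n) := fun n => by
    cases n with
    | zero => rw [hS0]; exact hh1 _
    | succ n => rw [hS1]; exact hh1 _
  have hSDB : ∀ n, D n ∪ B n ⊆ S n := fun n => by
    cases n with
    | zero => rw [hS0]; exact hh2 _
    | succ n =>
      rw [hS1]
      exact Set.subset_union_right.trans (hh2 _)
  have hSs : ∀ n, S n ≤ S (n + 1) := fun n => by
    intro x hx
    rw [hS1]
    exact hh2 _ (Or.inl hx)
  have hSm : Monotone S := monotone_nat_of_le_succ hSs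
  have hcard : ∀ n, #(S n) = k n := by
    have hge : ∀ n, k n ≤ #(S n) := fun n => by
      rw [← hB n]
      exact mk_le_mk_of_subset (Set.subset_union_right.trans (hSDB n))
    have hDB : ∀ n, #(D n ∪ B n : Set N) ≤ k n := fun n =>
      (mk_union_le _ _).trans (add_le_of_le (hk_0 n) (hD1 n) (hB n).le)
    intro n
    refine le_antisymm ?_ (hge n)
    induction n with
    | zero =>
      rw [hS0]
      exact (hh3 _).trans (add_le_of_le (hk_0 0) (hDB 0) (hl.trans (hkχ 0).le))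
    | succ n ih =>
      rw [hS1]
      refine (hh3 _).trans (add_le_of_le (hk_0 _) ?_ (hl.trans (hkχ _).le))
      exact (mk_union_le _ _).trans (add_le_of_le (hk_0 _)
        (ih.trans (hk.monotone (Nat.le_succ n))) (hDB _))
  have hSχ : ∀ n, χ < #(S n) := fun n => by rw [hcard]; exact hkχ n
  have hmem : ∀ n, K.mem (S n) := fun n => (K.mem_of_le _ (hSle n)).1
  obtain ⟨φ⟩ : Nonempty (∀ n, S n ≃[L] F.obj (S n)) :=
    ⟨fun n => (hstd n (S n) (hmem n) (hcard n) (S n) (hcard n)).some⟩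
  have hsym : ∀ n, K.Emb (φ n).symm.toEmbedding := fun n =>
    AEC.Emb.of_equiv _ (F.mem_obj (hSχ n))
  have hinc : ∀ n, K.Emb (Substructure.inclusion (hSs n)) := fun n =>
    (AEC.sle_of_le_le (hSs n) (hSle n) (hSle (n + 1))).2
  choose i g hg using fun n => factor hχ (hSχ n)
    ((φ (n + 1)).toEmbedding.comp ((Substructure.inclusion (hSs n)).comp (φ n).symm.toEmbedding))
    ((AEC.Emb.of_equiv _ (hmem (n + 1))).comp ((hinc n).comp (hsym n)))
  have hg' : ∀ n (x : S n), φ (n + 1) (Substructure.inclusion (hSs n) x) =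
      F.map (i n) ((g n).1 (φ n x)) := by
    intro n x
    have h1 := hg n (φ n x)
    change φ (n + 1) (Substructure.inclusion (hSs n) ((φ n).symm (φ n x))) = _ at h1
    rwa [(φ n).symm_apply_apply] at h1
  obtain ⟨γ, hγ⟩ := mittag (G := fun n => F.Gp (S n)) (E := fun n => F.Gp (S n))
    (fun n a b => a * b) (fun n e e' => ⟨e' * e⁻¹, inv_mul_cancel_right e' e⟩) (fun n => rs hχ (i n))
    (fun n a => rs hχ (i n) a * g n)
    (fun n a b => by rw [rs_mul, mul_assoc]) (fun n => ⟨1⟩) (fun n a => by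
      obtain ⟨h, hh⟩ := hst n _ _ _ (i n) (i (n + 1)) (hcard n) (hcard (n + 1)) (hcard (n + 2)) a
      exact ⟨h, by rw [← hh, rs_trans]⟩)
  obtain ⟨Z, hZ⟩ : ∃ Z : Type u, #Z = Order.succ #N := ⟨(Order.succ #N).out, mk_out _⟩
  have hZlt : ∀ n, #(S n) < #Z := fun n => by
    rw [hZ]
    exact (mk_subtype_le _).trans_lt (Order.lt_succ _)
  have hZ0 : ℵ₀ ≤ #Z := (hχ.trans (hSχ 0).le).trans (hZlt 0).le
  obtain ⟨t₀⟩ : Nonempty (S 0 ↪ Z) := by
    rw [← Cardinal.le_def]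
    exact (hZlt 0).le
  choose e he using fun n (s : S n ↪ Z) => exists_extend (i n) s hZ0 (hZlt (n + 1))
  let t : ∀ n, S n ↪ Z := fun n => Nat.rec (motive := fun n => S n ↪ Z) t₀ e n
  have ht : ∀ n, (i n).trans (t (n + 1)) = t n := fun n => he n (t n)
  choose s hs using fun n => (γ n).2.1.iso
  let f : ∀ n, S n ↪[L] F.obj Z := fun n =>
    (F.map (t n)).comp ((s n).toEmbedding.comp (φ n).toEmbedding)
  have hf : ∀ n, K.Emb (f n) := fun n =>
    (F.emb_map _ (hSχ n)).comp ((AEC.Emb.of_equiv _ (F.mem_obj (hSχ n))).comp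
      (AEC.Emb.of_equiv _ (hmem n)))
  have hfv : ∀ n x, f n x = F.map (t n) ((γ n).1 (φ n x)) := fun n x => by
    rw [← hs]
    rfl
  have hfs : ∀ n (x : S n), f (n + 1) (Substructure.inclusion (hSs n) x) = f n x := by
    intro n x
    refine (hfv (n + 1) _).trans ?_
    rw [hfv n x, hg' n x, ← rs_spec hχ (i n) (γ (n + 1)) (hSχ n), ← F.map_trans, ht]
    refine congrArg (F.map (t n)) ?_
    rw [← hγ n]
    rfl
  have hfc : ∀ m n (hmn : m ≤ n) (x : S m), f n (Substructure.inclusion (hSm hmn) x) = f m x := by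
    intro m n hmn
    induction n, hmn using Nat.le_induction with
    | base =>
      intro x
      rfl
    | succ n hmn ih =>
      intro x
      rw [← ih x, ← hfs n]
      rfl
  obtain ⟨G, hG1, -⟩ := glue_emb (K := K) (ι := ULift.{u} ℕ) (fun n => S n.down)
    (fun m n h => hSm h) (fun n => f n.down) (fun n => hf n.down)
    (fun m n h x => hfc m.down n.down h x)
  have htop : (⨆ n : ULift.{u} ℕ, S n.down) = ⊤ := by
    rw [eq_top_iff]
    intro x _
    obtain ⟨n, hn⟩ := hD2 x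
    exact le_iSup (fun n : ULift.{u} ℕ => S n.down) ⟨n⟩ (hSDB n (Or.inl hn))
  have e1 : N ≃[L] (⊤ : L.Substructure N) := Substructure.topEquiv.symm
  rw [← htop] at e1
  refine std_of_emb (G.comp e1.toEmbedding) (hG1.comp (AEC.Emb.of_equiv e1 hN)) ?_ ?_
  · exact (hkχ 0).trans_le (hkle 0)
  · rw [hX, hNθ]

end SymmetricFamily

end Vale.Agent.P307.H227
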