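import Vale.Agent.P307.H227.Aut

/-!
Strong embeddings between members of a symmetric family, gluing of strong embeddings.
-/

universe u

open FirstOrder Cardinal Function Language

namespace Vale.Agent.P307.H227

variable {L : Language.{u, u}}

namespace SymmetricFamily

variable {K : AEC L} {χ : Cardinal.{u}} {F : SymmetricFamily K χ}

theorem range_eq_sub {X Y : Type u} (hX : χ < #X) (θ : F.obj X ↪[L] F.obj Y)
    (hθ : K.Emb θ) : ∃ B : Set Y, χ < #B ∧ #B = #X ∧ ∀ b, b ∈ F.sub B ↔ ∃ a, θ a = b := by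
  have h1 : #(θ.toHom.range) = #X := by
    rw [← F.card X hX.le]
    exact (mk_congr θ.equivRange.toEquiv).symm
  obtain ⟨B, h2, h3, h4⟩ := F.exists_sub (S := θ.toHom.range) (by rwa [h1]) hθ
  refine ⟨B, h2, h3.trans h1, fun b => ?_⟩
  rw [← h4]
  rfl

/-- The preimage under a strong embedding of a strong substructure contained in the range. -/
theorem exists_pull {X Y : Type u} (θ : F.obj X ↪[L] F.obj Y)
    (hθ : K.Emb θ) {C : Set Y} (hC : χ < #C) (h : ∀ b ∈ F.sub C, ∃ a, θ a = b) :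
    ∃ D : Set X, χ < #D ∧ ∀ a, a ∈ F.sub D ↔ θ a ∈ F.sub C := by
  have hle : F.sub C ≤ θ.toHom.range := h
  let j : F.sub C ↪[L] F.obj X := θ.equivRange.symm.toEmbedding.comp (Substructure.inclusion hle)
  have hj : ∀ b : F.sub C, θ (j b) = b.1 := by
    intro b
    have h1 := θ.equivRange.apply_symm_apply (Substructure.inclusion hle b)
    exact congrArg Subtype.val h1
  have hcomp : θ.comp j = (F.sub C).subtype := by
    apply Language.Embedding.ext
    intro b
    exact hj b
  have h2 : K.Emb j := by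
    refine AEC.Emb.of_comp hθ ?_
    rw [hcomp, AEC.emb_subtype]
    exact F.le_sub hC
  have h3 : #(j.toHom.range) = #C := by
    rw [← F.card C hC.le, ← F.card_sub C]
    exact (mk_congr j.equivRange.toEquiv).symm
  obtain ⟨D, h4, -, h5⟩ := F.exists_sub (S := j.toHom.range) (by rwa [h3]) h2
  refine ⟨D, h4, fun a => ?_⟩
  rw [← h5]
  constructor
  · rintro ⟨b, hb⟩
    have hb' : j b = a := hb
    rw [← hb', hj]
    exact b.2
  · intro ha
    refine ⟨⟨θ a, ha⟩, ?_⟩
    apply θ.injective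
    exact hj ⟨θ a, ha⟩

/-- The image under a strong embedding of a strong substructure. -/
theorem exists_push {X Y : Type u} (θ : F.obj X ↪[L] F.obj Y)
    (hθ : K.Emb θ) {D : Set X} (hD : χ < #D) :
    ∃ C : Set Y, χ < #C ∧ ∀ b, b ∈ F.sub C ↔ ∃ a ∈ F.sub D, θ a = b := by
  have h1 : K.Emb (θ.comp (F.sub D).subtype) :=
    AEC.Emb.comp hθ (AEC.emb_subtype.2 (F.le_sub hD))
  have h2 : #((θ.comp (F.sub D).subtype).toHom.range) = #D := by
    rw [← F.card D hD.le, ← F.card_sub D]
    exact (mk_congr (θ.comp (F.sub D).subtype).equivRange.toEquiv).symm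
  obtain ⟨C, h4, -, h5⟩ := F.exists_sub (by rwa [h2]) h1
  refine ⟨C, h4, fun b => ?_⟩
  rw [← h5]
  constructor
  · rintro ⟨a, ha⟩
    exact ⟨a.1, a.2, ha⟩
  · rintro ⟨a, ha, hab⟩
    exact ⟨⟨a, ha⟩, hab⟩

/-- Every strong embedding between members of the family is the composition of an automorphism
which is the identity on points and the embedding which belongs to an injection. -/
theorem factor (hχ : ℵ₀ ≤ χ) {X Y : Type u} (hX : χ < #X) (θ : F.obj X ↪[L] F.obj Y)
    (hθ : K.Emb θ) : ∃ (t : X ↪ Y) (g : F.Gp X), ∀ a, θ a = F.map t (g.1 a) := by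
  obtain ⟨B, hB1, -, hB2⟩ := range_eq_sub hX θ hθ
  choose E hE1 hE2 using fun x : X => exists_push θ hθ (card_compl hχ hX x)
  have hsub : ∀ {C C' : Set Y}, χ < #C → (∀ b ∈ F.sub C, b ∈ F.sub C') → C ⊆ C' :=
    fun hC h => (F.sub_le_iff hC).1 h
  have hEB : ∀ x, E x ⊆ B := fun x => hsub (hE1 x) fun b hb => by
    obtain ⟨a, -, ha⟩ := (hE2 x b).1 hb
    exact (hB2 b).2 ⟨a, ha⟩
  have huniv : ∀ x : X, ¬ ∀ a, a ∈ F.sub ({x}ᶜ : Set X) := by
    intro x h
    have h1 : F.sub (Set.univ : Set X) ≤ F.sub {x}ᶜ := fun a _ => h a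
    exact (F.sub_le_iff (by rwa [mk_univ])).1 h1 (Set.mem_univ x) rfl
  have hE3 : ∀ x a, θ a ∈ F.sub (E x) ↔ a ∈ F.sub {x}ᶜ := by
    intro x a
    rw [hE2]
    constructor
    · rintro ⟨a', ha', h⟩
      rwa [← θ.injective h]
    · intro ha
      exact ⟨a, ha, rfl⟩
  have hne : ∀ x, ∃ y ∈ B, y ∉ E x := by
    intro x
    by_contra h
    push Not at h
    refine huniv x fun a => ?_
    rw [← hE3]
    exact F.sub_mono h ((hB2 _).2 ⟨a, rfl⟩)
  choose t ht1 ht2 using hne
  have hEx : ∀ x, E x = B \ {t x} := by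
    intro x
    apply Set.Subset.antisymm
    · intro y hy
      refine ⟨hEB x hy, ?_⟩
      rintro rfl
      exact ht2 x hy
    · rintro y ⟨hy, hyt⟩
      have hC : χ < #(B \ {y} : Set Y) := card_diff hχ hB1 y
      by_contra hyE
      have hEC : E x ⊆ B \ {y} := fun z hz => ⟨hEB x hz, by
        rintro rfl
        exact hyE hz⟩
      obtain ⟨D, hD1, hD2⟩ := exists_pull θ hθ hC fun b hb =>
        (hB2 b).1 (F.sub_mono Set.sdiff_subset hb)
      have h1 : ({x}ᶜ : Set X) ⊆ D := by
        refine (F.sub_le_iff (card_compl hχ hX x)).1 fun a ha => ?_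
        rw [hD2]
        exact F.sub_mono hEC ((hE3 x a).2 ha)
      by_cases hxD : x ∈ D
      · have h2 : D = Set.univ := by
          rw [Set.eq_univ_iff_forall]
          intro z
          by_cases hz : z = x
          · rwa [hz]
          · exact h1 hz
        have h3 : B ⊆ B \ {y} := hsub hB1 fun b hb => by
          obtain ⟨a, rfl⟩ := (hB2 b).1 hb
          rw [← hD2, h2]
          exact F.sub_univ a
        exact (h3 hy).2 rfl
      · have h2 : D ⊆ {x}ᶜ := by
          intro z hz hzx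
          rw [Set.mem_singleton_iff] at hzx
          exact hxD (by rwa [← hzx])
        have h3 : B \ {y} ⊆ E x := hsub hC fun b hb => by
          obtain ⟨a, rfl⟩ := (hB2 b).1 (F.sub_mono Set.sdiff_subset hb)
          rw [hE3]
          exact F.sub_mono h2 ((hD2 a).2 hb)
        refine ht2 x (h3 ⟨ht1 x, ?_⟩)
        rintro h4
        exact hyt h4.symm
  have htinj : Function.Injective t := by
    intro x x' hxx
    have h1 : E x = E x' := by rw [hEx, hEx, hxx]
    have h2 : ({x}ᶜ : Set X) = {x'}ᶜ := by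
      refine F.sub_inj (card_compl hχ hX x) (card_compl hχ hX x') ?_
      ext a
      rw [← hE3, ← hE3, h1]
    have h3 := compl_injective h2
    exact Set.singleton_injective h3
  have hrange : Set.range t = B := by
    apply Set.Subset.antisymm
    · rintro _ ⟨x, rfl⟩
      exact ht1 x
    · intro y hy
      have hC : χ < #(B \ {y} : Set Y) := card_diff hχ hB1 y
      obtain ⟨D, hD1, hD2⟩ := exists_pull θ hθ hC fun b hb =>
        (hB2 b).1 (F.sub_mono Set.sdiff_subset hb)
      have hDu : ∃ x, x ∉ D := by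
        by_contra h
        push Not at h
        have h2 : D = Set.univ := Set.eq_univ_iff_forall.2 h
        have h3 : B ⊆ B \ {y} := hsub hB1 fun b hb => by
          obtain ⟨a, rfl⟩ := (hB2 b).1 hb
          rw [← hD2, h2]
          exact F.sub_univ a
        exact (h3 hy).2 rfl
      obtain ⟨x, hx⟩ := hDu
      have h2 : D ⊆ {x}ᶜ := by
        intro z hz hzx
        rw [Set.mem_singleton_iff] at hzx
        exact hx (by rwa [← hzx])
      have h3 : B \ {y} ⊆ E x := hsub hC fun b hb => by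
        obtain ⟨a, rfl⟩ := (hB2 b).1 (F.sub_mono Set.sdiff_subset hb)
        rw [hE3]
        exact F.sub_mono h2 ((hD2 a).2 hb)
      refine ⟨x, ?_⟩
      by_contra hxy
      have h4 : t x ∈ B \ {y} := ⟨ht1 x, hxy⟩
      exact ht2 x (h3 h4)
  let t' : X ↪ Y := ⟨t, htinj⟩
  have hrt : ∀ b, (∃ a, F.map t' a = b) ↔ ∃ a, θ a = b := by
    intro b
    rw [F.mem_range_map t', ← hB2]
    change b ∈ F.sub (Set.range t) ↔ _
    rw [hrange]
  obtain ⟨e, he⟩ := (isPI_pull θ (F.map t')).exists_equiv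
    (fun a => by
      obtain ⟨b, hb⟩ := (hrt (θ a)).2 ⟨a, rfl⟩
      exact ⟨b, hb.symm⟩)
    (fun b => (hrt (F.map t' b)).1 ⟨b, rfl⟩)
  have he' : ∀ a, θ a = F.map t' (e a) := he
  refine ⟨t', ⟨e.toEquiv, ⟨⟨e, fun _ => rfl⟩, fun x a => ?_⟩, fun h => absurd hX h⟩, he'⟩
  change e a ∈ _ ↔ _
  have h5 : (t' '' {x}ᶜ : Set Y) = E x := by
    rw [hEx, ← hrange]
    ext y
    constructor
    · rintro ⟨z, hz, rfl⟩
      exact ⟨⟨z, rfl⟩, fun h => hz (htinj h)⟩
    · rintro ⟨⟨z, rfl⟩, hz⟩
      exact ⟨z, fun h => hz (by rw [h]; rfl), rfl⟩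
  rw [← F.map_mem_sub_image t', ← he', h5, hE3]

/-- Gluing of a chain of strong embeddings. -/
theorem glue_emb {N M ι : Type u} [L.Structure N] [L.Structure M] [LinearOrder ι]
    [WellFoundedLT ι] [Nonempty ι] (S : ι → L.Substructure N) (hS : Monotone S)
    (f : ∀ i, S i ↪[L] M) (hf : ∀ i, K.Emb (f i))
    (hc : ∀ i j (hij : i ≤ j) (x : S i), f j (Substructure.inclusion (hS hij) x) = f i x) :
    ∃ g : (⨆ i, S i : L.Substructure N) ↪[L] M, K.Emb g ∧
      ∀ i (x : S i), g (Substructure.inclusion (le_iSup S i) x) = f i x := by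
  let R : ι → Set (N × M) := fun i => {p | ∃ c : S i, (S i).subtype c = p.1 ∧ f i c = p.2}
  have hmR : Monotone R := by
    rintro i j hij p ⟨c, h1, h2⟩
    exact ⟨Substructure.inclusion (hS hij) c, h1, by rw [hc i j hij, h2]⟩
  have hRi := isPI_chain R (fun i => isPI_push _ _) hmR
  have hmT : Monotone fun i => (f i).toHom.range := by
    rintro i j hij _ ⟨x, rfl⟩
    exact ⟨Substructure.inclusion (hS hij) x, hc i j hij x⟩
  obtain ⟨e, he⟩ := hRi.exists_equiv_sub (⨆ i, S i) (⨆ i, (f i).toHom.range)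
    (by
      intro a ha
      rw [Substructure.mem_iSup_of_directed (directed_of_isDirected_le hS)] at ha
      obtain ⟨i, hi⟩ := ha
      exact ⟨f i ⟨a, hi⟩, le_iSup (fun i => (f i).toHom.range) i ⟨_, rfl⟩, i, ⟨a, hi⟩, rfl, rfl⟩)
    (by
      intro b hb
      rw [Substructure.mem_iSup_of_directed (directed_of_isDirected_le hmT)] at hb
      obtain ⟨i, x, hx⟩ := hb
      exact ⟨x.1, le_iSup S i x.2, i, x, rfl, hx⟩)
  refine ⟨(⨆ i, (f i).toHom.range).subtype.comp e.toEmbedding, ?_, ?_⟩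
  · have h1 : K.le (⨆ i, (f i).toHom.range) :=
      K.chain_smooth _ (fun i j hij => hmT hij) hf
    have h2 : K.mem (⨆ i, S i : L.Substructure N) :=
      K.mem_iso e.symm (K.mem_of_le _ h1).1
    exact AEC.Emb.comp (AEC.emb_subtype.2 h1) (AEC.Emb.of_equiv e h2)
  · intro i x
    have h1 := he (Substructure.inclusion (le_iSup S i) x)
    have h2 : (((Substructure.inclusion (le_iSup S i) x : (⨆ i, S i : L.Substructure N)) : N),
        f i x) ∈ {p | ∃ i, p ∈ R i} := ⟨i, x, rfl, rfl⟩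
    exact (hRi.eq_iff _ h1 _ h2).1 rfl

/-- Extension of injections. -/
theorem exists_extend {X Y Z : Type u} (t : X ↪ Y) (s : X ↪ Z) (hZ : ℵ₀ ≤ #Z) (hYZ : #Y < #Z) :
    ∃ r : Y ↪ Z, t.trans r = s := by
  have hXZ : #X < #Z := (mk_le_of_injective t.injective).trans_lt hYZ
  have : Infinite Z := infinite_iff.2 hZ
  have h1 : #((Set.range s)ᶜ : Set Z) = #Z := mk_compl_of_infinite _ (by
    rw [mk_range_eq s s.injective]
    exact hXZ)
  obtain ⟨j⟩ : Nonempty (Y ↪ ((Set.range s)ᶜ : Set Z)) := by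
    rw [← Cardinal.le_def, h1]
    exact hYZ.le
  classical
  refine ⟨⟨fun y => if h : ∃ x, t x = y then s h.choose else (j y).1, ?_⟩, ?_⟩
  · intro y y' hyy
    by_cases h : ∃ x, t x = y <;> by_cases h' : ∃ x, t x = y'
    · simp only [h, h', dite_true] at hyy
      rw [← h.choose_spec, ← h'.choose_spec, s.injective hyy]
    · simp only [h, h', dite_true, dite_false] at hyy
      exact absurd ⟨_, hyy⟩ (j y').2
    · simp only [h, h', dite_true, dite_false] at hyy
      exact absurd ⟨_, hyy.symm⟩ (j y).2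
    · simp only [h, h', dite_false] at hyy
      exact j.injective (Subtype.ext hyy)
  · ext x
    have h : ∃ x', t x' = t x := ⟨x, rfl⟩
    change (if h : ∃ x', t x' = t x then s h.choose else (j (t x)).1) = s x
    rw [dif_pos h]
    exact congrArg s (t.injective h.choose_spec)

/-- All members of `K` of cardinality `κ` are isomorphic to the member of the family. -/
def Std (F : SymmetricFamily K χ) (κ : Cardinal.{u}) : Prop :=
  ∀ (N : Type u) [L.Structure N], K.mem N → #N = κ → ∀ X : Type u, #X = κ →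
    Nonempty (N ≃[L] F.obj X)

theorem Std.of_cat {κ : Cardinal.{u}} (hκ : χ < κ) (h : K.CategoricalIn κ) : F.Std κ := by
  intro N _ hN hNκ X hX
  exact h.2 N (F.obj X) hN (F.mem_obj (by rwa [hX])) hNκ (by rw [F.card X (by rw [hX]; exact hκ.le), hX])

theorem Std.cat {κ : Cardinal.{u}} (hκ : χ < κ) (h : F.Std κ) : K.CategoricalIn κ := by
  have hX : #(κ.out) = κ := mk_out κ
  refine ⟨⟨F.obj κ.out, inferInstance, F.mem_obj (by rwa [hX]), ?_⟩, ?_⟩
  · rw [F.card _ (by rw [hX]; exact hκ.le), hX]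
  · intro M N _ _ hM hN hMκ hNκ
    obtain ⟨e⟩ := h M hM hMκ κ.out hX
    obtain ⟨f⟩ := h N hN hNκ κ.out hX
    exact ⟨f.symm.comp e⟩

/-- A member which embeds strongly into a member of the family is one. -/
theorem std_of_emb {N Z : Type u} [L.Structure N] (f : N ↪[L] F.obj Z) (hf : K.Emb f)
    (hN : χ < #N) {X : Type u} (hX : #X = #N) : Nonempty (N ≃[L] F.obj X) := by
  have h1 : #(f.toHom.range) = #N := (mk_congr f.equivRange.toEquiv).symm
  obtain ⟨B, -, h2, h3⟩ := F.exists_sub (S := f.toHom.range) (by rwa [h1]) hf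
  obtain ⟨i⟩ : Nonempty (X ≃ B) := Cardinal.eq.1 (by rw [hX, h2, h1])
  have e1 : N ≃[L] f.toHom.range := f.equivRange
  have e2 : F.obj B ≃[L] F.sub B := (F.map (Embedding.subtype (· ∈ B))).equivRange
  obtain ⟨e3⟩ : Nonempty (f.toHom.range ≃[L] F.sub B) := by
    rw [h3]
    exact ⟨Language.Equiv.refl L _⟩
  have hR := isPI_push (L := L) (Language.Embedding.refl L (F.obj X)) (F.map i.toEmbedding)
  obtain ⟨e4, -⟩ := hR.exists_equiv (fun a => ⟨_, a, rfl, rfl⟩) (fun b =>
    ⟨F.map i.symm.toEmbedding b, F.map i.symm.toEmbedding b, rfl, by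
      change F.map i.toEmbedding (F.map i.symm.toEmbedding b) = b
      rw [← F.map_trans]
      have h4 : i.symm.toEmbedding.trans i.toEmbedding = Embedding.refl B := by
        ext x
        simp
      rw [h4, F.map_refl]⟩)
  exact ⟨e4.symm.comp (e2.symm.comp (e3.comp e1))⟩

end SymmetricFamily

end Vale.Agent.P307.H227
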