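import Mathlib.SetTheory.Cardinal.Aleph
import Mathlib.SetTheory.Cardinal.Arithmetic
import Mathlib.Algebra.Group.Subgroup.Basic

/-!
Contravariant functors from sets with injections to groups, with gluing along chains.
-/

universe u

open Cardinal Function

namespace Vale.Agent.P307.H227

/-- A contravariant functor from types and injections to groups, such that the elements over a set
`X` are the compatible families of elements over any chain of subsets of cardinality at least `χ`
which cover `X`. -/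
structure GF (χ : Cardinal.{u}) where
  G : Type u → Type u
  grp : ∀ X, Group (G X)
  res : ∀ {X Y : Type u}, (X ↪ Y) → G Y → G X
  res_mul : ∀ {X Y : Type u} (i : X ↪ Y) (g h : G Y), res i (g * h) = res i g * res i h
  res_refl : ∀ {X : Type u} (g : G X), res (Embedding.refl X) g = g
  res_trans : ∀ {X Y Z : Type u} (i : X ↪ Y) (j : Y ↪ Z) (g : G Z),
    res (i.trans j) g = res i (res j g)
  ext : ∀ {X ι : Type u} [LinearOrder ι] [WellFoundedLT ι] [Nonempty ι] (S : ι → Set X),
    Monotone S → (∀ x, ∃ i, x ∈ S i) → (∀ i, χ ≤ #(S i)) → ∀ g h : G X,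
    (∀ i, res (Embedding.subtype (· ∈ S i)) g = res (Embedding.subtype (· ∈ S i)) h) → g = h
  glue : ∀ {X ι : Type u} [LinearOrder ι] [WellFoundedLT ι] [Nonempty ι] (S : ι → Set X)
    (hS : Monotone S), (∀ x, ∃ i, x ∈ S i) → (∀ i, χ ≤ #(S i)) → ∀ g : ∀ i, G (S i),
    (∀ i j (hij : i ≤ j), res (Set.embeddingOfSubset (S i) (S j) (hS hij)) (g j) = g i) →
    ∃ h : G X, ∀ i, res (Embedding.subtype (· ∈ S i)) h = g i

attribute [instance] GF.grp

/-- What the bridge needs: for every unbounded class `C` of cardinals there is a sequence `k` in `C`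
such that images are stable along `k`, and everything over a set of cardinality at least the
supremum extends to all sets of the same cardinality. -/
def GF.Flasque {χ : Cardinal.{u}} (Γ : GF χ) : Prop :=
  ∀ C : Set Cardinal.{u}, (∀ a, ∃ κ ∈ C, a ≤ κ) →
    ∃ k : ℕ → Cardinal.{u}, StrictMono k ∧ (∀ n, k n ∈ C) ∧ χ ≤ k 0 ∧ ℵ₀ ≤ k 0 ∧
      (∀ (n : ℕ) (X Y Z : Type u) (i : X ↪ Y) (j : Y ↪ Z), #X = k n → #Y = k (n + 1) →
        #Z = k (n + 2) → ∀ g : Γ.G Y, ∃ h : Γ.G Z, Γ.res (i.trans j) h = Γ.res i g) ∧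
      ∀ (X Y : Type u) (i : X ↪ Y), #X = #Y → (⨆ n, k n) ≤ #X → Surjective (Γ.res i)

end Vale.Agent.P307.H227
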