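import Vale.Agent.P307.Bdl.B1
import Vale.Agent.P307.H227.GF

/-!
Symmetric families of models of an abstract elementary class.
-/

universe u

open FirstOrder Cardinal Function Language

namespace Vale.Agent.P307.H227

variable {L : Language.{u, u}}

/-- A symmetric family of models of `K` above `χ`: a functor `X ↦ obj X` from sets with injections
to `L`-structures with embeddings such that, for all sets `X` of cardinality at least `χ`, the
structure `obj X` has the cardinality of `X`, and its strong substructures of cardinality at least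
`χ` are exactly the images of the structures `obj A` for the subsets `A` of `X`; different (large)
subsets give different substructures. -/
structure SymmetricFamily (K : AEC L) (χ : Cardinal.{u}) where
  obj : Type u → Type u
  str : ∀ X, L.Structure (obj X)
  map : ∀ {X Y : Type u}, (X ↪ Y) → (obj X ↪[L] obj Y)
  map_refl : ∀ {X : Type u} (a : obj X), map (Embedding.refl X) a = a
  map_trans : ∀ {X Y Z : Type u} (i : X ↪ Y) (j : Y ↪ Z) (a : obj X),
    map (i.trans j) a = map j (map i a)
  card : ∀ X, χ ≤ #X → #(obj X) = #X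
  strong : ∀ X, χ ≤ #X → ∀ S : L.Substructure (obj X), χ ≤ #S →
    (K.le S ↔ ∃ A : Set X, S = (map (Embedding.subtype (· ∈ A))).toHom.range)
  mono : ∀ (X : Type u) (A B : Set X), χ ≤ #A →
    (map (Embedding.subtype (· ∈ A))).toHom.range ≤
      (map (Embedding.subtype (· ∈ B))).toHom.range → A ⊆ B

attribute [instance] SymmetricFamily.str

namespace SymmetricFamily

variable {K : AEC L} {χ : Cardinal.{u}}

/-- A symmetric family above `χ` is one above every larger cardinal. -/
def up (F : SymmetricFamily K χ) {χ' : Cardinal.{u}} (h : χ ≤ χ') : SymmetricFamily K χ' where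
  obj := F.obj
  str := F.str
  map := F.map
  map_refl := F.map_refl
  map_trans := F.map_trans
  card X hX := F.card X (h.trans hX)
  strong X hX S hS := F.strong X (h.trans hX) S (h.trans hS)
  mono X A B hA := F.mono X A B (h.trans hA)

variable (F : SymmetricFamily K χ)

/-- The substructure of `obj X` which belongs to the subset `A`. -/
def sub {X : Type u} (A : Set X) : L.Substructure (F.obj X) :=
  (F.map (Embedding.subtype (· ∈ A))).toHom.range

theorem mem_sub {X : Type u} {A : Set X} {a : F.obj X} :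
    a ∈ F.sub A ↔ ∃ c, F.map (Embedding.subtype (· ∈ A)) c = a := Iff.rfl

theorem mem_range_map {X Y : Type u} (t : X ↪ Y) {b : F.obj Y} :
    (∃ a, F.map t a = b) ↔ b ∈ F.sub (Set.range t) := by
  rw [mem_sub]
  constructor
  · rintro ⟨a, rfl⟩
    refine ⟨F.map (Equiv.ofInjective t t.injective).toEmbedding a, ?_⟩
    rw [← F.map_trans]
    rfl
  · rintro ⟨c, rfl⟩
    refine ⟨F.map (Equiv.ofInjective t t.injective).symm.toEmbedding c, ?_⟩
    rw [← F.map_trans]
    refine congrArg (fun e => F.map e c) ?_
    ext x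
    have h := Equiv.apply_symm_apply (Equiv.ofInjective t t.injective) x
    exact congrArg Subtype.val h

theorem sub_mono {X : Type u} {A B : Set X} (h : A ⊆ B) : F.sub A ≤ F.sub B := by
  rintro _ ⟨c, rfl⟩
  refine ⟨F.map (Set.embeddingOfSubset A B h) c, ?_⟩
  change F.map _ (F.map _ c) = F.map _ c
  rw [← F.map_trans]
  rfl

theorem sub_univ {X : Type u} (a : F.obj X) : a ∈ F.sub (Set.univ : Set X) := by
  rw [mem_sub]
  refine ⟨F.map (Equiv.Set.univ X).symm.toEmbedding a, ?_⟩
  rw [← F.map_trans]
  have h : (Equiv.Set.univ X).symm.toEmbedding.trans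
      (Embedding.subtype (· ∈ (Set.univ : Set X))) = Embedding.refl X := by
    ext x
    rfl
  rw [h, F.map_refl]

theorem map_mem_sub_image {X Y : Type u} (t : X ↪ Y) {A : Set X} {a : F.obj X} :
    F.map t a ∈ F.sub (t '' A) ↔ a ∈ F.sub A := by
  have h : Set.range ((Embedding.subtype (· ∈ A)).trans t) = t '' A := by
    ext y
    constructor
    · rintro ⟨x, rfl⟩
      exact ⟨x.1, x.2, rfl⟩
    · rintro ⟨x, hx, rfl⟩
      exact ⟨⟨x, hx⟩, rfl⟩
  rw [← h, ← F.mem_range_map, mem_sub]
  constructor
  · rintro ⟨c, hc⟩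
    rw [F.map_trans] at hc
    exact ⟨c, (F.map t).injective hc⟩
  · rintro ⟨c, hc⟩
    refine ⟨c, ?_⟩
    rw [F.map_trans, hc]

theorem card_sub {X : Type u} (A : Set X) : #(F.sub A) = #(F.obj A) :=
  (mk_congr (F.map (Embedding.subtype (· ∈ A))).equivRange.toEquiv).symm

theorem card_obj_le {X : Type u} (hX : #X ≤ χ) : #(F.obj X) ≤ χ := by
  obtain ⟨Y, hY⟩ : ∃ Y : Type u, #Y = χ := ⟨χ.out, mk_out χ⟩
  obtain ⟨i⟩ : Nonempty (X ↪ Y) := by
    rw [← hY] at hX
    exact hX
  calc #(F.obj X) ≤ #(F.obj Y) := mk_le_of_injective (F.map i).injective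
    _ = χ := by rw [F.card Y hY.ge, hY]

theorem lt_card {X : Type u} : χ < #(F.obj X) ↔ χ < #X := by
  constructor
  · intro h
    by_contra h'
    exact absurd h (not_lt.2 (F.card_obj_le (not_lt.1 h')))
  · intro h
    rwa [F.card X h.le]

theorem le_sub {X : Type u} {A : Set X} (hA : χ < #A) : K.le (F.sub A) := by
  have hX : χ ≤ #X := hA.le.trans (mk_set_le A)
  refine (F.strong X hX _ ?_).2 ⟨A, rfl⟩
  rw [F.card_sub A, F.card A hA.le]
  exact hA.le

theorem exists_sub {X : Type u} {S : L.Substructure (F.obj X)} (hS : χ < #S) (h : K.le S) :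
    ∃ A : Set X, χ < #A ∧ #A = #S ∧ S = F.sub A := by
  have hX : χ < #X := F.lt_card.1 (hS.trans_le (mk_le_of_injective Subtype.val_injective))
  obtain ⟨A, rfl⟩ := (F.strong X hX.le S hS.le).1 h
  have h1 : χ < #(F.obj A) := by
    rw [← F.card_sub A]
    exact hS
  have h2 := F.lt_card.1 h1
  refine ⟨A, h2, ?_, rfl⟩
  have h3 := F.card_sub A
  rw [F.card A h2.le] at h3
  exact h3.symm

theorem mem_obj {X : Type u} (hX : χ < #X) : K.mem (F.obj X) := by
  have hA : χ < #(Set.univ : Set X) := by rwa [mk_univ]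
  exact (K.mem_of_le _ (F.le_sub hA)).2

theorem emb_map {X Y : Type u} (t : X ↪ Y) (hX : χ < #X) : K.Emb (F.map t) := by
  have h : (F.map t).toHom.range = F.sub (Set.range t) := by
    ext b
    exact F.mem_range_map t
  unfold AEC.Emb
  rw [h]
  refine F.le_sub ?_
  rwa [mk_range_eq t t.injective]

theorem sub_le_iff {X : Type u} {A B : Set X} (hA : χ < #A) : F.sub A ≤ F.sub B ↔ A ⊆ B :=
  ⟨F.mono X A B hA.le, F.sub_mono⟩

theorem sub_inj {X : Type u} {A B : Set X} (hA : χ < #A) (hB : χ < #B) (h : F.sub A = F.sub B) :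
    A = B :=
  Set.Subset.antisymm ((F.sub_le_iff hA).1 h.le) ((F.sub_le_iff hB).1 h.ge)

theorem card_compl {X : Type u} (hχ : ℵ₀ ≤ χ) (hX : χ < #X) (x : X) : χ < #({x}ᶜ : Set X) := by
  have h1 : #({x}ᶜ : Set X) = #X := by
    have : Infinite X := infinite_iff.2 (hχ.trans hX.le)
    rw [mk_compl_of_infinite]
    rw [mk_singleton]
    exact one_lt_aleph0.trans_le (hχ.trans hX.le)
  rwa [h1]

/-- The pullback of the diagonal along two embeddings is a partial isomorphism. -/
theorem isPI_pull {M N P : Type u} [L.Structure M] [L.Structure N] [L.Structure P]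
    (f : M ↪[L] P) (g : N ↪[L] P) : IsPI L {p : M × N | f p.1 = g p.2} where
  eq_iff := by
    rintro p hp q hq
    have hp' : f p.1 = g p.2 := hp
    have hq' : f q.1 = g q.2 := hq
    rw [← f.injective.eq_iff, hp', hq', g.injective.eq_iff]
  fun_iff := by
    rintro n F x hx q hq
    have hq' : f q.1 = g q.2 := hq
    have hx' : (fun i => f (x i).1) = fun i => g (x i).2 := funext fun i => hx i
    rw [← f.injective.eq_iff, ← g.injective.eq_iff, f.map_fun, g.map_fun, hq']
    change (Structure.funMap F (fun i => f (x i).1) = _ ↔ Structure.funMap F (fun i => g (x i).2) = _)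
    rw [hx']
  rel_iff := by
    rintro n r x hx
    have hx' : (fun i => f (x i).1) = fun i => g (x i).2 := funext fun i => hx i
    rw [← f.map_rel, ← g.map_rel]
    change (Structure.RelMap r (fun i => f (x i).1) ↔ Structure.RelMap r (fun i => g (x i).2))
    rw [hx']

end SymmetricFamily

end Vale.Agent.P307.H227
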