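import Vale.Agent.P307.Gw.Defs

/-! Members which are geometric over a small strong substructure. -/

universe u

open FirstOrder Cardinal Set Function Language

namespace Vale.Agent.P307.H227

variable {L : Language.{u, u}}

/-- `M` is geometric over a strong substructure `P` with at most `l` elements: every strong
substructure isomorphic to `P` is the image of `P` under an automorphism of `M`, and the strong
substructures of `M` which contain `P`, ordered by inclusion, form the lattice of flats of a
matroid, any two bases of which are conjugate over their common part: some automorphism `σ` of `M`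
maps `P` onto `P`, fixes the substructure of every common element and carries the set of the
substructures of the elements of `B` onto the set of the substructures of the elements of `B'`. -/
def IsLocGeometric (K : AEC L) (l : Cardinal.{u}) (M : Type u) [L.Structure M] : Prop :=
  ∃ P : L.Substructure M, K.le P ∧ #P ≤ l ∧
    (∀ P' : L.Substructure M, K.le P' → Nonempty (P ≃[L] P') →
      ∃ σ : M ≃[L] M, P.map σ.toHom = P') ∧
    ∃ (X : Type u) (Mt : Matroid X)
      (e : {F : Set X // Mt.IsFlat F} ≃o {S : L.Substructure M // K.le S ∧ P ≤ S}),
      ∀ B B' : Set X, Mt.IsBase B → Mt.IsBase B' → ∃ σ : M ≃[L] M, P.map σ.toHom = P ∧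
        (∀ b ∈ B ∩ B', (e (Gw.flat Mt {b})).1.map σ.toHom = (e (Gw.flat Mt {b})).1) ∧
        (∀ b ∈ B, ∃ b' ∈ B', (e (Gw.flat Mt {b})).1.map σ.toHom = (e (Gw.flat Mt {b'})).1) ∧
        ∀ b' ∈ B', ∃ b ∈ B, (e (Gw.flat Mt {b})).1.map σ.toHom = (e (Gw.flat Mt {b'})).1

end Vale.Agent.P307.H227
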