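import Vale.Agent.P307.H227.Nq
import Vale.Agent.P307.H227.NqDefs

/-!
Categoricity and geometric members of the class with a name for a small strong submodel.
-/

universe u

open FirstOrder Cardinal Function Language

namespace Vale.Agent.P307.H227

variable {L : Language.{u, u}}

/-- The underlying type of the expansion by a name for the set `Q`. -/
def Ex (L : Language.{u, u}) {N : Type u} [L.Structure N] (_Q : Set N) : Type u := N

section ex

variable {N : Type u} [i : L.Structure N] {Q : Set N}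

instance exStr : (nq L).Structure (Ex L Q) where
  funMap := fun {n} f x => i.funMap (f : L.Functions n) x
  RelMap := fun {n} r x => match n, r, x with
    | _, Sum.inl r, x => i.RelMap r x
    | _, Sum.inr ⟨_, hn⟩, x => x ⟨0, hn ▸ Nat.one_pos⟩ ∈ Q

/-- The reduct of the expansion. -/
def rdEx : Rd L (Ex L Q) ≃[L] N where
  toFun := fun x => x
  invFun := fun x => x
  left_inv := fun _ => rfl
  right_inv := fun _ => rfl
  map_fun' := fun {_} _ _ => rfl
  map_rel' := fun {_} _ _ => Iff.rfl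

theorem rdEx_mem (x : Rd L (Ex L Q)) : rdEx x ∈ Q ↔ x ∈ Qp L (Ex L Q) := Iff.rfl

/-- The expansion of a substructure. -/
def exSub (S : L.Substructure N) : (nq L).Substructure (Ex L Q) where
  carrier := (S : Set N)
  fun_mem := fun {n} f x hx => S.fun_mem (f : L.Functions n) x hx

theorem exSub_le {S T : L.Substructure N} :
    exSub (Q := Q) S ≤ exSub (Q := Q) T ↔ S ≤ T := Iff.rfl

/-- The reduct of a substructure of the expansion. -/
def unSub (S : (nq L).Substructure (Ex L Q)) : L.Substructure N where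
  carrier := (S : Set (Ex L Q))
  fun_mem := fun {n} f x hx => S.fun_mem (f : (nq L).Functions n) x hx

theorem exSub_unSub (S : (nq L).Substructure (Ex L Q)) : exSub (unSub S) = S := rfl

theorem unSub_exSub (S : L.Substructure N) : unSub (exSub (Q := Q) S) = S := rfl

theorem le_exSub {K : AEC L} {S : L.Substructure N} :
    K.le (toL (exSub (Q := Q) S)) ↔ K.le S := by
  constructor
  · intro h
    have h1 := K.le_iso rdEx _ h
    have h2 : (toL (exSub (Q := Q) S)).map rdEx.toHom = S := by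
      ext x
      constructor
      · rintro ⟨y, hy, rfl⟩
        exact hy
      · intro hx
        exact ⟨x, hx, rfl⟩
    rwa [h2] at h1
  · intro h
    have h1 := K.le_iso (rdEx (Q := Q)).symm _ h
    have h2 : S.map (rdEx (Q := Q)).symm.toHom = toL (exSub (Q := Q) S) := by
      ext x
      constructor
      · rintro ⟨y, hy, rfl⟩
        exact hy
      · intro hx
        exact ⟨x, hx, rfl⟩
    rwa [h2] at h1

theorem qMem_ex {K : AEC L} {P : Type u} [L.Structure P] {f : P ↪[L] N} (hf : K.Emb f)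
    (hQ : Set.range f = Q) : QMem K P (Ex L Q) := by
  refine ⟨(rdEx (Q := Q)).symm.toEmbedding.comp f,
    AEC.Emb.comp (AEC.Emb.of_equiv _ hf.mem_right) hf, ?_⟩
  ext x
  rw [← rdEx_mem, ← hQ]
  constructor
  · rintro ⟨p, rfl⟩
    exact ⟨p, rfl⟩
  · rintro ⟨p, hp⟩
    exact ⟨p, hp⟩

end ex

/-- The expansion of an isomorphism. -/
def exEquiv {M N : Type u} [L.Structure M] [L.Structure N] {Q : Set M} {R : Set N}
    (e : M ≃[L] N) (h : e '' Q = R) : Ex L Q ≃[nq L] Ex L R :=
  ofRdEquiv ((rdEx.symm.comp e).comp rdEx) (by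
    intro x
    rw [← rdEx_mem, ← rdEx_mem, ← h]
    constructor
    · rintro ⟨y, hy, hy2⟩
      have h1 : y = rdEx x := e.injective hy2
      rwa [h1] at hy
    · intro hx
      exact ⟨rdEx x, hx, rfl⟩)

theorem exEquiv_apply {M N : Type u} [L.Structure M] [L.Structure N] {Q : Set M} {R : Set N}
    (e : M ≃[L] N) (h : e '' Q = R) (x : M) :
    (exEquiv e h : Ex L Q → Ex L R) x = e x := rfl

theorem exSub_map {M N : Type u} [L.Structure M] [L.Structure N] {Q : Set M} {R : Set N}
    (e : M ≃[L] N) (h : e '' Q = R) (S : L.Substructure M) :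
    (exSub (Q := Q) S).map (exEquiv e h).toHom = exSub (Q := R) (S.map e.toHom) := by
  ext x
  constructor
  · rintro ⟨y, hy, rfl⟩
    exact ⟨y, hy, rfl⟩
  · rintro ⟨y, hy, rfl⟩
    exact ⟨y, hy, rfl⟩

section cat

variable {K : AEC L} {κ : Cardinal.{u}} {M : Type u} [L.Structure M]

/-- Categoricity passes to the class with a name. -/
theorem nq_categorical (hcat : K.CategoricalIn κ) (hM : #M = κ) (P : L.Substructure M)
    (hP : K.le P) (hhom : ∀ P' : L.Substructure M, K.le P' → Nonempty (P ≃[L] P') →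
      ∃ σ : M ≃[L] M, P.map σ.toHom = P') : (nqAEC K P).CategoricalIn κ := by
  have hKM : K.mem M := (K.mem_of_le _ hP).2
  have key : ∀ (N : Type u) [(nq L).Structure N], QMem K P N → #N = κ →
      ∃ e : Rd L N ≃[L] M, ∀ x, e x ∈ P ↔ x ∈ Qp L N := by
    intro N _ hN hNκ
    obtain ⟨e⟩ := hcat.2 (Rd L N) M hN.mem hKM hNκ hM
    obtain ⟨f, hf, hf2⟩ := hN
    let g : P ↪[L] M := e.toEmbedding.comp f
    have hg : K.Emb g := AEC.Emb.comp (AEC.Emb.of_equiv e hf.mem_right) hf
    obtain ⟨σ, hσ⟩ := hhom g.toHom.range hg ⟨g.equivRange⟩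
    refine ⟨σ.symm.comp e, fun x => ?_⟩
    rw [← hf2]
    constructor
    · intro hx
      have h1 : e x ∈ P.map σ.toHom := ⟨σ.symm (e x), hx, σ.apply_symm_apply (e x)⟩
      rw [hσ] at h1
      obtain ⟨p, hp⟩ := h1
      exact ⟨p, e.injective hp⟩
    · rintro ⟨p, rfl⟩
      have h1 : g p ∈ g.toHom.range := ⟨p, rfl⟩
      rw [← hσ] at h1
      obtain ⟨y, hy, hy2⟩ := h1
      change σ.symm (g p) ∈ P
      rw [← hy2]
      have h3 : σ.symm (σ y) = y := σ.symm_apply_apply y
      change σ.symm (σ y) ∈ P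
      rw [h3]
      exact hy
  constructor
  · refine ⟨Ex L (P : Set M), inferInstance, ?_, hM⟩
    refine qMem_ex (f := P.subtype) (AEC.emb_subtype.2 hP) ?_
    exact Subtype.range_coe
  · intro N N' _ _ hN hN' h1 h2
    obtain ⟨e, he⟩ := key N hN h1
    obtain ⟨e', he'⟩ := key N' hN' h2
    refine ⟨ofRdEquiv (e'.symm.comp e) fun x => ?_⟩
    rw [← he', ← he]
    have h3 : e' ((e'.symm.comp e) x) = e x := e'.apply_symm_apply (e x)
    rw [h3]

/-- The members of the expanded class. -/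
theorem categorical_of_nq {l κ' : Cardinal.{u}} (hK : K.IsLS l) (hl : l ≤ κ) (hκ : κ ≤ κ')
    (hcat : K.CategoricalIn κ) (hM : #M = κ) (P : L.Substructure M) (hP : K.le P)
    (hn : (nqAEC K P).CategoricalIn κ') : K.CategoricalIn κ' := by
  have hKM : K.mem M := (K.mem_of_le _ hP).2
  have key : ∀ (N : Type u) [L.Structure N], K.mem N → #N = κ' →
      ∃ f : P ↪[L] N, K.Emb f := by
    intro N _ hN hNκ
    obtain ⟨A, hA⟩ := le_mk_iff_exists_set.1 (hκ.trans hNκ.ge)
    obtain ⟨S, hS1, hS2, hS3⟩ := hK.2.2 N hN A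
    have hSκ : #S = κ := by
      apply le_antisymm
      · exact hS3.trans (add_le_of_le (hK.1.trans hl) hA.le hl)
      · rw [← hA]
        exact mk_le_mk_of_subset hS2
    obtain ⟨e⟩ := hcat.2 M S hKM (K.mem_of_le _ hS1).1 hM hSκ
    exact ⟨S.subtype.comp (e.toEmbedding.comp P.subtype),
      AEC.Emb.comp (AEC.emb_subtype.2 hS1)
        (AEC.Emb.comp (AEC.Emb.of_equiv e hKM) (AEC.emb_subtype.2 hP))⟩
  constructor
  · obtain ⟨N, _, hN, hNκ⟩ := hn.1
    exact ⟨Rd L N, inferInstance, QMem.mem hN, hNκ⟩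
  · intro N N' _ _ hN hN' h1 h2
    obtain ⟨f, hf⟩ := key N hN h1
    obtain ⟨f', hf'⟩ := key N' hN' h2
    obtain ⟨e⟩ := hn.2 (Ex L (Set.range f)) (Ex L (Set.range f')) (qMem_ex hf rfl)
      (qMem_ex hf' rfl) h1 h2
    exact ⟨rdEx.comp ((rdEquiv e).comp rdEx.symm)⟩

/-- A member which is geometric over a small strong substructure is a geometric member of the
class with a name. -/
theorem isGeometric_ex (P : L.Substructure M) (hP : K.le P) {X : Type u} (Mt : Matroid X)
    (e : {F : Set X // Mt.IsFlat F} ≃o {S : L.Substructure M // K.le S ∧ P ≤ S})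
    (he : ∀ B B' : Set X, Mt.IsBase B → Mt.IsBase B' → ∃ σ : M ≃[L] M, P.map σ.toHom = P ∧
        (∀ b ∈ B ∩ B', (e (Gw.flat Mt {b})).1.map σ.toHom = (e (Gw.flat Mt {b})).1) ∧
        (∀ b ∈ B, ∃ b' ∈ B', (e (Gw.flat Mt {b})).1.map σ.toHom = (e (Gw.flat Mt {b'})).1) ∧
        ∀ b' ∈ B', ∃ b ∈ B, (e (Gw.flat Mt {b})).1.map σ.toHom = (e (Gw.flat Mt {b'})).1) :
    Gw.IsGeometric (nqAEC K P) (Ex L (P : Set M)) := by
  have hmem : QMem K P (Ex L (P : Set M)) :=
    qMem_ex (f := P.subtype) (AEC.emb_subtype.2 hP) Subtype.range_coe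
  let i : {S : L.Substructure M // K.le S ∧ P ≤ S} ≃o
      {S : (nq L).Substructure (Ex L (P : Set M)) // (nqAEC K P).le S} :=
    { toFun := fun S => ⟨exSub S.1, le_exSub.2 S.2.1, fun x hx => S.2.2 hx, hmem⟩
      invFun := fun S => ⟨unSub S.1, le_exSub.1 S.2.1, fun x hx => S.2.2.1 hx⟩
      left_inv := fun _ => rfl
      right_inv := fun _ => rfl
      map_rel_iff' := Iff.rfl }
  refine ⟨X, Mt, e.trans i, fun B B' hB hB' => ?_⟩
  obtain ⟨σ, hσ, h1, h2, h3⟩ := he B B' hB hB'
  have hσ' : σ '' (P : Set M) = P := by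
    have h4 : ((P.map σ.toHom : L.Substructure M) : Set M) = P := by rw [hσ]
    exact h4
  have key : ∀ b b' : X,
      (e (Gw.flat Mt {b})).1.map σ.toHom = (e (Gw.flat Mt {b'})).1 →
      ((e.trans i) (Gw.flat Mt {b})).1.map (exEquiv σ hσ').toHom =
        ((e.trans i) (Gw.flat Mt {b'})).1 := by
    intro b b' h
    refine (exSub_map σ hσ' (e (Gw.flat Mt {b})).1).trans ?_
    exact congrArg (exSub (Q := (P : Set M))) h
  refine ⟨exEquiv σ hσ', fun b hb => key b b (h1 b hb), fun b hb => ?_, fun b' hb' => ?_⟩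
  · obtain ⟨b', hb', h4⟩ := h2 b hb
    exact ⟨b', hb', key b b' h4⟩
  · obtain ⟨b, hb, h4⟩ := h3 b' hb'
    exact ⟨b, hb, key b b' h4⟩

end cat

end Vale.Agent.P307.H227
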