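import Vale.Agent.P307.Fm.Defs
import Vale.Agent.P307.H227.NqCat
import Vale.Agent.P307.H67.Thresh

/-!
Categoricity transfer for classes with a member which has frames over a small strong substructure,
from the case of frames.
-/

universe u

open FirstOrder Cardinal Set Function Language

namespace Vale.Agent.P307.H227

open Fm (FrameIn FrameOf HasFrames IsFramed)

variable {L : Language.{u, u}}

/-- `M` has frames over a strong substructure `P` with at most `l` elements: every strong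
substructure isomorphic to `P` is the image of `P` under an automorphism of `M`, and the strong
substructures of `M` which contain `P` have frames, conjugate under the automorphisms of `M` which
map `P` onto `P`. -/
def IsLocFramed (K : AEC L) (l : Cardinal.{u}) (M : Type u) [L.Structure M] : Prop :=
  ∃ P : L.Substructure M, K.le P ∧ #P ≤ l ∧
    (∀ P' : L.Substructure M, K.le P' → Nonempty (P ≃[L] P') →
      ∃ σ : M ≃[L] M, P.map σ.toHom = P') ∧
    HasFrames l (fun S : L.Substructure M => K.le S ∧ P ≤ S) fun σ => P.map σ.toHom = P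

section

variable {K : AEC L} {M : Type u} [L.Structure M] {P : L.Substructure M} (hP : K.le P)

include hP

theorem qLe_ex' (S : (nq L).Substructure (Ex L (P : Set M))) :
    (nqAEC K P).le S ↔ K.le (unSub S) ∧ P ≤ unSub S := by
  have hmem : QMem K P (Ex L (P : Set M)) :=
    qMem_ex (f := P.subtype) (AEC.emb_subtype.2 hP) Subtype.range_coe
  constructor
  · intro h
    exact ⟨le_exSub.1 h.1, fun x hx => h.2.1 hx⟩
  · intro h
    exact ⟨le_exSub.2 h.1, fun x hx => h.2 hx, hmem⟩

theorem frameIn_ex (S : (nq L).Substructure (Ex L (P : Set M))) {X : Type u}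
    (A : Finset X → (nq L).Substructure (Ex L (P : Set M))) :
    FrameIn (fun S => (nqAEC K P).le S) S A ↔
      FrameIn (fun S : L.Substructure M => K.le S ∧ P ≤ S) (unSub S) (fun s => unSub (A s)) := by
  constructor
  · rintro ⟨h1, h2, h3, h4⟩
    refine ⟨fun s => ⟨(qLe_ex' hP _).1 (h1 s).1, (h1 s).2⟩, fun s t r hr => ?_,
      fun s t hst => h3 s t hst, fun s V hV hVA ht => ?_⟩
    · exact congrArg unSub (h2 s t r hr)
    · rcases h4 s (exSub V) ((qLe_ex' hP _).2 hV) hVA fun t hts => ht t hts with h5 | ⟨t, h5, h6⟩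
      · exact Or.inl (congrArg unSub h5)
      · exact Or.inr ⟨t, h5, congrArg unSub h6⟩
  · rintro ⟨h1, h2, h3, h4⟩
    refine ⟨fun s => ⟨(qLe_ex' hP _).2 (h1 s).1, (h1 s).2⟩, fun s t r hr => ?_,
      fun s t hst => h3 s t hst, fun s V hV hVA ht => ?_⟩
    · exact congrArg exSub (h2 s t r hr)
    · rcases h4 s (unSub V) ((qLe_ex' hP _).1 hV) hVA fun t hts => ht t hts with h5 | ⟨t, h5, h6⟩
      · exact Or.inl (congrArg exSub h5)
      · exact Or.inr ⟨t, h5, congrArg exSub h6⟩

theorem frameOf_ex (S : (nq L).Substructure (Ex L (P : Set M))) {X : Type u}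
    (A : Finset X → (nq L).Substructure (Ex L (P : Set M))) :
    FrameOf (fun S => (nqAEC K P).le S) S A ↔
      FrameOf (fun S : L.Substructure M => K.le S ∧ P ≤ S) (unSub S) (fun s => unSub (A s)) :=
  and_congr (frameIn_ex hP S A) Iff.rfl

/-- A member with frames over `P` has frames in the class with a name for `P`. -/
theorem isFramed_ex {l : Cardinal.{u}} (h : HasFrames l
    (fun S : L.Substructure M => K.le S ∧ P ≤ S) fun σ => P.map σ.toHom = P) :
    IsFramed (nqAEC K P) l (Ex L (P : Set M)) := by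
  obtain ⟨h1, h2, h3⟩ := h
  refine ⟨fun S hS hl => ?_, fun S T hS hT hl hST X A hA => ?_, fun X Y A B hA hB => ?_⟩
  · obtain ⟨X, A, hA⟩ := h1 (unSub S) ((qLe_ex' hP S).1 hS) hl
    exact ⟨X, fun s => exSub (A s), (frameOf_ex hP _ _).2 hA⟩
  · obtain ⟨Y, j, B, hB1, hB2⟩ := h2 (unSub S) (unSub T) ((qLe_ex' hP S).1 hS)
      ((qLe_ex' hP T).1 hT) hl hST X (fun s => unSub (A s)) ((frameIn_ex hP S A).1 hA)
    exact ⟨Y, j, fun s => exSub (B s), (frameOf_ex hP _ _).2 hB1, fun s =>
      congrArg exSub (hB2 s)⟩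
  · obtain ⟨σ, j, hσ, h4⟩ := h3 X Y (fun s => unSub (A s)) (fun s => unSub (B s))
      ((frameOf_ex hP _ _).1 hA) ((frameOf_ex hP _ _).1 hB)
    have hσ' : σ '' (P : Set M) = P := by
      have h5 : ((P.map σ.toHom : L.Substructure M) : Set M) = P := by rw [hσ]
      exact h5
    refine ⟨exEquiv σ hσ', j, trivial, fun s => ?_⟩
    refine (exSub_map σ hσ' (unSub (A s))).trans ?_
    exact congrArg exSub (h4 s)

end

/-- Q1 for the classes whose member of size `κ` has frames over a small strong substructure, from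
the case of frames. -/
theorem q1_locFramed_of (l : Cardinal.{u})
    (hG : ∃ μ : Cardinal.{u}, l ≤ μ ∧ ∀ (L : Language.{u, u}) (K : AEC L), K.LS ≤ l →
      ∀ κ : Cardinal.{u}, μ ≤ κ → K.CategoricalIn κ →
      (∃ (M : Type u) (_ : L.Structure M), K.mem M ∧ #M = κ ∧ IsFramed K l M) →
        ∀ κ' : Cardinal.{u}, μ ≤ κ' → K.CategoricalIn κ') :
    ∃ μ : Cardinal.{u}, l ≤ μ ∧ ∀ (L : Language.{u, u}) (K : AEC L), K.LS ≤ l →
      ∀ κ : Cardinal.{u}, μ ≤ κ → K.CategoricalIn κ →
      (∃ (M : Type u) (_ : L.Structure M), K.mem M ∧ #M = κ ∧ IsLocFramed K l M) →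
        ∀ κ' : Cardinal.{u}, μ ≤ κ' → K.CategoricalIn κ' := by
  obtain ⟨μ₀, hμ₀, hμ⟩ := H67.exists_threshold l
  obtain ⟨μ₁, hμ₁, hC⟩ := hG
  refine ⟨max μ₀ μ₁, hμ₀.trans (le_max_left _ _), ?_⟩
  rintro L K hK κ hκ hcat ⟨M, _, hM, hMκ, P, hP, hPl, hhom, hB⟩
  have hLS : K.IsLS l := AEC.isLS_of_LS_le hK
  have hq : (nqAEC K P).LS ≤ l := csInf_le' (nqAEC_isLS hLS hPl)
  have hlκ : l ≤ κ := hμ₀.trans ((le_max_left _ _).trans hκ)
  have hμκ : μ₁ ≤ κ := (le_max_right _ _).trans hκ
  have hqc : (nqAEC K P).CategoricalIn κ := nq_categorical hcat hMκ P hP hhom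
  have h1 := hC (nq L) (nqAEC K P) hq κ hμκ hqc
    ⟨Ex L (P : Set M), inferInstance,
      qMem_ex (f := P.subtype) (AEC.emb_subtype.2 hP) Subtype.range_coe,
      hMκ, isFramed_ex hP hB⟩
  have h2 : ∀ κ', κ ≤ κ' → K.CategoricalIn κ' := fun κ' h =>
    categorical_of_nq hLS hlκ h hcat hMκ P hP (h1 κ' (hμκ.trans h))
  exact fun κ' h => hμ L K hK ⟨κ, h2⟩ κ' ((le_max_left _ _).trans h)

end Vale.Agent.P307.H227
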