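import Vale.Agent.P307.Defs

/-! Members in which every strong substructure has a basis. -/

universe u

open FirstOrder Cardinal Set Function Language

namespace Vale.Agent.P307.Fr

variable {L : Language.{u, u}} {M : Type u} [L.Structure M]

/-- `U` is the least substructure of `T` with the property `str` which contains `A`. -/
def Gen (str : L.Substructure M → Prop) (T : L.Substructure M) (A : Set M)
    (U : L.Substructure M) : Prop :=
  str U ∧ U ≤ T ∧ A ⊆ U ∧ ∀ V : L.Substructure M, str V → V ≤ T → A ⊆ V → U ≤ V

/-- `A` is free in `T`: every subset of `A` generates a substructure with the property `str`,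
which contains no other element of `A`, and the substructures generated by the elements of `A` are
minimal above the one generated by the empty set. -/
def Free (str : L.Substructure M → Prop) (T : L.Substructure M) (A : Set M) : Prop :=
  (∀ A' : Set M, A' ⊆ A → ∃ U, Gen str T A' U ∧ ∀ a ∈ A, a ∈ U → a ∈ A') ∧
  ∀ a ∈ A, ∀ U₀ U V : L.Substructure M, Gen str T ∅ U₀ → Gen str T {a} U → str V → V ≤ U →
    V = U₀ ∨ V = U

/-- `A` is a basis of `T`. -/
def Basis (str : L.Substructure M → Prop) (T : L.Substructure M) (A : Set M) : Prop :=
  Free str T A ∧ Gen str T A T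

/-- Every free subset of a substructure `S` with the property `str` is contained in a basis of
every larger `T`, and any two bases of `M` are conjugate under the automorphisms in `aut`. -/
def HasBases (str : L.Substructure M → Prop) (aut : (M ≃[L] M) → Prop) : Prop :=
  (∀ S T : L.Substructure M, str S → str T → S ≤ T → ∀ A : Set M, Free str S A →
    ∃ B : Set M, A ⊆ B ∧ Basis str T B) ∧
  ∀ B B' : Set M, Basis str ⊤ B → Basis str ⊤ B' → ∃ σ : M ≃[L] M, aut σ ∧
    ∀ b ∈ B, ∃ b' ∈ B', ∀ U U' : L.Substructure M, Gen str ⊤ {b} U → Gen str ⊤ {b'} U' →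
      U.map σ.toHom = U'

/-- Every strong substructure of `M` has a basis. -/
def IsFree (K : AEC L) (M : Type u) [L.Structure M] : Prop :=
  HasBases (M := M) (fun S => K.le S) (fun _ => True)

/-- The same over a strong substructure `P` with at most `l` elements, every strong substructure
isomorphic to which is the image of `P` under an automorphism of `M`. -/
def IsLocFree (K : AEC L) (l : Cardinal.{u}) (M : Type u) [L.Structure M] : Prop :=
  ∃ P : L.Substructure M, K.le P ∧ #P ≤ l ∧
    (∀ P' : L.Substructure M, K.le P' → Nonempty (P ≃[L] P') →
      ∃ σ : M ≃[L] M, P.map σ.toHom = P') ∧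
    HasBases (M := M) (fun S => K.le S ∧ P ≤ S) (fun σ => P.map σ.toHom = P)

end Vale.Agent.P307.Fr
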