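import Vale.Agent.P307.H479.E.Defs
import Vale.Agent.P307.Pw.Fam1

/-!
Members with the lattice of flats of a matroid as strong substructures have bases.
-/

universe u

open FirstOrder Cardinal Set Function Language

namespace Vale.Agent.P307.H227

open H479.E (Lst FreeIn BasisOf HasBases IsFree)
open Gw (flat indep_range_iff)

variable {L : Language.{u, u}} {K : AEC L} {M : Type u} [L.Structure M]

/-- The members of a free set are points, which are independent. -/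
theorem freeIn_indep (g : Pw.Geo K M) {S : L.Substructure M} (hS : K.le S)
    {A : Set (L.Substructure M)} (hA : FreeIn (fun S : L.Substructure M => K.le S) S A) :
    ∃ x : A → g.X, (∀ T, g.sp {x T} = T.1) ∧ (∀ T, x T ∈ g.Mt.E) ∧ Injective x ∧
      g.Mt.Indep (range x) := by
  obtain ⟨h1, h2, h3⟩ := hA
  have hbot : ∀ V : L.Substructure M, K.le V → g.sp ∅ ≤ V := fun V hV =>
    (g.sp_le_iff (empty_subset _) hV).2 fun a ha => absurd ha (notMem_empty a)
  have hpt : ∀ T : A, ∃ x ∈ g.Mt.E, g.sp {x} = T.1 := by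
    intro T
    obtain ⟨U, hU1, hU2⟩ := h3 ∅ (empty_subset _)
    have h4 : ¬ T.1 ≤ g.sp ∅ := fun h =>
      absurd (hU2 T.1 T.2 (h.trans (hbot U hU1.1))) (notMem_empty _)
    obtain ⟨F, hF, h5⟩ := g.exists_sp (h1 T.1 T.2).1
    have h6 : ¬ F ⊆ g.Mt.closure ∅ := by
      intro h6
      apply h4
      rw [← h5, g.sp_le_sp, hF.closure]
      exact h6
    obtain ⟨x, hx, hx'⟩ := not_subset.1 h6
    have hxE : x ∈ g.Mt.E := hF.subset_ground hx
    have h7 : g.sp {x} ≤ T.1 := by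
      rw [← h5, g.pt_le_sp hxE, hF.closure]
      exact hx
    rcases h2 T.1 T.2 (g.sp {x}) (g.le_sp _) h7 with h8 | h8
    · exact ⟨x, hxE, h8⟩
    · exfalso
      apply hx'
      rw [← g.pt_le_sp hxE]
      exact h8.2.2.2 (g.sp ∅) (g.le_sp _) (hbot S hS) (fun T hT => absurd hT (notMem_empty T))
  choose x hxE hx using hpt
  refine ⟨x, hx, hxE, ?_⟩
  rw [indep_range_iff x hxE]
  intro T hT
  obtain ⟨U, hU1, hU2⟩ := h3 (A \ {T.1}) sdiff_subset
  have h4 : g.sp (x '' {T}ᶜ) ≤ U := by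
    rw [g.sp_le_iff (by rintro _ ⟨i, -, rfl⟩; exact hxE i) hU1.1]
    rintro _ ⟨T', hT', rfl⟩
    rw [hx]
    exact hU1.2.2.1 T'.1 ⟨T'.2, fun h => hT' (Subtype.ext h)⟩
  rw [← g.pt_le_sp (hxE T), hx] at hT
  exact (hU2 T.1 T.2 (hT.trans h4)).2 rfl

/-- The points of a basis of a flat are a basis. -/
theorem basisOf_isBasis (g : Pw.Geo K M) {F J : Set g.X} (hF : g.Mt.IsFlat F)
    (hJ : g.Mt.IsBasis J F) :
    BasisOf (fun S : L.Substructure M => K.le S) (g.sp F) ((fun j => g.sp {j}) '' J) := by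
  have hJE : J ⊆ g.Mt.E := hJ.subset.trans hF.subset_ground
  have hbot : ∀ V : L.Substructure M, K.le V → g.sp ∅ ≤ V := fun V hV =>
    (g.sp_le_iff (empty_subset _) hV).2 fun a ha => absurd ha (notMem_empty a)
  have hlst : ∀ C ⊆ (fun j => g.sp {j}) '' J,
      Lst (fun S : L.Substructure M => K.le S) (g.sp F) C (g.sp {j ∈ J | g.sp {j} ∈ C}) := by
    intro C hC
    refine ⟨g.le_sp _, g.sp_mono ((sep_subset _ _).trans hJ.subset), fun T hT => ?_,
      fun V hV hVF hVC => ?_⟩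
    · obtain ⟨j, hj, rfl⟩ := hC hT
      exact g.sp_mono (singleton_subset_iff.2 ⟨hj, hT⟩)
    · rw [g.sp_le_iff ((sep_subset _ _).trans hJE) hV]
      rintro j ⟨hj, hj2⟩
      exact hVC _ hj2
  refine ⟨⟨?_, ?_, ?_⟩, ?_⟩
  · rintro _ ⟨j, hj, rfl⟩
    exact ⟨g.le_sp _, g.sp_mono (singleton_subset_iff.2 (hJ.subset hj))⟩
  · rintro _ ⟨j, hj, rfl⟩ T' hT' hle
    have hjE : j ∈ g.Mt.E := hJE hj
    obtain ⟨F', hF', rfl⟩ := g.exists_sp hT'
    by_cases h1 : F' ⊆ g.Mt.closure ∅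
    · right
      have h2 : g.sp F' ≤ g.sp ∅ := by
        rw [g.sp_le_sp, hF'.closure]
        exact h1
      refine ⟨g.le_sp _, h2.trans (hbot _ (g.le_sp _)), fun T hT => absurd hT (notMem_empty T),
        fun V hV _ _ => h2.trans (hbot V hV)⟩
    · left
      obtain ⟨z, hz, hz'⟩ := not_subset.1 h1
      have hzE : z ∈ g.Mt.E := hF'.subset_ground hz
      have h3 : z ∈ g.Mt.closure {j} := by
        rw [← g.pt_le_sp hzE]
        refine le_trans ?_ hle
        exact g.sp_mono (singleton_subset_iff.2 hz)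
      have h4 : j ∈ g.Mt.closure {z} := by
        have h10 : z ∈ g.Mt.closure (insert j ∅) \ g.Mt.closure ∅ := by
          rw [insert_empty_eq]
          exact ⟨h3, hz'⟩
        have h11 := (Matroid.closure_exchange h10).1
        rwa [insert_empty_eq] at h11
      refine le_antisymm hle ?_
      have h5 : g.sp {j} ≤ g.sp {z} := (g.pt_le_sp hjE).2 h4
      exact h5.trans (g.sp_mono (singleton_subset_iff.2 hz))
  · intro C hC
    refine ⟨_, hlst C hC, ?_⟩
    rintro _ ⟨j, hj, rfl⟩ hle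
    rw [g.pt_le_sp (hJE hj)] at hle
    by_contra hjC
    have h1 : {j ∈ J | g.sp {j} ∈ C} ⊆ J \ {j} := by
      rintro i ⟨hi, hi2⟩
      refine ⟨hi, fun h => hjC ?_⟩
      rw [← mem_singleton_iff.1 h]
      exact hi2
    exact hJ.indep.notMem_closure_sdiff_of_mem hj (g.Mt.closure_subset_closure h1 hle)
  · refine ⟨g.le_sp _, le_rfl, ?_, fun V hV _ hVA => ?_⟩
    · rintro _ ⟨j, hj, rfl⟩
      exact g.sp_mono (singleton_subset_iff.2 (hJ.subset hj))
    · have h1 : g.sp F ≤ g.sp J := g.sp_le_sp.2 hJ.closure_eq_closure.ge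
      refine h1.trans ?_
      rw [g.sp_le_iff hJE hV]
      exact fun j hj => hVA _ ⟨j, hj, rfl⟩

/-- Members with the lattice of flats of a matroid with conjugate bases as strong substructures
have bases. -/
theorem isFree_of_isGeo1 (hM : K.mem M) (h : Pw.IsGeo1 K M) : IsFree K M := by
  obtain ⟨X, Mt, e, he⟩ := h
  let g : Pw.Geo K M := ⟨X, Mt, e⟩
  have hext : ∀ S T : L.Substructure M, K.le S → K.le T → S ≤ T → ∀ A,
      FreeIn (fun S : L.Substructure M => K.le S) S A →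
      ∃ B, A ⊆ B ∧ BasisOf (fun S : L.Substructure M => K.le S) T B := by
    intro S T hS hT hST A hA
    obtain ⟨x, hx1, hx2, hx3, hx4⟩ := freeIn_indep g hS hA
    obtain ⟨F, hF, hFT⟩ := g.exists_sp hT
    have h1 : range x ⊆ F := by
      rintro _ ⟨T', rfl⟩
      rw [← hF.closure, ← g.pt_le_sp (hx2 T'), hx1, hFT]
      exact (hA.1 T'.1 T'.2).2.trans hST
    obtain ⟨J, hJ, hJx⟩ := hx4.subset_isBasis_of_subset h1 hF.subset_ground
    refine ⟨(fun j => g.sp {j}) '' J, fun T' hT' => ?_, ?_⟩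
    · exact ⟨x ⟨T', hT'⟩, hJx ⟨⟨T', hT'⟩, rfl⟩, hx1 ⟨T', hT'⟩⟩
    · rw [← hFT]
      exact basisOf_isBasis g hF hJ
  have htop : K.le (⊤ : L.Substructure M) := K.le_refl hM
  have hbase : ∀ A : Set (L.Substructure M),
      BasisOf (fun S : L.Substructure M => K.le S) ⊤ A →
      ∃ x : A → g.X, (∀ T, g.sp {x T} = T.1) ∧ g.Mt.IsBase (range x) := by
    intro A hA
    obtain ⟨x, hx1, hx2, hx3, hx4⟩ := freeIn_indep g htop hA.1
    refine ⟨x, hx1, g.base_of_sp hx4 ?_⟩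
    rw [eq_top_iff]
    refine hA.2.2.2.2 _ (g.le_sp _) le_top fun T hT => ?_
    exact (hx1 ⟨T, hT⟩).ge.trans (g.sp_mono (singleton_subset_iff.2 ⟨⟨T, hT⟩, rfl⟩))
  refine ⟨?_, hext, fun A B hA hB => ?_⟩
  · obtain ⟨B, -, hB⟩ := hext ⊤ ⊤ htop htop le_rfl ∅ ⟨fun T hT => absurd hT (notMem_empty T),
      fun T hT => absurd hT (notMem_empty T), fun C hC => by
        refine ⟨g.sp ∅, ⟨g.le_sp _, le_top, fun T hT => absurd (hC hT) (notMem_empty T),
          fun V hV _ _ => (g.sp_le_iff (empty_subset _) hV).2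
            fun a ha => absurd ha (notMem_empty a)⟩, fun T hT => absurd hT (notMem_empty T)⟩⟩
    exact ⟨B, hB⟩
  · obtain ⟨x, hx1, hx2⟩ := hbase A hA
    obtain ⟨y, hy1, hy2⟩ := hbase B hB
    obtain ⟨σ, hσ, -⟩ := he _ _ hx2 hy2
    refine ⟨σ, trivial, fun T hT => ?_⟩
    obtain ⟨_, ⟨T', rfl⟩, h1⟩ := hσ (x ⟨T, hT⟩) ⟨⟨T, hT⟩, rfl⟩
    have h2 : (g.sp {x ⟨T, hT⟩}).map σ.toHom = g.sp {y T'} := h1
    rw [hx1, hy1] at h2
    rw [h2]
    exact T'.2

end Vale.Agent.P307.H227
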