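import Vale.Agent.P307.H479.E.Defs
import Vale.Agent.P307.H227.NqCat
import Vale.Agent.P307.H67.Thresh

/-!
Categoricity transfer for classes with a member which has bases over a small strong substructure,
from the case of bases.
-/

universe u

open FirstOrder Cardinal Set Function Language

namespace Vale.Agent.P307.H227

open H479.E (Lst FreeIn BasisOf HasBases IsFree)

variable {L : Language.{u, u}}

/-- `M` has bases over a strong substructure `P` with at most `l` elements: every strong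
substructure isomorphic to `P` is the image of `P` under an automorphism of `M`, and the strong
substructures of `M` which contain `P` have bases, conjugate under the automorphisms of `M` which
map `P` onto `P`. -/
def IsLocFree (K : AEC L) (l : Cardinal.{u}) (M : Type u) [L.Structure M] : Prop :=
  ∃ P : L.Substructure M, K.le P ∧ #P ≤ l ∧
    (∀ P' : L.Substructure M, K.le P' → Nonempty (P ≃[L] P') →
      ∃ σ : M ≃[L] M, P.map σ.toHom = P') ∧
    HasBases (fun S : L.Substructure M => K.le S ∧ P ≤ S) fun σ => P.map σ.toHom = P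

section

variable {K : AEC L} {M : Type u} [L.Structure M] {P : L.Substructure M} (hP : K.le P)

include hP

theorem qLe_ex (S : (nq L).Substructure (Ex L (P : Set M))) :
    (nqAEC K P).le S ↔ K.le (unSub S) ∧ P ≤ unSub S := by
  have hmem : QMem K P (Ex L (P : Set M)) :=
    qMem_ex (f := P.subtype) (AEC.emb_subtype.2 hP) Subtype.range_coe
  constructor
  · intro h
    exact ⟨le_exSub.1 h.1, fun x hx => h.2.1 hx⟩
  · intro h
    exact ⟨le_exSub.2 h.1, fun x hx => h.2 hx, hmem⟩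

theorem lst_ex (S U : (nq L).Substructure (Ex L (P : Set M)))
    (A : Set ((nq L).Substructure (Ex L (P : Set M)))) :
    Lst (fun S => (nqAEC K P).le S) S A U ↔
      Lst (fun S : L.Substructure M => K.le S ∧ P ≤ S) (unSub S) (exSub ⁻¹' A) (unSub U) := by
  constructor
  · rintro ⟨h1, h2, h3, h4⟩
    refine ⟨(qLe_ex hP U).1 h1, h2, fun T hT => h3 (exSub T) hT, fun V hV hVS hVA => ?_⟩
    exact h4 (exSub V) ((qLe_ex hP _).2 hV) hVS fun T hT => hVA (unSub T) hT
  · rintro ⟨h1, h2, h3, h4⟩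
    refine ⟨(qLe_ex hP U).2 h1, h2, fun T hT => h3 (unSub T) hT, fun V hV hVS hVA => ?_⟩
    exact h4 (unSub V) ((qLe_ex hP _).1 hV) hVS fun T hT => hVA (exSub T) hT

theorem freeIn_ex (S : (nq L).Substructure (Ex L (P : Set M)))
    (A : Set ((nq L).Substructure (Ex L (P : Set M)))) :
    FreeIn (fun S => (nqAEC K P).le S) S A ↔
      FreeIn (fun S : L.Substructure M => K.le S ∧ P ≤ S) (unSub S) (exSub ⁻¹' A) := by
  constructor
  · rintro ⟨h1, h2, h3⟩
    refine ⟨fun T hT => ⟨(qLe_ex hP _).1 (h1 (exSub T) hT).1, (h1 (exSub T) hT).2⟩,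
      fun T hT T' hT' hle => ?_, fun B hB => ?_⟩
    · rcases h2 (exSub T) hT (exSub T') ((qLe_ex hP _).2 hT') hle with h4 | h4
      · exact Or.inl (congrArg unSub h4)
      · exact Or.inr ((lst_ex hP S _ ∅).1 h4)
    · obtain ⟨U, h4, h5⟩ := h3 (unSub ⁻¹' B) (fun T hT => hB hT)
      refine ⟨unSub U, (lst_ex hP S U _).1 h4, fun T hT hle => h5 (exSub T) hT hle⟩
  · rintro ⟨h1, h2, h3⟩
    refine ⟨fun T hT => ⟨(qLe_ex hP _).2 (h1 (unSub T) hT).1, (h1 (unSub T) hT).2⟩,
      fun T hT T' hT' hle => ?_, fun B hB => ?_⟩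
    · rcases h2 (unSub T) hT (unSub T') ((qLe_ex hP _).1 hT') hle with h4 | h4
      · exact Or.inl (congrArg exSub h4)
      · exact Or.inr ((lst_ex hP S _ ∅).2 h4)
    · obtain ⟨U, h4, h5⟩ := h3 (exSub ⁻¹' B) (fun T hT => hB hT)
      refine ⟨exSub U, (lst_ex hP S (exSub U) _).2 h4, fun T hT hle => h5 (unSub T) hT hle⟩

theorem basisOf_ex (S : (nq L).Substructure (Ex L (P : Set M)))
    (A : Set ((nq L).Substructure (Ex L (P : Set M)))) :
    BasisOf (fun S => (nqAEC K P).le S) S A ↔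
      BasisOf (fun S : L.Substructure M => K.le S ∧ P ≤ S) (unSub S) (exSub ⁻¹' A) :=
  and_congr (freeIn_ex hP S A) (lst_ex hP S S A)

/-- A member with bases over `P` has bases in the class with a name for `P`. -/
theorem isFree_ex (h : HasBases (fun S : L.Substructure M => K.le S ∧ P ≤ S)
    fun σ => P.map σ.toHom = P) : IsFree (nqAEC K P) (Ex L (P : Set M)) := by
  obtain ⟨⟨A, hA⟩, h2, h3⟩ := h
  refine ⟨⟨unSub ⁻¹' A, (basisOf_ex hP _ _).2 hA⟩, fun S T hS hT hST A hA => ?_,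
    fun A B hA hB => ?_⟩
  · obtain ⟨B, hB1, hB2⟩ := h2 (unSub S) (unSub T) ((qLe_ex hP S).1 hS) ((qLe_ex hP T).1 hT) hST
      (exSub ⁻¹' A) ((freeIn_ex hP S A).1 hA)
    exact ⟨unSub ⁻¹' B, fun T hT => hB1 hT, (basisOf_ex hP _ _).2 hB2⟩
  · obtain ⟨σ, hσ, h4⟩ := h3 (exSub ⁻¹' A) (exSub ⁻¹' B) ((basisOf_ex hP _ _).1 hA)
      ((basisOf_ex hP _ _).1 hB)
    have hσ' : σ '' (P : Set M) = P := by
      have h5 : ((P.map σ.toHom : L.Substructure M) : Set M) = P := by rw [hσ]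
      exact h5
    refine ⟨exEquiv σ hσ', trivial, fun T hT => ?_⟩
    have h6 := h4 (unSub T) hT
    have h7 := exSub_map σ hσ' (unSub T)
    have h8 : exSub (Q := (P : Set M)) ((unSub T).map σ.toHom) ∈ B := h6
    rw [← h7] at h8
    exact h8

end

/-- Q1 for the classes whose member of size `κ` has bases over a small strong substructure, from
the case of bases. -/
theorem q1_locFree_of (l : Cardinal.{u})
    (hG : ∃ μ : Cardinal.{u}, l ≤ μ ∧ ∀ (L : Language.{u, u}) (K : AEC L), K.LS ≤ l →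
      ∀ κ : Cardinal.{u}, μ ≤ κ → K.CategoricalIn κ →
      (∃ (M : Type u) (_ : L.Structure M), K.mem M ∧ #M = κ ∧ IsFree K M) →
        ∀ κ' : Cardinal.{u}, μ ≤ κ' → K.CategoricalIn κ') :
    ∃ μ : Cardinal.{u}, l ≤ μ ∧ ∀ (L : Language.{u, u}) (K : AEC L), K.LS ≤ l →
      ∀ κ : Cardinal.{u}, μ ≤ κ → K.CategoricalIn κ →
      (∃ (M : Type u) (_ : L.Structure M), K.mem M ∧ #M = κ ∧ IsLocFree K l M) →
        ∀ κ' : Cardinal.{u}, μ ≤ κ' → K.CategoricalIn κ' := by
  obtain ⟨μ₀, hμ₀, hμ⟩ := H67.exists_threshold l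
  obtain ⟨μ₁, hμ₁, hC⟩ := hG
  refine ⟨max μ₀ μ₁, hμ₀.trans (le_max_left _ _), ?_⟩
  rintro L K hK κ hκ hcat ⟨M, _, hM, hMκ, P, hP, hPl, hhom, hB⟩
  have hLS : K.IsLS l := AEC.isLS_of_LS_le hK
  have hq : (nqAEC K P).LS ≤ l := csInf_le' (nqAEC_isLS hLS hPl)
  have hlκ : l ≤ κ := hμ₀.trans ((le_max_left _ _).trans hκ)
  have hμκ : μ₁ ≤ κ := (le_max_right _ _).trans hκ
  have hqc : (nqAEC K P).CategoricalIn κ := nq_categorical hcat hMκ P hP hhom
  have h1 := hC (nq L) (nqAEC K P) hq κ hμκ hqc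
    ⟨Ex L (P : Set M), inferInstance,
      qMem_ex (f := P.subtype) (AEC.emb_subtype.2 hP) Subtype.range_coe,
      hMκ, isFree_ex hP hB⟩
  have h2 : ∀ κ', κ ≤ κ' → K.CategoricalIn κ' := fun κ' h =>
    categorical_of_nq hLS hlκ h hcat hMκ P hP (h1 κ' (hμκ.trans h))
  exact fun κ' h => hμ L K hK ⟨κ, h2⟩ κ' ((le_max_left _ _).trans h)

end Vale.Agent.P307.H227
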