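import Vale.Agent.P307.H227.NqDefs
import Vale.Agent.P307.Bdl.B1

/-!
Geometric members are geometric over their least strong substructure.
-/

universe u

open FirstOrder Cardinal Function Language

namespace Vale.Agent.P307.H227

variable {L : Language.{u, u}}

/-- A least strong substructure is preserved by the isomorphisms between strong substructures. -/
theorem least_eq {K : AEC L} {M : Type u} [L.Structure M] {P : L.Substructure M} (hP : K.le P)
    (hleast : ∀ S : L.Substructure M, K.le S → P ≤ S) {P' : L.Substructure M} (hP' : K.le P')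
    (i : P ≃[L] P') : P' = P := by
  have h1 : P ≤ P' := hleast P' hP'
  have h2 : K.Emb (Substructure.inclusion h1) := (AEC.sle_of_le_le h1 hP hP').2
  have h3 : K.mem P' := (K.mem_of_le _ hP').1
  let g : P ↪[L] M := P.subtype.comp (i.symm.toEmbedding.comp (Substructure.inclusion h1))
  have hg : K.Emb g := AEC.Emb.comp (AEC.emb_subtype.2 hP)
    (AEC.Emb.comp (AEC.Emb.of_equiv i.symm h3) h2)
  have h4 : P ≤ g.toHom.range := hleast _ hg
  apply le_antisymm _ h1
  intro x hx
  have h5 : ((i.symm ⟨x, hx⟩ : P) : M) ∈ P := (i.symm ⟨x, hx⟩).2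
  obtain ⟨p, hp⟩ := h4 h5
  have h6 : i.symm (Substructure.inclusion h1 p) = i.symm ⟨x, hx⟩ := Subtype.ext hp
  have h7 : Substructure.inclusion h1 p = ⟨x, hx⟩ := i.symm.injective h6
  have h8 : (p : M) = x := congrArg Subtype.val h7
  rw [← h8]
  exact p.2

/-- Geometric members are geometric over their least strong substructure. -/
theorem isLocGeometric_of_isGeometric {K : AEC L} {l : Cardinal.{u}} (hK : K.IsLS l) {M : Type u}
    [L.Structure M] (hM : K.mem M) (h : Gw.IsGeometric K M) : IsLocGeometric K l M := by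
  obtain ⟨X, Mt, e, he⟩ := h
  let P : L.Substructure M := (e (Gw.flat Mt ∅)).1
  have hP : K.le P := (e (Gw.flat Mt ∅)).2
  have hleast : ∀ S : L.Substructure M, K.le S → P ≤ S := by
    intro S hS
    have h1 : Gw.flat Mt ∅ ≤ e.symm ⟨S, hS⟩ := by
      change Mt.closure ∅ ⊆ (e.symm ⟨S, hS⟩).1
      rw [← (e.symm ⟨S, hS⟩).2.closure]
      exact Mt.closure_subset_closure (Set.empty_subset _)
    have h2 := e.monotone h1
    rw [e.apply_symm_apply] at h2
    exact h2
  have hmap : ∀ σ : M ≃[L] M, P.map σ.toHom = P := by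
    intro σ
    have h1 : P ≤ P.map σ.toHom := hleast _ (K.le_iso σ P hP)
    have h2 : P ≤ P.map σ.symm.toHom := hleast _ (K.le_iso σ.symm P hP)
    apply le_antisymm _ h1
    rintro x ⟨y, hy, rfl⟩
    obtain ⟨z, hz, hz2⟩ := h2 hy
    change σ.symm z = y at hz2
    change σ y ∈ P
    rw [← hz2]
    have h3 : σ (σ.symm z) = z := σ.apply_symm_apply z
    rw [h3]
    exact hz
  refine ⟨P, hP, ?_, ?_, X, Mt, ?_⟩
  · obtain ⟨S, hS1, -, hS3⟩ := hK.2.2 M hM ∅
    have h1 : #S ≤ l := by
      refine hS3.trans ?_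
      rw [mk_eq_zero, zero_add]
    exact (mk_le_mk_of_subset (hleast S hS1)).trans h1
  · rintro P' hP' ⟨i⟩
    have h1 := least_eq hP hleast hP' i
    subst h1
    exact ⟨Language.Equiv.refl L M, hmap _⟩
  · refine ⟨e.trans
      { toFun := fun S => ⟨S.1, S.2, hleast S.1 S.2⟩
        invFun := fun S => ⟨S.1, S.2.1⟩
        left_inv := fun _ => rfl
        right_inv := fun _ => rfl
        map_rel_iff' := Iff.rfl }, fun B B' hB hB' => ?_⟩
    obtain ⟨σ, h1, h2, h3⟩ := he B B' hB hB'
    exact ⟨σ, hmap σ, h1, h2, h3⟩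

end Vale.Agent.P307.H227
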