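import Vale.Agent.P307.H227.NqTop
import Vale.Agent.P307.H227.NqGeo
import Vale.Agent.P307.H227.NwDefs
import Vale.Agent.P307.Pw.Code

/-!
Categoricity transfer for classes with a member which is geometric over a small strong
substructure, with plain conjugacy of the bases.
-/

universe u

open FirstOrder Cardinal Function Language

namespace Vale.Agent.P307.H227

variable {L : Language.{u, u}}

/-- The geometric condition with plain conjugacy. -/
def Geo1 (K : AEC L) (M : Type u) [L.Structure M] : Prop :=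
  ∃ (X : Type u) (Mt : Matroid X)
    (e : {F : Set X // Mt.IsFlat F} ≃o {S : L.Substructure M // K.le S}),
    ∀ B B' : Set X, Mt.IsBase B → Mt.IsBase B' → ∃ σ : M ≃[L] M,
      (∀ b ∈ B, ∃ b' ∈ B', (e (Gw.flat Mt {b})).1.map σ.toHom = (e (Gw.flat Mt {b'})).1) ∧
      ∀ b' ∈ B', ∃ b ∈ B, (e (Gw.flat Mt {b})).1.map σ.toHom = (e (Gw.flat Mt {b'})).1

theorem geo1_of_isGeometric {K : AEC L} {M : Type u} [L.Structure M]
    (h : Gw.IsGeometric K M) : Geo1 K M := by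
  obtain ⟨X, Mt, e, he⟩ := h
  refine ⟨X, Mt, e, fun B B' hB hB' => ?_⟩
  obtain ⟨σ, -, h2, h3⟩ := he B B' hB hB'
  exact ⟨σ, h2, h3⟩

theorem isLocGeo_of_isLocGeometric {K : AEC L} {l : Cardinal.{u}} {M : Type u} [L.Structure M]
    (h : IsLocGeometric K l M) : IsLocGeo K l M := by
  obtain ⟨P, h1, h2, h3, X, Mt, e, he⟩ := h
  refine ⟨P, h1, h2, h3, X, Mt, e, fun B B' hB hB' => ?_⟩
  obtain ⟨σ, h4, -, h5, h6⟩ := he B B' hB hB'
  exact ⟨σ, h4, h5, h6⟩

/-- A geometric member with plain conjugacy is geometric over its least strong substructure. -/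
theorem isLocGeo_of_geo1 {K : AEC L} {l : Cardinal.{u}} (hK : K.IsLS l) {M : Type u}
    [L.Structure M] (hM : K.mem M) (h : Geo1 K M) : IsLocGeo K l M := by
  obtain ⟨X, Mt, e, he⟩ := h
  let P : L.Substructure M := (e (Gw.flat Mt ∅)).1
  have hP : K.le P := (e (Gw.flat Mt ∅)).2
  have hleast : ∀ S : L.Substructure M, K.le S → P ≤ S := by
    intro S hS
    have h1 : Gw.flat Mt ∅ ≤ e.symm ⟨S, hS⟩ := by
      change Mt.closure ∅ ⊆ (e.symm ⟨S, hS⟩).1
      rw [← (e.symm ⟨S, hS⟩).2.closure]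
      exact Mt.closure_subset_closure (Set.empty_subset _)
    have h2 := e.monotone h1
    rw [e.apply_symm_apply] at h2
    exact h2
  have hmap : ∀ σ : M ≃[L] M, P.map σ.toHom = P := by
    intro σ
    have h1 : P ≤ P.map σ.toHom := hleast _ (K.le_iso σ P hP)
    have h2 : P ≤ P.map σ.symm.toHom := hleast _ (K.le_iso σ.symm P hP)
    apply le_antisymm _ h1
    rintro x ⟨y, hy, rfl⟩
    obtain ⟨z, hz, hz2⟩ := h2 hy
    change σ.symm z = y at hz2
    change σ y ∈ P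
    rw [← hz2]
    have h3 : σ (σ.symm z) = z := σ.apply_symm_apply z
    rw [h3]
    exact hz
  refine ⟨P, hP, ?_, ?_, X, Mt, ?_⟩
  · obtain ⟨S, hS1, -, hS3⟩ := hK.2.2 M hM ∅
    have h1 : #S ≤ l := by
      refine hS3.trans ?_
      rw [mk_eq_zero, zero_add]
    exact (mk_le_mk_of_subset (hleast S hS1)).trans h1
  · rintro P' hP' ⟨i⟩
    have h1 := least_eq hP hleast hP' i
    subst h1
    exact ⟨Language.Equiv.refl L M, hmap _⟩
  · refine ⟨e.trans
      { toFun := fun S => ⟨S.1, S.2, hleast S.1 S.2⟩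
        invFun := fun S => ⟨S.1, S.2.1⟩
        left_inv := fun _ => rfl
        right_inv := fun _ => rfl
        map_rel_iff' := Iff.rfl }, fun B B' hB hB' => ?_⟩
    obtain ⟨σ, h1, h2⟩ := he B B' hB hB'
    exact ⟨σ, hmap σ, h1, h2⟩

section

variable {K : AEC L} {M : Type u} [L.Structure M]

/-- A member which is geometric over a small strong substructure, with plain conjugacy, is a
geometric member, with plain conjugacy, of the class with a name. -/
theorem geo1_ex (P : L.Substructure M) (hP : K.le P) {X : Type u} (Mt : Matroid X)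
    (e : {F : Set X // Mt.IsFlat F} ≃o {S : L.Substructure M // K.le S ∧ P ≤ S})
    (he : ∀ B B' : Set X, Mt.IsBase B → Mt.IsBase B' → ∃ σ : M ≃[L] M, P.map σ.toHom = P ∧
        (∀ b ∈ B, ∃ b' ∈ B', (e (Gw.flat Mt {b})).1.map σ.toHom = (e (Gw.flat Mt {b'})).1) ∧
        ∀ b' ∈ B', ∃ b ∈ B, (e (Gw.flat Mt {b})).1.map σ.toHom = (e (Gw.flat Mt {b'})).1) :
    Geo1 (nqAEC K P) (Ex L (P : Set M)) := by
  have hmem : QMem K P (Ex L (P : Set M)) :=
    qMem_ex (f := P.subtype) (AEC.emb_subtype.2 hP) Subtype.range_coe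
  let i : {S : L.Substructure M // K.le S ∧ P ≤ S} ≃o
      {S : (nq L).Substructure (Ex L (P : Set M)) // (nqAEC K P).le S} :=
    { toFun := fun S => ⟨exSub S.1, le_exSub.2 S.2.1, fun x hx => S.2.2 hx, hmem⟩
      invFun := fun S => ⟨unSub S.1, le_exSub.1 S.2.1, fun x hx => S.2.2.1 hx⟩
      left_inv := fun _ => rfl
      right_inv := fun _ => rfl
      map_rel_iff' := Iff.rfl }
  refine ⟨X, Mt, e.trans i, fun B B' hB hB' => ?_⟩
  obtain ⟨σ, hσ, h2, h3⟩ := he B B' hB hB'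
  have hσ' : σ '' (P : Set M) = P := by
    have h4 : ((P.map σ.toHom : L.Substructure M) : Set M) = P := by rw [hσ]
    exact h4
  have key : ∀ b b' : X,
      (e (Gw.flat Mt {b})).1.map σ.toHom = (e (Gw.flat Mt {b'})).1 →
      ((e.trans i) (Gw.flat Mt {b})).1.map (exEquiv σ hσ').toHom =
        ((e.trans i) (Gw.flat Mt {b'})).1 := by
    intro b b' h
    refine (exSub_map σ hσ' (e (Gw.flat Mt {b})).1).trans ?_
    exact congrArg (exSub (Q := (P : Set M))) h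
  refine ⟨exEquiv σ hσ', fun b hb => ?_, fun b' hb' => ?_⟩
  · obtain ⟨b', hb', h4⟩ := h2 b hb
    exact ⟨b', hb', key b b' h4⟩
  · obtain ⟨b, hb, h4⟩ := h3 b' hb'
    exact ⟨b, hb, key b b' h4⟩

end

/-- Q1 for the classes whose member of size `κ` is geometric with plain conjugacy, from the
reduction to large geometric members. -/
theorem q1_geo1_of (l : Cardinal.{u})
    (hG : ∃ μ : Cardinal.{u}, ∀ (L : Language.{u, u}) (K : AEC L), K.LS ≤ l →
      ∀ κ : Cardinal.{u}, μ ≤ κ → K.CategoricalIn κ →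
      (∃ (M : Type u) (_ : L.Structure M), K.mem M ∧ #M = κ ∧ Geo1 K M) →
        (∀ a : Cardinal.{u}, ∃ κ', a ≤ κ' ∧ K.CategoricalIn κ') ∧
        ∀ a : Cardinal.{u}, ∃ (M : Type u) (_ : L.Structure M), K.mem M ∧ a ≤ #M ∧
          Gw.IsGeometric K M) :
    ∃ μ : Cardinal.{u}, l ≤ μ ∧ ∀ (L : Language.{u, u}) (K : AEC L), K.LS ≤ l →
      ∀ κ : Cardinal.{u}, μ ≤ κ → K.CategoricalIn κ →
      (∃ (M : Type u) (_ : L.Structure M), K.mem M ∧ #M = κ ∧ Geo1 K M) →
        ∀ κ' : Cardinal.{u}, μ ≤ κ' → K.CategoricalIn κ' ∧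
          ∀ (M : Type u) [L.Structure M], K.mem M → #M = κ' → Gw.IsGeometric K M := by
  obtain ⟨μ₀, hμ₀, hμ⟩ := H67.exists_threshold l
  obtain ⟨μ₁, hμ₁⟩ := hG
  refine ⟨max μ₀ μ₁, hμ₀.trans (le_max_left _ _), ?_⟩
  intro L K hK κ hκ hcat hM κ' hκ'
  obtain ⟨hc, hb⟩ := hμ₁ L K hK κ ((le_max_right _ _).trans hκ) hcat hM
  obtain ⟨F⟩ := Gw.exists_homFamily_of_large K hc hb
  have h4 := hμ L K hK (H4.eventually_of_homFamily F hc) κ' ((le_max_left _ _).trans hκ')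
  refine ⟨h4, fun M _ hM hMκ => Gw.geometric_of_large ?_ h4 hb M hM hMκ⟩
  exact (hK.trans hμ₀).trans ((le_max_left _ _).trans hκ')

/-- Q1 for the classes whose member of size `κ` is geometric over a small strong
substructure, with plain conjugacy, from the case of geometric members. -/
theorem q1_locGeo_of (l : Cardinal.{u})
    (hG : ∃ μ : Cardinal.{u}, l ≤ μ ∧ ∀ (L : Language.{u, u}) (K : AEC L), K.LS ≤ l →
      ∀ κ : Cardinal.{u}, μ ≤ κ → K.CategoricalIn κ →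
      (∃ (M : Type u) (_ : L.Structure M), K.mem M ∧ #M = κ ∧ Geo1 K M) →
        ∀ κ' : Cardinal.{u}, μ ≤ κ' → K.CategoricalIn κ' ∧
          ∀ (M : Type u) [L.Structure M], K.mem M → #M = κ' → Gw.IsGeometric K M) :
    ∃ μ : Cardinal.{u}, l ≤ μ ∧ ∀ (L : Language.{u, u}) (K : AEC L), K.LS ≤ l →
      ∀ κ : Cardinal.{u}, μ ≤ κ → K.CategoricalIn κ →
      (∃ (M : Type u) (_ : L.Structure M), K.mem M ∧ #M = κ ∧ IsLocGeo K l M) →
        ∀ κ' : Cardinal.{u}, μ ≤ κ' → K.CategoricalIn κ' ∧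
          ∀ (N : Type u) [L.Structure N], K.mem N → #N = κ' → IsLocGeometric K l N := by
  obtain ⟨μ₀, hμ₀, hμ⟩ := H67.exists_threshold l
  obtain ⟨μ₁, hμ₁, hC⟩ := hG
  refine ⟨max μ₀ μ₁, hμ₀.trans (le_max_left _ _), ?_⟩
  rintro L K hK κ hκ hcat ⟨M, _, hM, hMκ, P, hP, hPl, hhom, X, Mt, e, he⟩
  have hLS : K.IsLS l := AEC.isLS_of_LS_le hK
  have hq : (nqAEC K P).LS ≤ l := csInf_le' (nqAEC_isLS hLS hPl)
  have hlκ : l ≤ κ := hμ₀.trans ((le_max_left _ _).trans hκ)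
  have hμκ : μ₁ ≤ κ := (le_max_right _ _).trans hκ
  have hqc : (nqAEC K P).CategoricalIn κ := nq_categorical hcat hMκ P hP hhom
  have h1 := hC (nq L) (nqAEC K P) hq κ hμκ hqc
    ⟨Ex L (P : Set M), inferInstance,
      qMem_ex (f := P.subtype) (AEC.emb_subtype.2 hP) Subtype.range_coe,
      hMκ, geo1_ex P hP Mt e he⟩
  have h2 : ∀ κ', κ ≤ κ' → K.CategoricalIn κ' := fun κ' h =>
    categorical_of_nq hLS hlκ h hcat hMκ P hP (h1 κ' (hμκ.trans h)).1
  have h3 : ∀ κ', max μ₀ μ₁ ≤ κ' → K.CategoricalIn κ' := fun κ' h =>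
    hμ L K hK ⟨κ, h2⟩ κ' ((le_max_left _ _).trans h)
  intro κ' hκ'
  refine ⟨h3 κ' hκ', fun N _ hN hNκ => ?_⟩
  have hlκ' : l ≤ κ' := hμ₀.trans ((le_max_left _ _).trans hκ')
  have key : ∃ f : P ↪[L] N, K.Emb f := by
    rcases le_total κ κ' with h | h
    · obtain ⟨A, hA⟩ := le_mk_iff_exists_set.1 (h.trans hNκ.ge)
      obtain ⟨S, hS1, hS2, hS3⟩ := hLS.2.2 N hN A
      have hSκ : #S = κ := by
        apply le_antisymm
        · exact hS3.trans (add_le_of_le (hLS.1.trans hlκ) hA.le hlκ)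
        · rw [← hA]
          exact mk_le_mk_of_subset hS2
      obtain ⟨i⟩ := hcat.2 M S hM (K.mem_of_le _ hS1).1 hMκ hSκ
      exact ⟨S.subtype.comp (i.toEmbedding.comp P.subtype),
        AEC.Emb.comp (AEC.emb_subtype.2 hS1)
          (AEC.Emb.comp (AEC.Emb.of_equiv i hM) (AEC.emb_subtype.2 hP))⟩
    · obtain ⟨A, hA⟩ := le_mk_iff_exists_set.1 (h.trans hMκ.ge)
      obtain ⟨S, hS1, hS2, hS3⟩ := hLS.2.2 M hM (A ∪ P)
      have hSκ : #S = κ' := by
        apply le_antisymm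
        · refine hS3.trans (add_le_of_le (hLS.1.trans hlκ') ?_ hlκ')
          refine (mk_union_le _ _).trans (add_le_of_le (hLS.1.trans hlκ') hA.le ?_)
          exact hPl.trans hlκ'
        · rw [← hA]
          exact mk_le_mk_of_subset (Set.subset_union_left.trans hS2)
      have hPS : P ≤ S := fun x hx => hS2 (Or.inr hx)
      obtain ⟨i⟩ := (h3 κ' hκ').2 S N (K.mem_of_le _ hS1).1 hN hSκ hNκ
      refine ⟨i.toEmbedding.comp (Substructure.inclusion hPS),
        AEC.Emb.comp (AEC.Emb.of_equiv i (K.mem_of_le _ hS1).1) ?_⟩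
      exact (AEC.sle_of_le_le hPS hP hS1).2
  obtain ⟨f, hf⟩ := key
  have h4 := h1 κ' ((le_max_right _ _).trans hκ')
  refine isLocGeometric_of_nq hPl hf (by rw [hNκ]; exact h4.1) ?_
  exact h4.2 (Ex L (Set.range f)) (qMem_ex hf rfl) hNκ

/-- Q1 for the classes whose member of size `κ` is geometric over a small strong
substructure, with plain conjugacy, from the case of geometric members. -/
theorem q1_locGeo_of' (l : Cardinal.{u})
    (hG : ∃ μ : Cardinal.{u}, l ≤ μ ∧ ∀ (L : Language.{u, u}) (K : AEC L), K.LS ≤ l →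
      ∀ κ : Cardinal.{u}, μ ≤ κ → K.CategoricalIn κ →
      (∃ (M : Type u) (_ : L.Structure M), K.mem M ∧ #M = κ ∧ Geo1 K M) →
        ∀ κ' : Cardinal.{u}, μ ≤ κ' → K.CategoricalIn κ') :
    ∃ μ : Cardinal.{u}, l ≤ μ ∧ ∀ (L : Language.{u, u}) (K : AEC L), K.LS ≤ l →
      ∀ κ : Cardinal.{u}, μ ≤ κ → K.CategoricalIn κ →
      (∃ (M : Type u) (_ : L.Structure M), K.mem M ∧ #M = κ ∧ IsLocGeo K l M) →
        ∀ κ' : Cardinal.{u}, μ ≤ κ' → K.CategoricalIn κ' := by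
  obtain ⟨μ₀, hμ₀, hμ⟩ := H67.exists_threshold l
  obtain ⟨μ₁, hμ₁, hC⟩ := hG
  refine ⟨max μ₀ μ₁, hμ₀.trans (le_max_left _ _), ?_⟩
  rintro L K hK κ hκ hcat ⟨M, _, hM, hMκ, P, hP, hPl, hhom, X, Mt, e, he⟩
  have hLS : K.IsLS l := AEC.isLS_of_LS_le hK
  have hq : (nqAEC K P).LS ≤ l := csInf_le' (nqAEC_isLS hLS hPl)
  have hlκ : l ≤ κ := hμ₀.trans ((le_max_left _ _).trans hκ)
  have hμκ : μ₁ ≤ κ := (le_max_right _ _).trans hκ
  have hqc : (nqAEC K P).CategoricalIn κ := nq_categorical hcat hMκ P hP hhom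
  have h1 := hC (nq L) (nqAEC K P) hq κ hμκ hqc
    ⟨Ex L (P : Set M), inferInstance,
      qMem_ex (f := P.subtype) (AEC.emb_subtype.2 hP) Subtype.range_coe,
      hMκ, geo1_ex P hP Mt e he⟩
  have h2 : ∀ κ', κ ≤ κ' → K.CategoricalIn κ' := fun κ' h =>
    categorical_of_nq hLS hlκ h hcat hMκ P hP (h1 κ' (hμκ.trans h))
  exact fun κ' h => hμ L K hK ⟨κ, h2⟩ κ' ((le_max_left _ _).trans h)

/-- Q1 for the classes whose member of size `κ` is geometric over a small strong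
substructure, with plain conjugacy. -/
theorem q1_locGeo (l : Cardinal.{u}) :
    ∃ μ : Cardinal.{u}, l ≤ μ ∧ ∀ (L : Language.{u, u}) (K : AEC L), K.LS ≤ l →
      ∀ κ : Cardinal.{u}, μ ≤ κ → K.CategoricalIn κ →
      (∃ (M : Type u) (_ : L.Structure M), K.mem M ∧ #M = κ ∧ IsLocGeo K l M) →
        ∀ κ' : Cardinal.{u}, μ ≤ κ' → K.CategoricalIn κ' :=
  q1_locGeo_of' l (Pw.q1_geo1 l)

end Vale.Agent.P307.H227
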