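import Vale.Agent.P307.H227.FrLoc
import Vale.Agent.P307.H227.FrGeo
import Vale.Agent.P307.H227.NwTop

/-!
The local form of the existence of bases contains the other forms.
-/

universe u

open FirstOrder Cardinal Set Function Language

namespace Vale.Agent.P307.H227

open H479.E (Lst FreeIn BasisOf HasBases IsFree)

variable {L : Language.{u, u}}

/-- Bases in the class with a name for `P` are bases over `P`. -/
theorem hasBases_of_ex {K : AEC L} {M : Type u} [L.Structure M] {P : L.Substructure M}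
    (hP : K.le P) (h : IsFree (nqAEC K P) (Ex L (P : Set M))) :
    HasBases (fun S : L.Substructure M => K.le S ∧ P ≤ S) fun σ => P.map σ.toHom = P := by
  obtain ⟨⟨A, hA⟩, h2, h3⟩ := h
  refine ⟨⟨exSub ⁻¹' A, (basisOf_ex hP _ _).1 hA⟩, fun S T hS hT hST A hA => ?_,
    fun A B hA hB => ?_⟩
  · obtain ⟨B, hB1, hB2⟩ := h2 (exSub S) (exSub T) ((qLe_ex hP _).2 hS) ((qLe_ex hP _).2 hT) hST
      (unSub ⁻¹' A) ((freeIn_ex hP (exSub S) (unSub ⁻¹' A)).2 hA)
    exact ⟨exSub ⁻¹' B, fun T hT => hB1 hT, (basisOf_ex hP _ _).1 hB2⟩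
  · obtain ⟨σ, -, h4⟩ := h3 (unSub ⁻¹' A) (unSub ⁻¹' B)
      ((basisOf_ex hP ⊤ (unSub ⁻¹' A)).2 hA) ((basisOf_ex hP ⊤ (unSub ⁻¹' B)).2 hB)
    let τ : M ≃[L] M := (rdEx.comp (rdEquiv σ)).comp rdEx.symm
    refine ⟨τ, ?_, fun T hT => ?_⟩
    · ext x
      have hσ := rdEquiv_image σ
      have h5 : x ∈ P ↔ x ∈ Qp L (Ex L (P : Set M)) := Iff.rfl
      rw [h5, ← hσ]
      constructor
      · rintro ⟨y, hy, rfl⟩
        exact ⟨y, hy, rfl⟩
      · rintro ⟨y, hy, rfl⟩
        exact ⟨y, hy, rfl⟩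
    · have h5 := h4 (exSub T) hT
      have h6 : unSub ((exSub (Q := (P : Set M)) T).map σ.toHom) = T.map τ.toHom := by
        ext x
        constructor
        · rintro ⟨y, hy, rfl⟩
          exact ⟨y, hy, rfl⟩
        · rintro ⟨y, hy, rfl⟩
          exact ⟨y, hy, rfl⟩
      rw [← h6]
      exact h5

/-- Members which are geometric over a small strong substructure have bases over it. -/
theorem isLocFree_of_isLocGeo {K : AEC L} {l : Cardinal.{u}} {M : Type u} [L.Structure M]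
    (h : IsLocGeo K l M) : IsLocFree K l M := by
  obtain ⟨P, hP, hPl, hhom, X, Mt, e, he⟩ := h
  have h1 : Pw.IsGeo1 (nqAEC K P) (Ex L (P : Set M)) := geo1_ex P hP Mt e he
  have h2 : (nqAEC K P).mem (Ex L (P : Set M)) :=
    qMem_ex (f := P.subtype) (AEC.emb_subtype.2 hP) Subtype.range_coe
  exact ⟨P, hP, hPl, hhom, hasBases_of_ex hP (isFree_of_isGeo1 h2 h1)⟩

/-- Members which have bases have bases over their least strong substructure. -/
theorem isLocFree_of_isFree {K : AEC L} {l : Cardinal.{u}} (hK : K.IsLS l) {M : Type u}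
    [L.Structure M] (hM : K.mem M) (h : IsFree K M) : IsLocFree K l M := by
  obtain ⟨⟨A, hA⟩, h2, h3⟩ := h
  obtain ⟨P, hP, -⟩ := hA.1.2.2 ∅ (empty_subset _)
  have hleast : ∀ S : L.Substructure M, K.le S → P ≤ S := fun S hS =>
    hP.2.2.2 S hS le_top fun T hT => absurd hT (notMem_empty T)
  have hmap : ∀ σ : M ≃[L] M, P.map σ.toHom = P := by
    intro σ
    have h1 : P ≤ P.map σ.toHom := hleast _ (K.le_iso σ P hP.1)
    have h2 : P ≤ P.map σ.symm.toHom := hleast _ (K.le_iso σ.symm P hP.1)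
    apply le_antisymm _ h1
    rintro x ⟨y, hy, rfl⟩
    obtain ⟨z, hz, hz2⟩ := h2 hy
    change σ.symm z = y at hz2
    change σ y ∈ P
    rw [← hz2]
    have h3 : σ (σ.symm z) = z := σ.apply_symm_apply z
    rw [h3]
    exact hz
  have hstr : (fun S : L.Substructure M => K.le S ∧ P ≤ S) = fun S => K.le S := by
    funext S
    exact propext ⟨fun h => h.1, fun h => ⟨h, hleast S h⟩⟩
  refine ⟨P, hP.1, ?_, ?_, ?_⟩
  · obtain ⟨S, hS1, -, hS3⟩ := hK.2.2 M hM ∅
    have h1 : #S ≤ l := by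
      refine hS3.trans ?_
      rw [mk_eq_zero, zero_add]
    exact (mk_le_mk_of_subset (hleast S hS1)).trans h1
  · rintro P' hP' ⟨i⟩
    have h1 := least_eq hP.1 hleast hP' i
    subst h1
    exact ⟨Language.Equiv.refl L M, hmap _⟩
  · rw [hstr]
    refine ⟨⟨A, hA⟩, h2, fun A B hA hB => ?_⟩
    obtain ⟨σ, -, hσ⟩ := h3 A B hA hB
    exact ⟨σ, hmap σ, hσ⟩

end Vale.Agent.P307.H227
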