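import Vale.Agent.P307.H4.EDefsL
import Vale.Agent.P307.H227.FrTop

/-!
Categoricity transfer for classes with a member whose large strong substructures have bases over a
small strong substructure, from the case of bases.
-/

universe u

open FirstOrder Cardinal Set Function Language

namespace Vale.Agent.P307.H227

open H479.E (Lst FreeIn BasisOf HasBases IsFree)
open H4.E (HasBasesL IsFreeL)

variable {L : Language.{u, u}}

/-- `M` has bases over a strong substructure `P` with at most `l` elements: every strong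
substructure isomorphic to `P` is the image of `P` under an automorphism of `M`, and the strong
substructures of `M` which contain `P` have bases, conjugate under the automorphisms of `M` which
map `P` onto `P`. -/
def IsLocFreeL (K : AEC L) (l : Cardinal.{u}) (M : Type u) [L.Structure M] : Prop :=
  ∃ P : L.Substructure M, K.le P ∧ #P ≤ l ∧
    (∀ P' : L.Substructure M, K.le P' → Nonempty (P ≃[L] P') →
      ∃ σ : M ≃[L] M, P.map σ.toHom = P') ∧
    HasBasesL l (fun S : L.Substructure M => K.le S ∧ P ≤ S) fun σ => P.map σ.toHom = P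

theorem HasBases.toL {M : Type u} [L.Structure M] {str : L.Substructure M → Prop}
    {aut : (M ≃[L] M) → Prop} {l : Cardinal.{u}} (h : HasBases str aut) :
    HasBasesL l str aut :=
  ⟨h.1, fun S T hS hT _ hST A hA => h.2.1 S T hS hT hST A hA, h.2.2⟩

theorem isLocFreeL_of_isLocFree {K : AEC L} {l : Cardinal.{u}} {M : Type u} [L.Structure M]
    (h : IsLocFree K l M) : IsLocFreeL K l M := by
  obtain ⟨P, h1, h2, h3, h4⟩ := h
  exact ⟨P, h1, h2, h3, HasBases.toL h4⟩

/-- A member with bases over `P` has bases in the class with a name for `P`. -/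
theorem isFreeL_ex {K : AEC L} {l : Cardinal.{u}} {M : Type u} [L.Structure M]
    {P : L.Substructure M} (hP : K.le P)
    (h : HasBasesL l (fun S : L.Substructure M => K.le S ∧ P ≤ S)
      fun σ => P.map σ.toHom = P) : IsFreeL (nqAEC K P) l (Ex L (P : Set M)) := by
  obtain ⟨⟨A, hA⟩, h2, h3⟩ := h
  refine ⟨⟨unSub ⁻¹' A, (basisOf_ex hP _ _).2 hA⟩, fun S T hS hT hl hST A hA => ?_,
    fun A B hA hB => ?_⟩
  · obtain ⟨B, hB1, hB2⟩ := h2 (unSub S) (unSub T) ((qLe_ex hP S).1 hS) ((qLe_ex hP T).1 hT) hl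
      hST (exSub ⁻¹' A) ((freeIn_ex hP S A).1 hA)
    exact ⟨unSub ⁻¹' B, fun T hT => hB1 hT, (basisOf_ex hP _ _).2 hB2⟩
  · obtain ⟨σ, hσ, h4⟩ := h3 (exSub ⁻¹' A) (exSub ⁻¹' B) ((basisOf_ex hP _ _).1 hA)
      ((basisOf_ex hP _ _).1 hB)
    have hσ' : σ '' (P : Set M) = P := by
      have h5 : ((P.map σ.toHom : L.Substructure M) : Set M) = P := by rw [hσ]
      exact h5
    refine ⟨exEquiv σ hσ', trivial, fun T hT => ?_⟩
    have h6 := h4 (unSub T) hT
    have h7 := exSub_map σ hσ' (unSub T)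
    have h8 : exSub (Q := (P : Set M)) ((unSub T).map σ.toHom) ∈ B := h6
    rw [← h7] at h8
    exact h8

/-- Q1 for the classes whose member of size `κ` has bases over a small strong substructure, from
the case of bases. -/
theorem q1_locFreeL_of (l : Cardinal.{u})
    (hG : ∃ μ : Cardinal.{u}, l ≤ μ ∧ ∀ (L : Language.{u, u}) (K : AEC L), K.LS ≤ l →
      ∀ κ : Cardinal.{u}, μ ≤ κ → K.CategoricalIn κ →
      (∃ (M : Type u) (_ : L.Structure M), K.mem M ∧ #M = κ ∧ IsFreeL K l M) →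
        ∀ κ' : Cardinal.{u}, μ ≤ κ' → K.CategoricalIn κ') :
    ∃ μ : Cardinal.{u}, l ≤ μ ∧ ∀ (L : Language.{u, u}) (K : AEC L), K.LS ≤ l →
      ∀ κ : Cardinal.{u}, μ ≤ κ → K.CategoricalIn κ →
      (∃ (M : Type u) (_ : L.Structure M), K.mem M ∧ #M = κ ∧ IsLocFreeL K l M) →
        ∀ κ' : Cardinal.{u}, μ ≤ κ' → K.CategoricalIn κ' := by
  obtain ⟨μ₀, hμ₀, hμ⟩ := H67.exists_threshold l
  obtain ⟨μ₁, hμ₁, hC⟩ := hG
  refine ⟨max μ₀ μ₁, hμ₀.trans (le_max_left _ _), ?_⟩
  rintro L K hK κ hκ hcat ⟨M, _, hM, hMκ, P, hP, hPl, hhom, hB⟩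
  have hLS : K.IsLS l := AEC.isLS_of_LS_le hK
  have hq : (nqAEC K P).LS ≤ l := csInf_le' (nqAEC_isLS hLS hPl)
  have hlκ : l ≤ κ := hμ₀.trans ((le_max_left _ _).trans hκ)
  have hμκ : μ₁ ≤ κ := (le_max_right _ _).trans hκ
  have hqc : (nqAEC K P).CategoricalIn κ := nq_categorical hcat hMκ P hP hhom
  have h1 := hC (nq L) (nqAEC K P) hq κ hμκ hqc
    ⟨Ex L (P : Set M), inferInstance,
      qMem_ex (f := P.subtype) (AEC.emb_subtype.2 hP) Subtype.range_coe,
      hMκ, isFreeL_ex hP hB⟩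
  have h2 : ∀ κ', κ ≤ κ' → K.CategoricalIn κ' := fun κ' h =>
    categorical_of_nq hLS hlκ h hcat hMκ P hP (h1 κ' (hμκ.trans h))
  exact fun κ' h => hμ L K hK ⟨κ, h2⟩ κ' ((le_max_left _ _).trans h)

end Vale.Agent.P307.H227
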