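import Vale.Agent.P307.H227.FrLocL
import Vale.Agent.P307.H227.Lg
import Vale.Agent.P307.Ew.CodeL
import Vale.Agent.P307.H4.EStdL
import Vale.Agent.P307.H479.E.EMFL
import Vale.Agent.P307.H479.E.FamL

/-!
Categoricity transfer for classes with a member which has bases over a small strong substructure.
-/

universe u

open FirstOrder Cardinal Set Function Language

namespace Vale.Agent.P307.H227

open H479.E (Lst FreeIn BasisOf HasBases IsFree)
open H4.E (HasBasesL IsFreeL)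

theorem eventually_of_freeL {l : Cardinal.{u}} {L : Language.{u, u}} (K : AEC L) (hK : K.IsLS l)
    (h : ∀ χ : Cardinal.{u}, ∃ κ : Cardinal.{u}, χ ≤ κ ∧ K.CategoricalIn κ ∧
      ∃ (M : Type u) (_ : L.Structure M), K.mem M ∧ #M = κ ∧ IsFreeL K l M) :
    ∃ χ : Cardinal.{u}, ∀ κ, χ ≤ κ → K.CategoricalIn κ := by
  obtain ⟨P, hP⟩ : ∃ P : H479.E.LocFam K, ∀ (I : Type u) [LinearOrder I], l ≤ #(P.obj I) := by
    obtain ⟨κ, h1, -, M, _, h2, h3, h4⟩ := h (max (hanf (2 ^ l)) (Order.succ l))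
    obtain ⟨⟨A, hA⟩, -, -⟩ := h4
    refine H479.E.exists_locFam_large hK h2 hA ?_ ?_
    · rw [h3]
      exact (le_max_left _ _).trans h1
    · rw [h3]
      exact Order.succ_le_iff.1 ((le_max_right _ _).trans h1)
  obtain ⟨F, hF⟩ := H479.E.exists_fam_of_extL K l (fun χ => by
    obtain ⟨κ, h1, h2, M, i, h3, h4, h5⟩ := h χ
    exact ⟨κ, h1, h2, M, i, h3, h4, h5.2.1⟩) P hP
  obtain ⟨l₀, hl₀⟩ := F.exists_ok
  have hok : F.Ok (max l₀ l) :=
    ⟨hl₀.ls.mono (le_max_left _ _), fun n => (hl₀.bd n).trans (le_max_left _ _)⟩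
  refine Pw.eventually_of_stdAtL F hok fun χ => ?_
  obtain ⟨κ, h1, h2, h3⟩ := h (max χ (Order.succ (max (max l₀ l) ℵ₀)))
  have h4 := H4.E.stdAtL_conjAtL hok (le_max_right l₀ l)
    (Order.succ_le_iff.1 ((le_max_right _ _).trans h1)) hF h2 h3
  exact ⟨κ, (le_max_left _ _).trans h1, h2, h4.1, h4.2⟩

/-- Q1 for the classes whose member of size `κ` has bases over a small strong substructure. -/
theorem q1_locFreeL (l : Cardinal.{u}) :
    ∃ μ : Cardinal.{u}, l ≤ μ ∧ ∀ (L : Language.{u, u}) (K : AEC L), K.LS ≤ l →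
      ∀ κ : Cardinal.{u}, μ ≤ κ → K.CategoricalIn κ →
      (∃ (M : Type u) (_ : L.Structure M), K.mem M ∧ #M = κ ∧ IsLocFreeL K l M) →
        ∀ κ' : Cardinal.{u}, μ ≤ κ' → K.CategoricalIn κ' :=
  q1_locFreeL_of l (Ew.q1_freeL_of (fun K hK h => eventually_of_freeL K hK h) l)

end Vale.Agent.P307.H227
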