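import Vale.Agent.P307.H227.OrdAut
import Vale.Agent.P307.H67.Few
import Vale.Agent.P307.H67.Cuts
import Mathlib.Tactic.Order
import Mathlib.SetTheory.Cardinal.Pigeonhole

/-!
Categoricity gives moves: one point of a linear order can be moved over any interval.
-/

universe u

open FirstOrder Cardinal Function Language

namespace Vale.Agent.P307.H227

variable {L : Language.{u, u}}

/-- many points, few colours: four points of one colour -/
theorem exists_four {m : Cardinal.{u}} (hm : ℵ₀ ≤ m) (Q : Type u) (hQ : #Q ≤ m) {J : Type u}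
    [LinearOrder J] (Y : Set J) (hY : m < #Y) (c : J → Q) :
    ∃ y : Fin 4 → J, (∀ i, y i ∈ Y) ∧ StrictMono y ∧ ∀ i j, c (y i) = c (y j) := by
  have : Infinite Y := infinite_iff.2 (hm.trans hY.le)
  obtain ⟨a, ha⟩ := exists_infinite_fiber (fun y : Y => c y.1) (hQ.trans_lt hY)
  obtain ⟨s, hs1, hs2⟩ := (Set.infinite_coe_iff.1 ha).exists_subset_card_eq 4
  let e := s.orderEmbOfFin hs2
  refine ⟨fun i => (e i).1, fun i => (e i).2, fun i j h => e.strictMono h, fun i j => ?_⟩
  have h2 : ∀ i, c (e i).1 = a := fun i => hs1 (s.orderEmbOfFin_mem hs2 i)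
  exact (h2 i).trans (h2 j).symm

/-- the embedding of a linear order in a product which puts two points at chosen places -/
theorem exists_eps {D' W : Type u} [LinearOrder D'] [LinearOrder W] {lo hi : W} (hlh : lo < hi)
    (x : W) {d1 e1 d2 e2 d3 : D'} (h1 : d1 < e1) (h2 : e1 < d2) (h3 : d2 < e2) (h4 : e2 < d3) :
    ∃ ε : W ↪o (D' ×ₗ W), ε lo = toLex (e1, x) ∧ ε hi = toLex (e2, x) ∧
      ∀ z, z ≠ lo → z ≠ hi → ∃ d, (d = d1 ∨ d = d2 ∨ d = d3) ∧ ε z = toLex (d, z) := by
  classical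
  let g : W → D' × W := fun z => if z < lo then (d1, z) else if z = lo then (e1, x) else
    if z < hi then (d2, z) else if z = hi then (e2, x) else (d3, z)
  have hg : StrictMono fun z => toLex (g z) := by
    intro z w hzw
    change toLex (g z) < toLex (g w)
    rw [Prod.Lex.toLex_lt_toLex]
    simp only [g]
    split_ifs <;> first | exact Or.inr ⟨rfl, hzw⟩ | (left; dsimp only; order)
  refine ⟨OrderEmbedding.ofStrictMono _ hg, ?_, ?_, ?_⟩
  · change toLex (g lo) = _
    simp only [g, lt_self_iff_false, if_false, if_true]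
  · change toLex (g hi) = _
    simp only [g, lt_self_iff_false, if_false, if_true, hlh.ne', not_lt_of_gt hlh]
  · intro z hz1 hz2
    change ∃ d, _ ∧ toLex (g z) = _
    simp only [g, hz1, hz2, if_false]
    split_ifs
    · exact ⟨_, Or.inl rfl, rfl⟩
    · exact ⟨_, Or.inr (Or.inl rfl), rfl⟩
    · exact ⟨_, Or.inr (Or.inr rfl), rfl⟩

/-- The order embedding which moves one point of a well order to another one with the same position
over `B`. -/
theorem exists_eta {Q : Type u} [LinearOrder Q] [WellFoundedLT Q] (B : Set Q) (p q : Q)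
    (hpq : H67.cutCode B p = H67.cutCode B q) :
    ∃ η : ↥(insert p B) ↪o Q, ∀ z : ↥(insert p B), η z = if z.1 = p then q else z.1 := by
  classical
  have h1 : ∀ b ∈ B, p < b → q < b := by
    intro b hb hpb
    rw [H67.cutCode_snd B q ⟨b, hb⟩, ← hpq, ← H67.cutCode_snd B p ⟨b, hb⟩]
    exact hpb
  have h2 : ∀ b ∈ B, b < p → b < q := by
    intro b hb hpb
    rw [← not_le] at hpb ⊢
    intro h
    apply hpb
    rw [H67.cutCode_fst B p ⟨b, hb⟩, hpq, ← H67.cutCode_fst B q ⟨b, hb⟩]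
    exact h
  refine ⟨OrderEmbedding.ofStrictMono (fun z => if z.1 = p then q else z.1) ?_, fun z => rfl⟩
  rintro ⟨z, hz⟩ ⟨w, hw⟩ hzw
  have hzw' : z < w := hzw
  change (if z = p then q else z) < if w = p then q else w
  by_cases hzp : z = p
  · have hwp : w ≠ p := fun h => by
      rw [hzp, h] at hzw'
      exact lt_irrefl _ hzw'
    rw [if_pos hzp, if_neg hwp]
    rw [hzp] at hzw'
    exact h1 w (hw.resolve_left hwp) hzw'
  · rw [if_neg hzp]
    by_cases hwp : w = p
    · rw [if_pos hwp]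
      rw [hwp] at hzw'
      exact h2 z (hz.resolve_left hzp) hzw'
    · rwa [if_neg hwp]

namespace OrdFamily

variable {K : AEC L} {F : OrdFamily K}

/-- The property which we derive from categoricity: a point `x` outside `P` can be moved to any
other point `y` outside `P` over `obj P`. -/
def Moves (F : OrdFamily K) : Prop :=
  ∀ (W : Type u) [LinearOrder W] (x y : W) (P : Set W), x ∉ P → y ∉ P →
    ∃ θ : F.obj ↥(insert x P) ↪[L] F.obj W,
      (∃ t : ↥(insert x P) → W, F.Ind θ t ∧ (∀ z, z.1 = x → t z = y) ∧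
        ∀ z, z.1 ∈ P → t z = z.1) ∧
      ∀ a : F.obj P, θ (F.map (incl (Set.subset_insert x P)) a) = F.map (inc P) a

theorem moves_of_unbounded {l : Cardinal.{u}} (hK : K.IsLS l)
    (hunb : ∀ χ : Cardinal.{u}, ∃ κ, χ ≤ κ ∧ K.CategoricalIn κ) : F.Moves := by
  classical
  intro W _ x y P hxP hyP
  by_cases hxy : x = y
  · subst hxy
    exact ⟨F.map (inc _), ⟨inc (insert x P), ind_map (inc (insert x P)), fun z hz => hz,
      fun z _ => rfl⟩, fun a => F.map_incl _ a⟩
  set m : Cardinal.{u} := max ℵ₀ #W with hm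
  have hm0 : ℵ₀ ≤ m := le_max_left _ _
  obtain ⟨D', _, D, Y, -, hD, hY, hYD, hsep⟩ := H67.exists_many_cuts hm0
  obtain ⟨κ, hκ1, hκ2⟩ := hunb (max (Order.succ (max l ℵ₀)) #(D' ×ₗ W))
  have hκl : max l ℵ₀ < κ := Order.succ_le_iff.1 ((le_max_left _ _).trans hκ1)
  have hκ0 : ℵ₀ ≤ κ := (le_max_right l ℵ₀).trans hκl.le
  let Q : Type u := κ.ord.ToType
  have hQ : #Q = κ := mk_ord_toType κ
  let Ω : Type u := (D' ×ₗ W) ⊕ₗ Q
  have hΩ : #Ω = κ := by
    change #((D' ×ₗ W) ⊕ Q) = κ
    rw [mk_sum, lift_id, lift_id, hQ]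
    exact add_eq_right hκ0 ((le_max_right _ _).trans hκ1)
  obtain ⟨θ⟩ := hκ2.2 (F.obj Ω) (F.obj Q) (F.mem_obj Ω) (F.mem_obj Q)
    (by rw [F.card_obj hK Ω (by rwa [hΩ]), hΩ]) (by rw [F.card_obj hK Q (by rwa [hQ]), hQ])
  have hθe : K.Emb θ.toEmbedding := AEC.Emb.of_equiv _ (F.mem_obj Ω)
  have hθs : K.Emb θ.symm.toEmbedding := AEC.Emb.of_equiv _ (F.mem_obj Q)
  obtain ⟨t, ht⟩ := exists_ind θ.toEmbedding hθe
  obtain ⟨s, hs⟩ := exists_ind θ.symm.toEmbedding hθs
  have hst : ∀ z, s (t z) = z := by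
    intro z
    refine (ht.comp hs).unique (ind_map (RelEmbedding.refl (· ≤ ·))) (x := z) fun a _ => ?_
    rw [F.map_refl]
    exact θ.symm_apply_apply a
  let pl : (D' ×ₗ W) ↪o Ω := OrderEmbedding.ofStrictMono _ Sum.Lex.inl_strictMono
  let pt : D' → W → Ω := fun d w => pl (toLex (d, w))
  let B : Set Q := {q | ∃ d ∈ D, ∃ w, q = t (pt d w)}
  have hB : #B ≤ m := by
    have h1 : #B ≤ #(D × W) :=
      mk_le_of_surjective (f := fun p : D × W => (⟨t (pt p.1.1 p.2), p.1.1, p.1.2, p.2, rfl⟩ : B))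
        (by
          rintro ⟨_, d, hd, w, rfl⟩
          exact ⟨(⟨d, hd⟩, w), rfl⟩)
    refine h1.trans ?_
    rw [mk_prod, lift_id, lift_id]
    exact (mul_le_mul' hD (le_max_right _ _)).trans (mul_eq_self hm0).le
  have hcode : #(Option B × Option B) ≤ m := by
    simp only [mk_prod, lift_id, mk_option]
    have h1 : #B + 1 ≤ m := add_le_of_le hm0 hB (one_le_aleph0.trans hm0)
    exact (mul_le_mul' h1 h1).trans (mul_eq_self hm0).le
  obtain ⟨f, hf1, hf2, hf3⟩ := exists_four hm0 _ hcode Y hY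
    (fun d => H67.cutCode B (t (pt d x)))
  obtain ⟨d1, hd1, h01, h11⟩ := hsep _ (hf1 0) _ (hf1 1) (hf2 (by decide))
  obtain ⟨d2, hd2, h12, h22⟩ := hsep _ (hf1 1) _ (hf1 2) (hf2 (by decide))
  obtain ⟨d3, hd3, h23, -⟩ := hsep _ (hf1 2) _ (hf1 3) (hf2 (by decide))
  have hlh : min x y < max x y := by
    rcases lt_or_gt_of_ne hxy with h | h
    · rwa [min_eq_left h.le, max_eq_right h.le]
    · rwa [min_eq_right h.le, max_eq_left h.le]
  obtain ⟨ε₀, he1, he2, he3⟩ := exists_eps hlh x h11 h12 h22 h23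
  let ε : W ↪o Ω := ε₀.trans pl
  have hεx : ∃ i, ε x = pt (f i) x := by
    rcases lt_or_gt_of_ne hxy with h | h
    · refine ⟨1, ?_⟩
      rw [min_eq_left h.le] at he1
      change pl (ε₀ x) = _
      rw [he1]
    · refine ⟨2, ?_⟩
      rw [max_eq_left h.le] at he2
      change pl (ε₀ x) = _
      rw [he2]
  have hεy : ∃ i, ε y = pt (f i) x := by
    rcases lt_or_gt_of_ne hxy with h | h
    · refine ⟨2, ?_⟩
      rw [max_eq_right h.le] at he2
      change pl (ε₀ y) = _
      rw [he2]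
    · refine ⟨1, ?_⟩
      rw [min_eq_right h.le] at he1
      change pl (ε₀ y) = _
      rw [he1]
  have hεP : ∀ z ∈ P, t (ε z) ∈ B := by
    intro z hz
    have hzx : z ≠ x := fun h => hxP (by rwa [← h])
    have hzy : z ≠ y := fun h => hyP (by rwa [← h])
    obtain ⟨d, hd, h⟩ := he3 z (by
      rcases min_choice x y with h | h <;> rw [h] <;> assumption) (by
      rcases max_choice x y with h | h <;> rw [h] <;> assumption)
    refine ⟨d, ?_, z, ?_⟩
    · rcases hd with rfl | rfl | rfl <;> assumption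
    · change t (pl (ε₀ z)) = _
      rw [h]
  have hcxy : H67.cutCode B (t (ε x)) = H67.cutCode B (t (ε y)) := by
    obtain ⟨i, hi⟩ := hεx
    obtain ⟨j, hj⟩ := hεy
    rw [hi, hj]
    exact hf3 i j
  have hxB : t (ε x) ∉ B := by
    rintro ⟨d, hd, w, h⟩
    obtain ⟨i, hi⟩ := hεx
    rw [hi] at h
    have h1 := ht.inj h
    have h2 : toLex (f i, x) = toLex (d, w) := pl.injective h1
    have h3 : f i = d := congrArg Prod.fst (toLex.injective h2)
    exact hYD _ (hf1 i) (h3 ▸ hd)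
  obtain ⟨η, hη⟩ := exists_eta B (t (ε x)) (t (ε y)) hcxy
  have hΨ1 : F.Ind (θ.toEmbedding.comp (F.map ((inc (insert x P)).trans ε)))
      (t ∘ (inc (insert x P)).trans ε) := (ind_map _).comp ht
  obtain ⟨ψ, hψ⟩ := F.exists_cores (θ.toEmbedding.comp (F.map ((inc (insert x P)).trans ε)))
    (inc (insert (t (ε x)) B)) fun n => by
      refine F.sub_mono ?_ (hΨ1.mem_range n)
      rintro _ ⟨z, rfl⟩
      have h1 : t (ε z.1) ∈ insert (t (ε x)) B := by
        rcases z.2 with h | h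
        · exact Or.inl (by rw [h])
        · exact Or.inr (hεP _ h)
      exact ⟨⟨_, h1⟩, rfl⟩
  have hψe : K.Emb ψ := by
    refine AEC.Emb.of_comp (F.emb_map (inc (insert (t (ε x)) B))) ?_
    have h1 : (F.map (inc (insert (t (ε x)) B))).comp ψ =
        θ.toEmbedding.comp (F.map ((inc (insert x P)).trans ε)) := by
      apply Language.Embedding.ext
      exact hψ
    rw [h1]
    exact hΨ1.emb
  obtain ⟨t2, ht2⟩ := exists_ind ψ hψe
  have ht2v : ∀ z, (t2 z).1 = t (ε z.1) := by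
    intro z
    exact (ht2.comp (ind_map (inc (insert (t (ε x)) B)))).unique hΨ1 (x := z) fun a _ => hψ a
  have hΨ : F.Ind (θ.symm.toEmbedding.comp ((F.map η).comp ψ)) (s ∘ (η ∘ t2)) :=
    (ht2.comp (ind_map η)).comp hs
  have hx2 : ∀ z, z.1 = x → (s ∘ (η ∘ t2)) z = ε y := by
    intro z hz
    change s (η (t2 z)) = _
    rw [hη, ht2v, hz, if_pos rfl, hst]
  have hP2 : ∀ z, z.1 ∈ P → (s ∘ (η ∘ t2)) z = ε z.1 := by
    intro z hz
    have h1 : t (ε z.1) ≠ t (ε x) := fun h => hxB (h ▸ hεP _ hz)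
    change s (η (t2 z)) = _
    rw [hη, ht2v, if_neg h1, hst]
  obtain ⟨θ', hθ'⟩ := F.exists_cores (θ.symm.toEmbedding.comp ((F.map η).comp ψ)) ε fun n => by
    refine F.sub_mono ?_ (hΨ.mem_range n)
    rintro _ ⟨z, rfl⟩
    rcases z.2 with h | h
    · exact ⟨y, (hx2 z h).symm⟩
    · exact ⟨z.1, (hP2 z h).symm⟩
  have hθ'e : K.Emb θ' := by
    refine AEC.Emb.of_comp (F.emb_map ε) ?_
    have h1 : (F.map ε).comp θ' = θ.symm.toEmbedding.comp ((F.map η).comp ψ) := by
      apply Language.Embedding.ext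
      exact hθ'
    rw [h1]
    exact hΨ.emb
  obtain ⟨t', ht'⟩ := exists_ind θ' hθ'e
  have ht'v : ∀ z, ε (t' z) = (s ∘ (η ∘ t2)) z := by
    intro z
    exact (ht'.comp (ind_map ε)).unique hΨ (x := z) fun a _ => hθ' a
  refine ⟨θ', ⟨t', ht', fun z hz => ?_, fun z hz => ?_⟩, fun a => ?_⟩
  · apply ε.injective
    rw [ht'v, hx2 z hz]
  · apply ε.injective
    rw [ht'v, hP2 z hz]
  · apply (F.map ε).injective
    rw [hθ']
    change θ.symm (F.map η (ψ (F.map (incl (Set.subset_insert x P)) a))) = _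
    have h1 : F.map (inc (insert (t (ε x)) B)) (ψ (F.map (incl (Set.subset_insert x P)) a)) =
        θ (F.map ε (F.map (inc P) a)) := by
      rw [hψ]
      change θ (F.map ((inc (insert x P)).trans ε) _) = _
      rw [F.map_trans, F.map_incl]
    have h2 : θ (F.map ε (F.map (inc P) a)) ∈ F.sub B := by
      have h3 : θ (F.map ε (F.map (inc P) a)) ∈ F.sub (t '' (ε '' P)) :=
        (ht.mem _ _).2 ((F.map_mem_sub_image ε).2 ⟨a, rfl⟩)
      refine F.sub_mono ?_ h3
      rintro _ ⟨_, ⟨z, hz, rfl⟩, rfl⟩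
      exact hεP z hz
    obtain ⟨b, hb⟩ := h2
    have hb' : F.map (inc B) b = θ (F.map ε (F.map (inc P) a)) := hb
    have h3 : ψ (F.map (incl (Set.subset_insert x P)) a) =
        F.map (incl (Set.subset_insert (t (ε x)) B)) b := by
      apply (F.map (inc (insert (t (ε x)) B))).injective
      rw [h1, ← hb', F.map_incl]
    have h4 : (incl (Set.subset_insert (t (ε x)) B)).trans η = inc B := by
      ext z
      change η (incl (Set.subset_insert (t (ε x)) B) z) = z.1
      rw [hη]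
      have h5 : (incl (Set.subset_insert (t (ε x)) B) z).1 = z.1 := rfl
      rw [h5, if_neg]
      intro h6
      exact hxB (h6 ▸ z.2)
    rw [h3, ← F.map_trans, h4, hb']
    exact θ.symm_apply_apply _

end OrdFamily

end Vale.Agent.P307.H227
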