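import Vale.Agent.P307.Bdl.B1

/-!
The abstract elementary class of the members of a class with a name for a strong submodel of a
given isomorphism type.
-/

universe u

open FirstOrder Cardinal Function Language

namespace Vale.Agent.P307.H227

variable {L : Language.{u, u}}

/-- The language `L` with a new unary relation. -/
def nq (L : Language.{u, u}) : Language.{u, u} :=
  ⟨L.Functions, fun n => L.Relations n ⊕ {_p : PUnit.{u + 1} // n = 1}⟩

theorem card_nq : (nq L).card ≤ L.card + 1 := by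
  have h : #(Σ n, (nq L).Relations n) ≤ #(Σ n, L.Relations n) + 1 := by
    rw [← mk_punit.{u}, add_def]
    refine ⟨⟨fun x => match x with
      | ⟨n, Sum.inl f⟩ => Sum.inl ⟨n, f⟩
      | ⟨_, Sum.inr p⟩ => Sum.inr p.1, ?_⟩⟩
    rintro ⟨n, f | ⟨p, hp⟩⟩ ⟨m, g | ⟨q, hq⟩⟩ h
    · simp only [Sum.inl.injEq, Sigma.mk.injEq] at h
      obtain ⟨rfl, h⟩ := h
      rw [eq_of_heq h]
    · simp only [reduceCtorEq] at h
    · simp only [reduceCtorEq] at h
    · subst hp
      subst hq
      rfl
  have h1 : (nq L).card = #(Σ n, L.Functions n) + #(Σ n, (nq L).Relations n) := by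
    unfold Language.card Language.Symbols
    rw [← add_def]
    rfl
  have h2 : L.card = #(Σ n, L.Functions n) + #(Σ n, L.Relations n) := by
    unfold Language.card Language.Symbols
    rw [← add_def]
  rw [h1, h2, add_assoc]
  exact add_le_add le_rfl h

/-- The underlying type of the reduct to `L`. -/
def Rd (_L : Language.{u, u}) (N : Type u) : Type u := N

instance rdStr (N : Type u) [i : (nq L).Structure N] : L.Structure (Rd L N) where
  funMap := fun {n} f x => i.funMap (f : (nq L).Functions n) x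
  RelMap := fun {n} r x => i.RelMap (Sum.inl r : (nq L).Relations n) x

/-- The interpretation of the new relation. -/
def Qp (L : Language.{u, u}) (N : Type u) [i : (nq L).Structure N] : Set (Rd L N) :=
  {x | i.RelMap (Sum.inr ⟨PUnit.unit, rfl⟩ : (nq L).Relations 1) (fun _ => x)}

section sub

variable {M N : Type u} [(nq L).Structure M] [(nq L).Structure N]

/-- The reduct of a substructure. -/
def toL (S : (nq L).Substructure N) : L.Substructure (Rd L N) where
  carrier := (S : Set N)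
  fun_mem := fun {n} f x hx => S.fun_mem (f : (nq L).Functions n) x hx

theorem toL_le {S T : (nq L).Substructure N} : toL S ≤ toL T ↔ S ≤ T := Iff.rfl

theorem toL_inj {S T : (nq L).Substructure N} (h : toL S = toL T) : S = T :=
  le_antisymm (toL_le.1 h.le) (toL_le.1 h.ge)

/-- The substructure with a given reduct. -/
def ofL (S : L.Substructure (Rd L N)) : (nq L).Substructure N where
  carrier := (S : Set (Rd L N))
  fun_mem := fun {n} f x hx => S.fun_mem (f : L.Functions n) x hx

theorem toL_ofL (S : L.Substructure (Rd L N)) : toL (ofL S) = S := rfl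

theorem ofL_toL (S : (nq L).Substructure N) : ofL (toL S) = S := rfl

/-- The reduct of an embedding. -/
def rdEmb (f : M ↪[nq L] N) : Rd L M ↪[L] Rd L N where
  toFun := f
  inj' := f.injective
  map_fun' := fun {n} g x => f.map_fun (g : (nq L).Functions n) x
  map_rel' := fun {n} r x => f.map_rel (Sum.inl r : (nq L).Relations n) x

/-- The reduct of an isomorphism. -/
def rdEquiv (e : M ≃[nq L] N) : Rd L M ≃[L] Rd L N where
  toEquiv := e.toEquiv
  map_fun' := fun {n} g x => e.map_fun (g : (nq L).Functions n) x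
  map_rel' := fun {n} r x => e.map_rel (Sum.inl r : (nq L).Relations n) x

theorem rdEmb_mem (f : M ↪[nq L] N) (x : Rd L M) : rdEmb f x ∈ Qp L N ↔ x ∈ Qp L M :=
  f.map_rel (Sum.inr ⟨PUnit.unit, rfl⟩ : (nq L).Relations 1) (fun _ => x)

theorem rdEquiv_mem (e : M ≃[nq L] N) (x : Rd L M) : rdEquiv e x ∈ Qp L N ↔ x ∈ Qp L M :=
  rdEmb_mem e.toEmbedding x

theorem rdEquiv_image (e : M ≃[nq L] N) : rdEquiv e '' Qp L M = Qp L N := by
  ext y
  constructor
  · rintro ⟨x, hx, rfl⟩
    exact (rdEquiv_mem e x).2 hx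
  · intro hy
    refine ⟨(rdEquiv e).symm y, ?_, (rdEquiv e).apply_symm_apply y⟩
    rw [← rdEquiv_mem e, (rdEquiv e).apply_symm_apply y]
    exact hy

/-- The expansion of an isomorphism of the reducts which respects the new relation. -/
def ofRdEquiv (e : Rd L M ≃[L] Rd L N) (h : ∀ x, e x ∈ Qp L N ↔ x ∈ Qp L M) :
    M ≃[nq L] N where
  toEquiv := e.toEquiv
  map_fun' := fun {n} f x => e.map_fun (f : L.Functions n) x
  map_rel' := by
    rintro n (r | ⟨⟨⟩, rfl⟩) x
    · exact e.map_rel r x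
    · have h1 : x = fun _ => x 0 := by
        funext i
        rw [Subsingleton.elim i 0]
      rw [h1]
      exact h (x 0)

/-- The reduct of a substructure is the substructure of the reduct. -/
def sE (S : (nq L).Substructure N) : Rd L S ≃[L] toL S where
  toFun := fun x => ⟨(show S from x).1, (show S from x).2⟩
  invFun := fun x => (show S from ⟨x.1, x.2⟩)
  left_inv := fun _ => rfl
  right_inv := fun _ => rfl
  map_fun' := fun {_} _ _ => rfl
  map_rel' := fun {_} _ _ => Iff.rfl

theorem sE_mem (S : (nq L).Substructure N) (x : Rd L S) :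
    ((sE S x : toL S) : Rd L N) ∈ Qp L N ↔ x ∈ Qp L S :=
  Iff.rfl

theorem toL_iSup {ι : Type u} [LinearOrder ι] [Nonempty ι] (S : ι → (nq L).Substructure N)
    (h : ∀ i j, i ≤ j → S i ≤ S j) : toL (⨆ i, S i) = ⨆ i, toL (S i) := by
  have hm : Monotone S := fun i j => h i j
  apply le_antisymm
  · intro x hx
    obtain ⟨i, hi⟩ := (Substructure.mem_iSup_of_directed (M := N)
      (directed_of_isDirected_le hm)).1 hx
    exact (le_iSup (fun i => toL (S i)) i) hi
  · exact iSup_le fun i => toL_le.2 (le_iSup S i)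

end sub

section aec

variable {P : Type u} [L.Structure P]

/-- The membership in the class with a name: the new relation is a strong submodel which is
isomorphic to `P`. -/
def QMem (K : AEC L) (P : Type u) [L.Structure P] (N : Type u) [(nq L).Structure N] : Prop :=
  ∃ f : P ↪[L] Rd L N, K.Emb f ∧ Set.range f = Qp L N

theorem QMem.mem {K : AEC L} {N : Type u} [(nq L).Structure N] (h : QMem K P N) :
    K.mem (Rd L N) := by
  obtain ⟨f, hf, -⟩ := h
  exact hf.mem_right

theorem QMem.card_le {K : AEC L} {N : Type u} [(nq L).Structure N] (h : QMem K P N) :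
    #(Qp L N) ≤ #P := by
  obtain ⟨f, -, hf⟩ := h
  rw [← hf]
  exact mk_range_le

theorem QMem.of_emb {K : AEC L} {M N : Type u} [(nq L).Structure M] [(nq L).Structure N]
    (h : QMem K P M) (g : Rd L M ↪[L] Rd L N) (hg : K.Emb g)
    (hc : g '' Qp L M = Qp L N) : QMem K P N := by
  obtain ⟨f, hf, hf2⟩ := h
  refine ⟨g.comp f, AEC.Emb.comp hg hf, ?_⟩
  rw [← hc, ← hf2, ← Set.range_comp]
  rfl

theorem QMem.of_le {K : AEC L} {N : Type u} [(nq L).Structure N] (h : QMem K P N)
    {S : (nq L).Substructure N} (hS : K.le (toL S)) (hQ : Qp L N ⊆ toL S) : QMem K P S := by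
  obtain ⟨f, hf, hf2⟩ := h
  have h1 : ∀ p, f p ∈ toL S := fun p => hQ (by rw [← hf2]; exact ⟨p, rfl⟩)
  let g : P ↪[L] toL S := Embedding.codRestrict (toL S) f h1
  have hg : K.Emb g := by
    refine AEC.Emb.of_comp (g := (toL S).subtype) (AEC.emb_subtype.2 hS) ?_
    have h2 : (toL S).subtype.comp g = f := Embedding.subtype_comp_codRestrict f (toL S) h1
    rw [h2]
    exact hf
  have h3 : K.mem (toL S) := (K.mem_of_le _ hS).1
  refine ⟨(sE S).symm.toEmbedding.comp g, AEC.Emb.comp (AEC.Emb.of_equiv _ h3) hg, ?_⟩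
  ext x
  constructor
  · rintro ⟨p, rfl⟩
    rw [← sE_mem]
    change f p ∈ Qp L N
    rw [← hf2]
    exact ⟨p, rfl⟩
  · intro hx
    rw [← sE_mem, ← hf2] at hx
    obtain ⟨p, hp⟩ := hx
    refine ⟨p, ?_⟩
    apply (sE S).injective
    refine ((sE S).apply_symm_apply (g p)).trans ?_
    exact Subtype.ext hp

theorem le_of_sub {K : AEC L} {N : Type u} [(nq L).Structure N]
    {S T : (nq L).Substructure N} (_h : S ≤ T) :
    K.le (toL (S.comap T.subtype.toHom)) ↔ K.le ((toL S).comap (toL T).subtype.toHom) := by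
  constructor
  · intro h1
    have h2 := K.le_iso (sE T) _ h1
    have h3 : (toL (S.comap T.subtype.toHom)).map (sE T).toHom =
        (toL S).comap (toL T).subtype.toHom := by
      ext x
      constructor
      · rintro ⟨y, hy, rfl⟩
        exact hy
      · intro hx
        exact ⟨(sE T).symm x, hx, rfl⟩
    rwa [h3] at h2
  · intro h1
    have h2 := K.le_iso (sE T).symm _ h1
    have h3 : ((toL S).comap (toL T).subtype.toHom).map (sE T).symm.toHom =
        toL (S.comap T.subtype.toHom) := by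
      ext x
      constructor
      · rintro ⟨y, hy, rfl⟩
        exact hy
      · intro hx
        exact ⟨sE T x, hx, rfl⟩
    rwa [h3] at h2

/-- The strong substructures of the class with a name. -/
def QLe (K : AEC L) (P : Type u) [L.Structure P] {N : Type u} [(nq L).Structure N]
    (S : (nq L).Substructure N) : Prop :=
  K.le (toL S) ∧ Qp L N ⊆ toL S ∧ QMem K P N

theorem QLe.iso {K : AEC L} {M N : Type u} [(nq L).Structure M] [(nq L).Structure N]
    (e : M ≃[nq L] N) {S : (nq L).Substructure M} (h : QLe K P S) : QLe K P (S.map e.toHom) := by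
  refine ⟨K.le_iso (rdEquiv e) _ h.1, ?_, h.2.2.of_emb (rdEquiv e).toEmbedding
    (AEC.Emb.of_equiv _ h.2.2.mem) (rdEquiv_image e)⟩
  intro x hx
  rw [← rdEquiv_image e] at hx
  obtain ⟨y, hy, rfl⟩ := hx
  exact ⟨y, h.2.1 hy, rfl⟩

theorem QLe.trans {K : AEC L} {N : Type u} [(nq L).Structure N]
    {T : (nq L).Substructure N} {S : (nq L).Substructure T} (h1 : QLe K P S) (h2 : QLe K P T) :
    QLe K P (S.map T.subtype.toHom) := by
  have h3 := K.le_iso (sE T) _ h1.1
  have h4 := K.le_trans (toL T) _ h3 h2.1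
  have h5 : ((toL S).map (sE T).toHom).map (toL T).subtype.toHom =
      toL (S.map T.subtype.toHom) := by
    ext x
    constructor
    · rintro ⟨y, ⟨z, hz, rfl⟩, rfl⟩
      exact ⟨z, hz, rfl⟩
    · rintro ⟨z, hz, rfl⟩
      exact ⟨sE T z, ⟨z, hz, rfl⟩, rfl⟩
  rw [h5] at h4
  refine ⟨h4, ?_, h2.2.2⟩
  intro x hx
  have h6 : x ∈ toL T := h2.2.1 hx
  have h7 : (sE T).symm ⟨x, h6⟩ ∈ Qp L T := hx
  exact ⟨(sE T).symm ⟨x, h6⟩, h1.2.1 h7, rfl⟩

theorem QLe.coh {K : AEC L} {N : Type u} [(nq L).Structure N]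
    {S T : (nq L).Substructure N} (h : S ≤ T) (h1 : QLe K P S) (h2 : QLe K P T) :
    QLe K P (S.comap T.subtype.toHom) := by
  refine ⟨(le_of_sub h).2 (K.coherence _ _ (toL_le.2 h) h1.1 h2.1), ?_,
    h2.2.2.of_le h2.1 h2.2.1⟩
  intro x hx
  exact h1.2.1 ((sE_mem T x).2 hx)

theorem QLe.chain {K : AEC L} {U : Type u} [(nq L).Structure U] {ι : Type u} [LinearOrder ι]
    [WellFoundedLT ι] [Nonempty ι] (S : ι → (nq L).Substructure U)
    (h1 : ∀ i j, i ≤ j → S i ≤ S j)
    (h2 : ∀ i j, i ≤ j → QLe K P ((S i).comap (S j).subtype.toHom))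
    (h3 : ∀ x : U, ∃ i, x ∈ S i) : QMem K P U ∧ ∀ i, QLe K P (S i) := by
  have h4 := K.chain_union (fun i => toL (S i)) (fun i j hij => toL_le.2 (h1 i j hij))
    (fun i j hij => (le_of_sub (h1 i j hij)).1 (h2 i j hij).1) h3
  have h7 : ∀ i, Qp L U ⊆ toL (S i) := by
    intro i x hx
    obtain ⟨j, hj⟩ := h3 x
    have h8 : x ∈ S (max i j) := h1 j _ (le_max_right i j) hj
    have h9 : (sE (S (max i j))).symm ⟨x, h8⟩ ∈ Qp L (S (max i j)) := hx
    exact (h2 i (max i j) (le_max_left i j)).2.1 h9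
  obtain ⟨i⟩ := ‹Nonempty ι›
  have h5 : QMem K P (S i) := (h2 i i le_rfl).2.2
  have h6 : QMem K P U := by
    refine h5.of_emb ((toL (S i)).subtype.comp (sE (S i)).toEmbedding)
      (AEC.Emb.comp (AEC.emb_subtype.2 (h4.2 i)) (AEC.Emb.of_equiv _ h5.mem)) ?_
    ext x
    constructor
    · rintro ⟨y, hy, rfl⟩
      exact (sE_mem (S i) y).2 hy
    · intro hx
      exact ⟨(sE (S i)).symm ⟨x, h7 i hx⟩, hx, rfl⟩
  exact ⟨h6, fun j => ⟨h4.2 j, h7 j, h6⟩⟩

theorem QMem.ls {K : AEC L} {l : Cardinal.{u}} (hl : ℵ₀ ≤ l)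
    (h : ∀ {N : Type u} [L.Structure N], K.mem N → ∀ A : Set N,
      ∃ S : L.Substructure N, K.le S ∧ A ⊆ S ∧ #S ≤ #A + l) (hP : #P ≤ l)
    {N : Type u} [(nq L).Structure N] (hN : QMem K P N) (A : Set N) :
    ∃ S : (nq L).Substructure N, QLe K P S ∧ A ⊆ S ∧ #S ≤ #A + l := by
  obtain ⟨S, hS1, hS2, hS3⟩ := h hN.mem (A ∪ Qp L N)
  refine ⟨ofL S, ⟨hS1, fun x hx => hS2 (Or.inr hx), hN⟩, fun x hx => hS2 (Or.inl hx), ?_⟩
  have h4 : #(A ∪ Qp L N : Set (Rd L N)) ≤ #A + #P :=
    (mk_union_le _ _).trans (add_le_add le_rfl hN.card_le)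
  calc #(ofL S) = #S := rfl
    _ ≤ _ := hS3
    _ ≤ (#A + #P) + l := add_le_add h4 le_rfl
    _ = #A + (#P + l) := add_assoc _ _ _
    _ ≤ #A + l := add_le_add le_rfl (add_le_of_le hl hP le_rfl)

/-- The class of the members of `K` with a name for a strong submodel isomorphic to `P`. -/
def nqAEC (K : AEC L) (P : Type u) [L.Structure P] : AEC (nq L) where
  mem := fun N _ => QMem K P N
  le := fun {_} _ S => QLe K P S
  mem_iso := fun {M N} _ _ e h =>
    h.of_emb (rdEquiv e).toEmbedding (AEC.Emb.of_equiv _ h.mem) (rdEquiv_image e)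
  le_iso := fun {M N} _ _ e S h => h.iso e
  mem_of_le := fun {N} _ S h => ⟨h.2.2.of_le h.1 h.2.1, h.2.2⟩
  le_refl := fun {N} _ h => ⟨K.le_refl h.mem, fun _ _ => trivial, h⟩
  le_trans := fun {N} _ T S h1 h2 => h1.trans h2
  coherence := fun {N} _ S T h h1 h2 => h1.coh h h2
  chain_union := fun {U} _ {ι} _ _ _ S h1 h2 h3 => QLe.chain S h1 h2 h3
  chain_smooth := fun {N} _ {ι} _ _ _ S h1 h2 => by
    have h4 := K.chain_smooth (fun i => toL (S i)) (fun i j hij => toL_le.2 (h1 i j hij))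
      (fun i => (h2 i).1)
    rw [← toL_iSup S h1] at h4
    obtain ⟨i⟩ := ‹Nonempty ι›
    exact ⟨h4, fun x hx => (toL_le.2 (le_iSup S i)) ((h2 i).2.1 hx), (h2 i).2.2⟩
  exists_ls := by
    obtain ⟨ℓ, h1, h2, h3⟩ := K.exists_ls
    have h4 : ℵ₀ ≤ max ℓ #P := h1.trans (le_max_left _ _)
    refine ⟨max ℓ #P, h4, ?_, ?_⟩
    · exact card_nq.trans (add_le_of_le h4 (h2.trans (le_max_left _ _))
        (one_le_aleph0.trans h4))
    · intro N _ hN A
      refine hN.ls h4 (fun {N} _ hN A => ?_) (le_max_right _ _) A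
      obtain ⟨S, hS1, hS2, hS3⟩ := h3 hN A
      exact ⟨S, hS1, hS2, hS3.trans (add_le_add le_rfl (le_max_left _ _))⟩

theorem nqAEC_isLS {K : AEC L} {l : Cardinal.{u}} (hK : K.IsLS l) (hP : #P ≤ l) :
    (nqAEC K P).IsLS l := by
  obtain ⟨h1, h2, h3⟩ := hK
  refine ⟨h1, card_nq.trans (add_le_of_le h1 h2 (one_le_aleph0.trans h1)), ?_⟩
  intro N _ hN A
  exact QMem.ls h1 (fun {N} _ hN A => h3 N hN A) hP hN A

end aec

end Vale.Agent.P307.H227
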