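import Vale.Agent.P307.H227.NqCat
import Vale.Agent.P307.Gw.Top

/-!
Categoricity transfer for classes with a member which is geometric over a small strong
substructure.
-/

universe u

open FirstOrder Cardinal Function Language

namespace Vale.Agent.P307.H227

variable {L : Language.{u, u}}

/-- The geometric members of the class with a name are geometric over the named substructure. -/
theorem isLocGeometric_of_nq {K : AEC L} {l : Cardinal.{u}} {P₀ : Type u} [L.Structure P₀]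
    (hl : #P₀ ≤ l) {N : Type u} [L.Structure N] {f : P₀ ↪[L] N} (hf : K.Emb f)
    (hcat : (nqAEC K P₀).CategoricalIn #N)
    (hgeo : Gw.IsGeometric (nqAEC K P₀) (Ex L (Set.range f))) : IsLocGeometric K l N := by
  have hmem : QMem K P₀ (Ex L (Set.range f)) := qMem_ex hf rfl
  have hr : ((f.toHom.range : L.Substructure N) : Set N) = Set.range f := rfl
  refine ⟨f.toHom.range, hf, ?_, ?_, ?_⟩
  · exact (mk_range_le (f := f)).trans hl
  · rintro P' hP' ⟨e⟩
    let g : P₀ ↪[L] N := P'.subtype.comp (e.comp f.equivRange).toEmbedding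
    have hg : K.Emb g := by
      refine AEC.Emb.comp (AEC.emb_subtype.2 hP') (AEC.Emb.of_equiv _ hf.mem_left)
    have hgr : ∀ x, x ∈ Set.range g ↔ x ∈ P' := by
      intro x
      constructor
      · rintro ⟨p, rfl⟩
        exact ((e.comp f.equivRange) p).2
      · intro hx
        refine ⟨(e.comp f.equivRange).symm ⟨x, hx⟩, ?_⟩
        exact congrArg Subtype.val ((e.comp f.equivRange).apply_symm_apply ⟨x, hx⟩)
    obtain ⟨σ⟩ := hcat.2 (Ex L (Set.range f)) (Ex L (Set.range g)) hmem (qMem_ex hg rfl) rfl rfl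
    have hσ := rdEquiv_image σ
    refine ⟨(rdEx.comp (rdEquiv σ)).comp rdEx.symm, ?_⟩
    ext x
    rw [← hgr]
    have h1 : x ∈ Set.range g ↔ x ∈ Qp L (Ex L (Set.range g)) := Iff.rfl
    rw [h1, ← hσ]
    constructor
    · rintro ⟨y, hy, rfl⟩
      exact ⟨y, hy, rfl⟩
    · rintro ⟨y, hy, rfl⟩
      exact ⟨y, hy, rfl⟩
  · obtain ⟨X, Mt, e, he⟩ := hgeo
    let i : {S : (nq L).Substructure (Ex L (Set.range f)) // (nqAEC K P₀).le S} ≃o
        {S : L.Substructure N // K.le S ∧ f.toHom.range ≤ S} :=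
      { toFun := fun S => ⟨unSub S.1, le_exSub.1 S.2.1, fun x hx => S.2.2.1 hx⟩
        invFun := fun S => ⟨exSub S.1, le_exSub.2 S.2.1, fun x hx => S.2.2 hx, hmem⟩
        left_inv := fun _ => rfl
        right_inv := fun _ => rfl
        map_rel_iff' := Iff.rfl }
    refine ⟨X, Mt, e.trans i, fun B B' hB hB' => ?_⟩
    obtain ⟨σ, h1, h2, h3⟩ := he B B' hB hB'
    let τ : N ≃[L] N := (rdEx.comp (rdEquiv σ)).comp rdEx.symm
    have key : ∀ b b' : X,
        (e (Gw.flat Mt {b})).1.map σ.toHom = (e (Gw.flat Mt {b'})).1 →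
        ((e.trans i) (Gw.flat Mt {b})).1.map τ.toHom = ((e.trans i) (Gw.flat Mt {b'})).1 := by
      intro b b' h
      have h4 : unSub ((e (Gw.flat Mt {b})).1.map σ.toHom) = unSub (e (Gw.flat Mt {b'})).1 :=
        congrArg unSub h
      refine Eq.trans ?_ h4
      ext x
      constructor
      · rintro ⟨y, hy, rfl⟩
        exact ⟨y, hy, rfl⟩
      · rintro ⟨y, hy, rfl⟩
        exact ⟨y, hy, rfl⟩
    refine ⟨τ, ?_, fun b hb => key b b (h1 b hb), fun b hb => ?_, fun b' hb' => ?_⟩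
    · ext x
      have hσ := rdEquiv_image σ
      have h5 : x ∈ f.toHom.range ↔ x ∈ Qp L (Ex L (Set.range f)) := Iff.rfl
      rw [h5, ← hσ]
      constructor
      · rintro ⟨y, hy, rfl⟩
        exact ⟨y, hy, rfl⟩
      · rintro ⟨y, hy, rfl⟩
        exact ⟨y, hy, rfl⟩
    · obtain ⟨b', hb', h4⟩ := h2 b hb
      exact ⟨b', hb', key b b' h4⟩
    · obtain ⟨b, hb, h4⟩ := h3 b' hb'
      exact ⟨b, hb, key b b' h4⟩

/-- Q1 for the classes whose member of size `κ` is geometric over a small strong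
substructure. -/
theorem q1_locGeometric (l : Cardinal.{u}) :
    ∃ μ : Cardinal.{u}, l ≤ μ ∧ ∀ (L : Language.{u, u}) (K : AEC L), K.LS ≤ l →
      ∀ κ : Cardinal.{u}, μ ≤ κ → K.CategoricalIn κ →
      (∃ (M : Type u) (_ : L.Structure M), K.mem M ∧ #M = κ ∧ IsLocGeometric K l M) →
        ∀ κ' : Cardinal.{u}, μ ≤ κ' → K.CategoricalIn κ' ∧
          ∀ (N : Type u) [L.Structure N], K.mem N → #N = κ' → IsLocGeometric K l N := by
  obtain ⟨μ₀, hμ₀, hμ⟩ := H67.exists_threshold l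
  obtain ⟨μ₁, hμ₁, hC⟩ := Gw.q1_geometric l
  refine ⟨max μ₀ μ₁, hμ₀.trans (le_max_left _ _), ?_⟩
  rintro L K hK κ hκ hcat ⟨M, _, hM, hMκ, P, hP, hPl, hhom, X, Mt, e, he⟩
  have hLS : K.IsLS l := AEC.isLS_of_LS_le hK
  have hq : (nqAEC K P).LS ≤ l := csInf_le' (nqAEC_isLS hLS hPl)
  have hlκ : l ≤ κ := hμ₀.trans ((le_max_left _ _).trans hκ)
  have hμκ : μ₁ ≤ κ := (le_max_right _ _).trans hκ
  have hqc : (nqAEC K P).CategoricalIn κ := nq_categorical hcat hMκ P hP hhom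
  have h1 := hC (nq L) (nqAEC K P) hq
    ⟨Ex L (P : Set M), inferInstance,
      qMem_ex (f := P.subtype) (AEC.emb_subtype.2 hP) Subtype.range_coe,
      hμκ.trans hMκ.ge, isGeometric_ex P hP Mt e he⟩ ⟨κ, hμκ, hqc⟩
  have h2 : ∀ κ', κ ≤ κ' → K.CategoricalIn κ' := fun κ' h =>
    categorical_of_nq hLS hlκ h hcat hMκ P hP (h1 κ' (hμκ.trans h)).1
  have h3 : ∀ κ', max μ₀ μ₁ ≤ κ' → K.CategoricalIn κ' := fun κ' h =>
    hμ L K hK ⟨κ, h2⟩ κ' ((le_max_left _ _).trans h)
  intro κ' hκ'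
  refine ⟨h3 κ' hκ', fun N _ hN hNκ => ?_⟩
  have hlκ' : l ≤ κ' := hμ₀.trans ((le_max_left _ _).trans hκ')
  have key : ∃ f : P ↪[L] N, K.Emb f := by
    rcases le_total κ κ' with h | h
    · obtain ⟨A, hA⟩ := le_mk_iff_exists_set.1 (h.trans hNκ.ge)
      obtain ⟨S, hS1, hS2, hS3⟩ := hLS.2.2 N hN A
      have hSκ : #S = κ := by
        apply le_antisymm
        · exact hS3.trans (add_le_of_le (hLS.1.trans hlκ) hA.le hlκ)
        · rw [← hA]
          exact mk_le_mk_of_subset hS2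
      obtain ⟨i⟩ := hcat.2 M S hM (K.mem_of_le _ hS1).1 hMκ hSκ
      exact ⟨S.subtype.comp (i.toEmbedding.comp P.subtype),
        AEC.Emb.comp (AEC.emb_subtype.2 hS1)
          (AEC.Emb.comp (AEC.Emb.of_equiv i hM) (AEC.emb_subtype.2 hP))⟩
    · obtain ⟨A, hA⟩ := le_mk_iff_exists_set.1 (h.trans hMκ.ge)
      obtain ⟨S, hS1, hS2, hS3⟩ := hLS.2.2 M hM (A ∪ P)
      have hSκ : #S = κ' := by
        apply le_antisymm
        · refine hS3.trans (add_le_of_le (hLS.1.trans hlκ') ?_ hlκ')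
          refine (mk_union_le _ _).trans (add_le_of_le (hLS.1.trans hlκ') hA.le ?_)
          exact hPl.trans hlκ'
        · rw [← hA]
          exact mk_le_mk_of_subset (Set.subset_union_left.trans hS2)
      have hPS : P ≤ S := fun x hx => hS2 (Or.inr hx)
      obtain ⟨i⟩ := (h3 κ' hκ').2 S N (K.mem_of_le _ hS1).1 hN hSκ hNκ
      refine ⟨i.toEmbedding.comp (Substructure.inclusion hPS),
        AEC.Emb.comp (AEC.Emb.of_equiv i (K.mem_of_le _ hS1).1) ?_⟩
      exact (AEC.sle_of_le_le hPS hP hS1).2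
  obtain ⟨f, hf⟩ := key
  have h4 := h1 κ' ((le_max_right _ _).trans hκ')
  refine isLocGeometric_of_nq hPl hf (by rw [hNκ]; exact h4.1) ?_
  exact h4.2 (Ex L (Set.range f)) (qMem_ex hf rfl) hNκ

end Vale.Agent.P307.H227
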