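import Vale.Agent.P307.Bdl.B1

/-!
Families of models indexed by linear orders.
-/

universe u

open FirstOrder Cardinal Function Language

namespace Vale.Agent.P307.H227

variable {L : Language.{u, u}}

/-- A functor from linear orders with order embeddings to `L`-structures with embeddings such that
the strong substructures (for `K`) of `obj I` are exactly the images of the structures `obj A` for
the subsets `A` of `I`; different subsets give different substructures. -/
structure OrdFamily (K : AEC L) where
  obj : ∀ (I : Type u) [LinearOrder I], Type u
  str : ∀ (I : Type u) [LinearOrder I], L.Structure (obj I)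
  map : ∀ {I J : Type u} [LinearOrder I] [LinearOrder J], (I ↪o J) → (obj I ↪[L] obj J)
  map_refl : ∀ {I : Type u} [LinearOrder I] (a : obj I), map (RelEmbedding.refl (· ≤ ·)) a = a
  map_trans : ∀ {I J M : Type u} [LinearOrder I] [LinearOrder J] [LinearOrder M] (i : I ↪o J)
    (j : J ↪o M) (a : obj I), map (i.trans j) a = map j (map i a)
  strong : ∀ (I : Type u) [LinearOrder I] (S : L.Substructure (obj I)),
    K.le S ↔ ∃ A : Set I, S = (map (OrderEmbedding.subtype (· ∈ A))).toHom.range
  mono : ∀ (I : Type u) [LinearOrder I] (A B : Set I),
    (map (OrderEmbedding.subtype (· ∈ A))).toHom.range ≤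
      (map (OrderEmbedding.subtype (· ∈ B))).toHom.range → A ⊆ B
  fin : ∀ (I : Type u) [LinearOrder I] (a : obj I), ∃ s : Set I, s.Finite ∧
    a ∈ (map (OrderEmbedding.subtype (· ∈ s))).toHom.range

attribute [instance] OrdFamily.str

/-- The strong substructures of `M`, ordered by inclusion, form a power set. -/
def IsBoolean (K : AEC L) (M : Type u) [L.Structure M] : Prop :=
  ∃ X : Type u, Nonempty (Set X ≃o {S : L.Substructure M // K.le S})

end Vale.Agent.P307.H227
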