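import Vale.Agent.P307.H227.Ord
import Vale.Agent.P307.H227.Factor

/-!
Families indexed by linear orders: point maps of strong embeddings, the groups of automorphisms
which are the identity on points.
-/

universe u

open FirstOrder Cardinal Function Language

namespace Vale.Agent.P307.H227

variable {L : Language.{u, u}}

/-- inclusion of a subset of a linear order -/
abbrev inc {I : Type u} [LinearOrder I] (A : Set I) : A ↪o I := OrderEmbedding.subtype (· ∈ A)

/-- inclusion of a subset in a larger subset -/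
def incl {I : Type u} [LinearOrder I] {A B : Set I} (h : A ⊆ B) : A ↪o B :=
  OrderEmbedding.ofStrictMono (Set.inclusion h) fun _ _ hxy => hxy

namespace OrdFamily

variable {K : AEC L} (F : OrdFamily K) {I J M : Type u} [LinearOrder I] [LinearOrder J]
  [LinearOrder M]

/-- The substructure of `obj I` which belongs to the subset `A`. -/
def sub (A : Set I) : L.Substructure (F.obj I) := (F.map (inc A)).toHom.range

theorem mem_range_map (t : I ↪o J) {b : F.obj J} :
    (∃ a, F.map t a = b) ↔ b ∈ F.sub (Set.range t) := by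
  constructor
  · rintro ⟨a, rfl⟩
    refine ⟨F.map t.orderIso.toOrderEmbedding a, ?_⟩
    change F.map _ (F.map _ a) = F.map t a
    rw [← F.map_trans]
    rfl
  · rintro ⟨c, rfl⟩
    refine ⟨F.map t.orderIso.symm.toOrderEmbedding c, ?_⟩
    change F.map _ _ = F.map _ c
    rw [← F.map_trans]
    refine congrArg (fun e => F.map e c) ?_
    ext x
    have h := t.orderIso.apply_symm_apply x
    exact congrArg Subtype.val h

theorem map_incl {A B : Set I} (h : A ⊆ B) (c : F.obj A) :
    F.map (inc B) (F.map (incl h) c) = F.map (inc A) c := by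
  rw [← F.map_trans]
  rfl

theorem sub_mono {A B : Set I} (h : A ⊆ B) : F.sub A ≤ F.sub B := by
  rintro _ ⟨c, rfl⟩
  exact ⟨F.map (incl h) c, F.map_incl h c⟩

theorem sub_univ (a : F.obj I) : a ∈ F.sub (Set.univ : Set I) := by
  have h := (F.mem_range_map (RelEmbedding.refl (· ≤ ·) : I ↪o I)).1 ⟨a, F.map_refl a⟩
  exact F.sub_mono (Set.subset_univ _) h

theorem range_trans_inc (t : I ↪o J) (A : Set I) : Set.range ((inc A).trans t) = t '' A := by
  ext y
  constructor
  · rintro ⟨x, rfl⟩
    exact ⟨x.1, x.2, rfl⟩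
  · rintro ⟨x, hx, rfl⟩
    exact ⟨⟨x, hx⟩, rfl⟩

theorem map_mem_sub_image (t : I ↪o J) {A : Set I} {a : F.obj I} :
    F.map t a ∈ F.sub (t '' A) ↔ a ∈ F.sub A := by
  rw [← range_trans_inc, ← F.mem_range_map]
  constructor
  · rintro ⟨c, hc⟩
    rw [F.map_trans] at hc
    exact ⟨c, (F.map t).injective hc⟩
  · rintro ⟨c, hc⟩
    refine ⟨c, ?_⟩
    rw [F.map_trans]
    exact congrArg (F.map t) hc

theorem card_sub (A : Set I) : #(F.sub A) = #(F.obj A) :=
  (mk_congr (F.map (inc A)).equivRange.toEquiv).symm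

theorem le_sub (A : Set I) : K.le (F.sub A) := (F.strong I _).2 ⟨A, rfl⟩

theorem exists_sub {S : L.Substructure (F.obj I)} (h : K.le S) : ∃ A : Set I, S = F.sub A :=
  (F.strong I S).1 h

theorem sub_le_iff {A B : Set I} : F.sub A ≤ F.sub B ↔ A ⊆ B := ⟨F.mono I A B, F.sub_mono⟩

theorem sub_inj {A B : Set I} (h : F.sub A = F.sub B) : A = B :=
  Set.Subset.antisymm (F.sub_le_iff.1 h.le) (F.sub_le_iff.1 h.ge)

theorem mem_obj (I : Type u) [LinearOrder I] : K.mem (F.obj I) :=
  (K.mem_of_le _ (F.le_sub (Set.univ : Set I))).2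

theorem emb_map (t : I ↪o J) : K.Emb (F.map t) := by
  have h : (F.map t).toHom.range = F.sub (Set.range t) := by
    ext b
    exact F.mem_range_map t
  unfold AEC.Emb
  rw [h]
  exact F.le_sub _

/-- The embedding `θ` induces the map `t` on points. -/
structure Ind (θ : F.obj I ↪[L] F.obj J) (t : I → J) : Prop where
  inj : Injective t
  mem : ∀ (A : Set I) (a : F.obj I), θ a ∈ F.sub (t '' A) ↔ a ∈ F.sub A
  rng : ∀ b, b ∈ F.sub (Set.range t) → ∃ a, θ a = b

variable {F}

theorem ind_map (t : I ↪o J) : F.Ind (F.map t) t where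
  inj := t.injective
  mem _ _ := F.map_mem_sub_image t
  rng _ hb := (F.mem_range_map t).2 hb

theorem Ind.mem_range {θ : F.obj I ↪[L] F.obj J} {t : I → J} (h : F.Ind θ t) (a : F.obj I) :
    θ a ∈ F.sub (Set.range t) := by
  rw [← Set.image_univ]
  exact (h.mem _ a).2 (F.sub_univ a)

theorem Ind.emb {θ : F.obj I ↪[L] F.obj J} {t : I → J} (h : F.Ind θ t) : K.Emb θ := by
  have h1 : θ.toHom.range = F.sub (Set.range t) := by
    ext b
    constructor
    · rintro ⟨a, rfl⟩
      exact h.mem_range a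
    · exact h.rng b
  unfold AEC.Emb
  rw [h1]
  exact F.le_sub _

theorem Ind.comp {θ : F.obj I ↪[L] F.obj J} {t : I → J} (h : F.Ind θ t)
    {θ' : F.obj J ↪[L] F.obj M} {t' : J → M} (h' : F.Ind θ' t') :
    F.Ind (θ'.comp θ) (t' ∘ t) where
  inj := h'.inj.comp h.inj
  mem A a := by
    rw [Set.image_comp]
    exact (h'.mem _ _).trans (h.mem _ _)
  rng b hb := by
    rw [Set.range_comp] at hb
    obtain ⟨c, rfl⟩ := h'.rng b (F.sub_mono (Set.image_subset_range _ _) hb)
    obtain ⟨a, ha⟩ := h.rng c ((h'.mem _ c).1 hb)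
    exact ⟨a, congrArg θ' ha⟩

theorem Ind.congr {θ : F.obj I ↪[L] F.obj J} {t t' : I → J} (h : F.Ind θ t) (ht : ∀ x, t x = t' x) :
    F.Ind θ t' := by
  rwa [← funext ht]

/-- Two embeddings which agree on the substructure of a point induce the same image of it. -/
theorem Ind.unique {θ θ' : F.obj I ↪[L] F.obj J} {t t' : I → J} (h : F.Ind θ t)
    (h' : F.Ind θ' t') {x : I} (hx : ∀ a ∈ F.sub {x}, θ a = θ' a) : t x = t' x := by
  have h1 : F.sub {t x} ≤ F.sub {t' x} := by
    intro b hb
    have h2 : ({t x} : Set J) ⊆ Set.range t := by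
      rintro _ rfl
      exact ⟨x, rfl⟩
    obtain ⟨a, rfl⟩ := h.rng b (F.sub_mono h2 hb)
    rw [← Set.image_singleton, h.mem] at hb
    rw [hx a hb, ← Set.image_singleton, h'.mem]
    exact hb
  exact F.sub_le_iff.1 h1 rfl

/-- Every strong embedding induces a map on points. -/
theorem exists_ind (θ : F.obj I ↪[L] F.obj J) (hθ : K.Emb θ) : ∃ t : I → J, F.Ind θ t := by
  have push : ∀ D : Set I, ∃ C : Set J, ∀ b, b ∈ F.sub C ↔ ∃ a ∈ F.sub D, θ a = b := by
    intro D
    have h1 : K.Emb (θ.comp (F.sub D).subtype) :=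
      AEC.Emb.comp hθ (AEC.emb_subtype.2 (F.le_sub D))
    obtain ⟨C, h5⟩ := F.exists_sub h1
    refine ⟨C, fun b => ?_⟩
    rw [← h5]
    constructor
    · rintro ⟨a, ha⟩
      exact ⟨a.1, a.2, ha⟩
    · rintro ⟨a, ha, hab⟩
      exact ⟨⟨a, ha⟩, hab⟩
  choose c hc using push
  have hmem : ∀ D a, θ a ∈ F.sub (c D) ↔ a ∈ F.sub D := by
    intro D a
    rw [hc]
    constructor
    · rintro ⟨a', ha', h⟩
      rwa [← θ.injective h]
    · intro ha
      exact ⟨a, ha, rfl⟩
  have hle : ∀ D D', c D ⊆ c D' ↔ D ⊆ D' := by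
    intro D D'
    constructor
    · intro h
      rw [← F.sub_le_iff]
      intro a ha
      rw [← hmem]
      exact F.sub_mono h ((hmem D a).2 ha)
    · intro h
      rw [← F.sub_le_iff]
      intro b hb
      obtain ⟨a, ha, rfl⟩ := (hc D b).1 hb
      exact (hmem D' a).2 (F.sub_mono h ha)
  have pull : ∀ C : Set J, C ⊆ c Set.univ → ∃ D, c D = C := by
    intro C hC
    have hle' : F.sub C ≤ θ.toHom.range := by
      intro b hb
      obtain ⟨a, -, ha⟩ := (hc Set.univ b).1 (F.sub_mono hC hb)
      exact ⟨a, ha⟩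
    let j : F.sub C ↪[L] F.obj I := θ.equivRange.symm.toEmbedding.comp (Substructure.inclusion hle')
    have hj : ∀ b : F.sub C, θ (j b) = b.1 := by
      intro b
      have h1 := θ.equivRange.apply_symm_apply (Substructure.inclusion hle' b)
      exact congrArg Subtype.val h1
    have hcomp : θ.comp j = (F.sub C).subtype := by
      apply Language.Embedding.ext
      intro b
      exact hj b
    have h2 : K.Emb j := by
      refine AEC.Emb.of_comp hθ ?_
      rw [hcomp, AEC.emb_subtype]
      exact F.le_sub C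
    obtain ⟨D, h5⟩ := F.exists_sub h2
    refine ⟨D, F.sub_inj ?_⟩
    ext b
    rw [hc]
    constructor
    · rintro ⟨a, ha, rfl⟩
      rw [← h5] at ha
      obtain ⟨b', hb'⟩ := ha
      have hb'' : j b' = a := hb'
      rw [← hb'', hj]
      exact b'.2
    · intro hb
      refine ⟨j ⟨b, hb⟩, ?_, hj _⟩
      rw [← h5]
      exact ⟨_, rfl⟩
  have hempty : c ∅ = ∅ := by
    obtain ⟨D, hD⟩ := pull ∅ (Set.empty_subset _)
    have h1 : c ∅ ⊆ c D := (hle _ _).2 (Set.empty_subset _)
    rw [hD] at h1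
    exact Set.subset_empty_iff.1 h1
  have hsingle : ∀ x, ∃ y, c {x} = {y} := by
    intro x
    have hne : (c {x}).Nonempty := by
      rw [Set.nonempty_iff_ne_empty]
      intro h
      rw [← hempty] at h
      exact (hle {x} ∅).1 h.le rfl
    obtain ⟨y, hy⟩ := hne
    have h1 : ({y} : Set J) ⊆ c {x} := Set.singleton_subset_iff.2 hy
    obtain ⟨D, hD⟩ := pull {y} (h1.trans ((hle _ _).2 (Set.subset_univ _)))
    rw [← hD] at h1
    rcases Set.subset_singleton_iff_eq.1 ((hle _ _).1 h1) with h2 | h2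
    · rw [h2, hempty] at hD
      exact absurd hD.symm (Set.singleton_ne_empty y)
    · exact ⟨y, by rw [← hD, h2]⟩
  choose t ht using hsingle
  have himg : ∀ D, c D = t '' D := by
    intro D
    apply Set.Subset.antisymm
    · intro y hy
      have h1 : ({y} : Set J) ⊆ c D := Set.singleton_subset_iff.2 hy
      obtain ⟨E, hE⟩ := pull {y} (h1.trans ((hle _ _).2 (Set.subset_univ _)))
      have hEne : E.Nonempty := by
        rw [Set.nonempty_iff_ne_empty]
        rintro rfl
        rw [hempty] at hE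
        exact Set.singleton_ne_empty y hE.symm
      obtain ⟨x, hx⟩ := hEne
      have h2 : c {x} ⊆ c E := (hle _ _).2 (Set.singleton_subset_iff.2 hx)
      rw [ht, hE] at h2
      rw [← hE] at h1
      exact ⟨x, (hle _ _).1 h1 hx, by simpa using h2⟩
    · rintro _ ⟨x, hx, rfl⟩
      have h2 : c {x} ⊆ c D := (hle _ _).2 (Set.singleton_subset_iff.2 hx)
      rw [ht] at h2
      exact h2 rfl
  refine ⟨t, ⟨?_, ?_, ?_⟩⟩
  · intro x y hxy
    have h1 : c {x} = c {y} := by rw [ht, ht, hxy]
    exact (hle _ _).1 h1.le rfl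
  · intro A a
    rw [← himg, hmem]
  · intro b hb
    rw [← Set.image_univ, ← himg, hc] at hb
    obtain ⟨a, -, ha⟩ := hb
    exact ⟨a, ha⟩

/-- Corestriction along an order embedding. -/
theorem exists_cores {N : Type u} [L.Structure N] (θ : N ↪[L] F.obj J) (t : I ↪o J)
    (h : ∀ n, θ n ∈ F.sub (Set.range t)) : ∃ θ' : N ↪[L] F.obj I, ∀ n, F.map t (θ' n) = θ n := by
  have hle : θ.toHom.range ≤ (F.map t).toHom.range := by
    rintro _ ⟨n, rfl⟩
    exact (F.mem_range_map t).2 (h n)
  refine ⟨(F.map t).equivRange.symm.toEmbedding.comp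
    ((Substructure.inclusion hle).comp θ.equivRange.toEmbedding), fun n => ?_⟩
  have h1 := (F.map t).equivRange.apply_symm_apply (Substructure.inclusion hle (θ.equivRange n))
  exact congrArg Subtype.val h1

/-- If the composition of an embedding with an embedding which induces a map on points induces a
map on points then so does the embedding. -/
theorem Ind.of_comp {θ : F.obj I ↪[L] F.obj J} {θ' : F.obj J ↪[L] F.obj M} {t' : J → M}
    (h' : F.Ind θ' t') {t : I → J} (h : F.Ind (θ'.comp θ) (t' ∘ t)) : F.Ind θ t where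
  inj := h.inj.of_comp
  mem A a := by
    have h1 := h.mem A a
    rw [Set.image_comp] at h1
    exact (h'.mem _ _).symm.trans h1
  rng b hb := by
    have h1 := (h'.mem _ _).2 hb
    rw [← Set.range_comp] at h1
    obtain ⟨a, ha⟩ := h.rng _ h1
    exact ⟨a, θ'.injective ha⟩

theorem Ind.surj {θ : F.obj I ↪[L] F.obj J} {t : I → J} (h : F.Ind θ t) (ht : Surjective t) :
    Surjective θ := by
  intro b
  refine h.rng b ?_
  rw [ht.range_eq]
  exact F.sub_univ b

/-- A surjective embedding is an isomorphism. -/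
theorem exists_equiv_of_surj {N P : Type u} [L.Structure N] [L.Structure P] (θ : N ↪[L] P)
    (h : Surjective θ) : ∃ e : N ≃[L] P, ∀ a, e a = θ a := by
  obtain ⟨e, he⟩ := (SymmetricFamily.isPI_push (L := L) (Language.Embedding.refl L N) θ).exists_equiv
    (fun a => ⟨_, a, rfl, rfl⟩) (fun b => by
      obtain ⟨a, ha⟩ := h b
      exact ⟨a, a, rfl, ha⟩)
  refine ⟨e, fun a => ?_⟩
  obtain ⟨c, h1, h2⟩ := he a
  have h1' : c = a := h1
  have h2' : θ c = e a := h2
  rw [← h2', h1']

theorem cover {ι : Type u} [LinearOrder ι] [WellFoundedLT ι] [Nonempty ι]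
    (S : ι → Set I) (hS : Monotone S) (hc : ∀ x, ∃ i, x ∈ S i) (a : F.obj I) :
    ∃ i, a ∈ F.sub (S i) := by
  have hm : Monotone fun i => F.sub (S i) := fun i j hij => F.sub_mono (hS hij)
  have h1 : K.le (⨆ i, F.sub (S i)) :=
    K.chain_smooth _ (fun i j hij => hm hij) fun i => F.le_sub _
  obtain ⟨B, hB⟩ := F.exists_sub h1
  have h4 : B = Set.univ := by
    rw [Set.eq_univ_iff_forall]
    intro x
    obtain ⟨i, hi⟩ := hc x
    refine F.sub_le_iff.1 ?_ hi
    rw [← hB]
    exact le_iSup (fun i => F.sub (S i)) i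
  have h5 : a ∈ ⨆ i, F.sub (S i) := by
    rw [hB, h4]
    exact F.sub_univ a
  rwa [Substructure.mem_iSup_of_directed (directed_of_isDirected_le hm)] at h5

/-- The cardinality of the members of the family. -/
theorem card_obj {l : Cardinal.{u}} (hK : K.IsLS l) (I : Type u) [LinearOrder I]
    (hI : max l ℵ₀ < #I) : #(F.obj I) = #I := by
  have hl : l < #I := (le_max_left _ _).trans_lt hI
  have h0 : ℵ₀ < #I := (le_max_right _ _).trans_lt hI
  have hex : ∀ z : I, ∃ a : F.obj I, a ∉ F.sub {z}ᶜ := by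
    intro z
    by_contra h
    push Not at h
    have h1 : F.sub (Set.univ : Set I) ≤ F.sub {z}ᶜ := fun a _ => h a
    exact F.sub_le_iff.1 h1 (Set.mem_univ z) rfl
  choose a ha using hex
  refine le_antisymm ?_ ?_
  · obtain ⟨S, h1, h2, h3⟩ := hK.2.2 (F.obj I) (F.mem_obj I) (Set.range a)
    obtain ⟨A, hA⟩ := F.exists_sub h1
    have h4 : A = Set.univ := by
      rw [Set.eq_univ_iff_forall]
      intro z
      by_contra hz
      have h5 : a z ∈ F.sub A := by
        rw [← hA]
        exact h2 ⟨z, rfl⟩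
      refine ha z (F.sub_mono ?_ h5)
      rintro w hw rfl
      exact hz hw
    have h6 : #(F.obj I) ≤ #S := by
      rw [hA, h4]
      exact mk_le_of_injective
        (f := fun b : F.obj I => (⟨b, F.sub_univ b⟩ : F.sub (Set.univ : Set I)))
        fun x y hxy => congrArg Subtype.val hxy
    refine h6.trans (h3.trans (add_le_of_le h0.le mk_range_le hl.le))
  · choose s hs1 hs2 using F.fin I
    have hmem : ∀ z, z ∈ s (a z) := by
      intro z
      by_contra hz
      refine ha z (F.sub_mono ?_ (hs2 (a z)))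
      rintro w hw rfl
      exact hz hw
    have h1 : #I ≤ #(Σ b : F.obj I, s b) :=
      mk_le_of_injective (f := fun z => (⟨a z, ⟨z, hmem z⟩⟩ : Σ b : F.obj I, s b)) (by
        intro z z' h
        rw [Sigma.mk.injEq] at h
        have key : ∀ (b b' : F.obj I) (hb : z ∈ s b) (hb' : z' ∈ s b'), b = b' →
            HEq (⟨z, hb⟩ : s b) (⟨z', hb'⟩ : s b') → z = z' := by
          rintro b _ hb hb' rfl h
          exact congrArg Subtype.val (eq_of_heq h)
        exact key _ _ _ _ h.1 h.2)
    have h2 : #(Σ b : F.obj I, s b) ≤ #(F.obj I) * ℵ₀ := by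
      rw [mk_sigma]
      refine (sum_le_sum _ (fun _ => ℵ₀) fun b => ?_).trans ?_
      · exact ((hs1 b).lt_aleph0).le
      · rw [sum_const']
    by_contra h3
    rw [not_le] at h3
    have h4 := (h1.trans h2).trans_lt (mul_lt_of_lt h0.le h3 h0)
    exact lt_irrefl _ h4

end OrdFamily

end Vale.Agent.P307.H227
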