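import Vale.Agent.P307.H227.Factor

/-!
Extension of strong embeddings, transfinite recursion, the step above the critical cardinal.
-/

universe u v

open FirstOrder Cardinal Function Language

namespace Vale.Agent.P307.H227

variable {L : Language.{u, u}}

/-- Transfinite construction of a coherent family. -/
theorem exists_coherent_family {I : Type u} [LinearOrder I] [WellFoundedLT I] (H : I → Type v)
    (r : ∀ {a b : I}, a < b → H b → H a) (C : ∀ a, H a → Prop)
    (ext : ∀ a, ∀ f : (∀ b, b < a → H b), (∀ b hb, C b (f b hb)) →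
      (∀ b c (hbc : b < c) (hc : c < a), r hbc (f c hc) = f b (hbc.trans hc)) →
      ∃ x : H a, C a x ∧ ∀ b hb, r hb x = f b hb) :
    ∃ f : ∀ a, H a, (∀ a, C a (f a)) ∧ ∀ b a (h : b < a), r h (f a) = f b := by
  classical
  let F : ∀ a, Option (H a) := wellFounded_lt.fix fun a rec =>
    if h : ∃ x : H a, C a x ∧ ∀ b (hb : b < a) y, rec b hb = some y → r hb x = y then
      some h.choose else none
  have hF : ∀ a, F a =
      if h : ∃ x : H a, C a x ∧ ∀ b (hb : b < a) y, F b = some y → r hb x = y then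
      some h.choose else none := fun a => wellFounded_lt.fix_eq _ a
  have key : ∀ a, ∃ x : H a, F a = some x ∧ C a x ∧
      ∀ b (hb : b < a) y, F b = some y → r hb x = y := by
    intro a
    induction a using WellFoundedLT.induction with
    | ind a ih =>
      choose g hg1 hg2 hg3 using ih
      obtain ⟨x, hx1, hx2⟩ := ext a g hg2 fun b c hbc hc =>
        hg3 c hc b hbc _ (hg1 b (hbc.trans hc))
      have h : ∃ x : H a, C a x ∧ ∀ b (hb : b < a) y, F b = some y → r hb x = y := by
        refine ⟨x, hx1, fun b hb y hy => ?_⟩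
        rw [hx2 b hb]
        have h1 := hg1 b hb
        rw [hy] at h1
        exact (Option.some_injective _ h1).symm
      refine ⟨h.choose, ?_, h.choose_spec.1, h.choose_spec.2⟩
      rw [hF a, dif_pos h]
  choose f hf1 hf2 hf3 using key
  exact ⟨f, hf2, fun b a h => hf3 a b h _ (hf1 b)⟩

namespace SymmetricFamily

variable {K : AEC L} {χ : Cardinal.{u}} {F : SymmetricFamily K χ}

/-- Extension of a strong embedding to a strong extension of the same cardinality. -/
theorem extend_emb (hχ : ℵ₀ ≤ χ) {U V Z : Type u} [L.Structure U] [L.Structure V] (j : U ↪[L] V)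
    (hj : K.Emb j) (hUV : #V = #U) (hU : χ < #U) (hstd : F.Std #U)
    (hfl : ∀ (X Y : Type u) (i : X ↪ Y), #X = #U → #Y = #U →
      Surjective (rs hχ i : F.Gp Y → F.Gp X))
    (f : U ↪[L] F.obj Z) (hf : K.Emb f) (hZ : #U < #Z) :
    ∃ f' : V ↪[L] F.obj Z, K.Emb f' ∧ ∀ u, f' (j u) = f u := by
  obtain ⟨φ⟩ := hstd U hj.mem_left rfl U rfl
  obtain ⟨ψ⟩ := hstd V hj.mem_right hUV V hUV
  have hφ : K.Emb φ.symm.toEmbedding := AEC.Emb.of_equiv _ (F.mem_obj hU)
  have hψ : K.Emb ψ.toEmbedding := AEC.Emb.of_equiv _ hj.mem_right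
  obtain ⟨t, g, hg⟩ := factor hχ hU (ψ.toEmbedding.comp (j.comp φ.symm.toEmbedding))
    (hψ.comp (hj.comp hφ))
  obtain ⟨t', g', hg'⟩ := factor hχ hU (f.comp φ.symm.toEmbedding) (hf.comp hφ)
  obtain ⟨s, hs⟩ := exists_extend t t' (hχ.trans (hU.trans hZ).le) (by rwa [hUV])
  obtain ⟨γ, hγ⟩ := hfl U V t rfl hUV (g' * g⁻¹)
  obtain ⟨e, he⟩ := γ.2.1.iso
  have hV : χ < #V := by rwa [hUV]
  refine ⟨(F.map s).comp (e.toEmbedding.comp ψ.toEmbedding), ?_, fun u => ?_⟩
  · exact (F.emb_map s hV).comp ((AEC.Emb.of_equiv e (F.mem_obj hV)).comp hψ)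
  · have h1 : ψ (j u) = F.map t (g.1 (φ u)) := by
      have h2 := hg (φ u)
      have h3 : φ.symm (φ u) = u := φ.symm_apply_apply u
      change ψ (j (φ.symm (φ u))) = _ at h2
      rwa [h3] at h2
    have h4 : f u = F.map t' (g'.1 (φ u)) := by
      have h2 := hg' (φ u)
      have h3 : φ.symm (φ u) = u := φ.symm_apply_apply u
      change f (φ.symm (φ u)) = _ at h2
      rwa [h3] at h2
    change F.map s (e (ψ (j u))) = f u
    rw [h1, he, ← rs_spec hχ t γ hU, hγ, ← F.map_trans, hs, h4]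
    refine congrArg (F.map t') ?_
    change g'.1 (g.1.symm (g.1 (φ u))) = g'.1 (φ u)
    rw [Equiv.symm_apply_apply]

/-- The step above the critical cardinal. -/
theorem std_step (hχ : ℵ₀ ≤ χ) {l θ κ : Cardinal.{u}} (hK : K.IsLS l) (hl : l ≤ χ)
    (hθ : χ < θ) (hθκ : θ < κ) (hstd : ∀ κ', θ ≤ κ' → κ' < κ → F.Std κ')
    (hfl : ∀ (X Y : Type u) (i : X ↪ Y), #X = #Y → θ ≤ #X →
      Surjective (rs hχ i : F.Gp Y → F.Gp X)) : F.Std κ := by
  intro N _ hN hNκ X hX
  have hκ0 : ℵ₀ ≤ κ := hχ.trans (hθ.trans hθκ).le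
  have hθ0 : ℵ₀ ≤ θ := hχ.trans hθ.le
  obtain ⟨en⟩ : Nonempty (κ.ord.ToType ≃ N) := Cardinal.eq.1 (by rw [mk_ord_toType, hNκ])
  obtain ⟨D, hD⟩ : ∃ D : Set N, #D = θ := le_mk_iff_exists_set.1 (by rw [hNκ]; exact hθκ.le)
  choose hull hh1 hh2 hh3 using hK.2.2 N hN
  let S : κ.ord.ToType → L.Substructure N := wellFounded_lt.fix fun a rec =>
    hull (D ∪ {en a} ∪ ⋃ b : Set.Iio a, (rec b.1 b.2 : Set N))
  have hS : ∀ a, S a = hull (D ∪ {en a} ∪ ⋃ b : Set.Iio a, (S b.1 : Set N)) :=
    fun a => wellFounded_lt.fix_eq _ a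
  have hSle : ∀ a, K.le (S a) := fun a => by rw [hS]; exact hh1 _
  have hSD : ∀ a, D ⊆ S a := fun a => by
    rw [hS]
    exact (Set.subset_union_left.trans Set.subset_union_left).trans (hh2 _)
  have hSen : ∀ a, en a ∈ S a := fun a => by
    rw [hS]
    exact hh2 _ (Or.inl (Or.inr rfl))
  have hSlt : ∀ b a, b < a → S b ≤ S a := fun b a h => by
    intro x hx
    rw [hS a]
    exact hh2 _ (Or.inr (Set.mem_iUnion.2 ⟨⟨b, h⟩, hx⟩))
  have hSm : Monotone S := fun b a h => by
    rcases h.eq_or_lt with rfl | h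
    · exact le_rfl
    · exact hSlt b a h
  have hcard : ∀ a, #(S a) ≤ θ + #(Set.Iio a) := by
    intro a
    induction a using WellFoundedLT.induction with
    | ind a ih =>
      have hm : ℵ₀ ≤ θ + #(Set.Iio a) := hθ0.trans (self_le_add_right _ _)
      have h1 : #(⋃ b : Set.Iio a, (S b.1 : Set N)) ≤ θ + #(Set.Iio a) := by
        refine (mk_iUnion_le _).trans ?_
        calc #(Set.Iio a) * ⨆ b : Set.Iio a, #(S b.1)
            ≤ (θ + #(Set.Iio a)) * (θ + #(Set.Iio a)) := by
              refine mul_le_mul' (self_le_add_left _ _) (ciSup_le' fun b => ?_)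
              refine (ih b.1 b.2).trans (add_le_add le_rfl ?_)
              exact mk_le_mk_of_subset fun x hx => Set.mem_Iio.2 (lt_trans (Set.mem_Iio.1 hx) b.2)
          _ = θ + #(Set.Iio a) := mul_eq_self hm
      rw [hS]
      refine (hh3 _).trans ?_
      have h2 : #(D ∪ {en a} ∪ ⋃ b : Set.Iio a, (S b.1 : Set N) : Set N) ≤ θ + #(Set.Iio a) := by
        refine (mk_union_le _ _).trans (add_le_of_le hm ((mk_union_le _ _).trans ?_) h1)
        rw [hD, mk_singleton]
        exact add_le_of_le hm (self_le_add_right _ _) (one_le_aleph0.trans hm)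
      exact add_le_of_le hm h2 ((hl.trans hθ.le).trans (self_le_add_right _ _))
  have hlt : ∀ a, #(S a) < κ := fun a => by
    refine (hcard a).trans_lt (add_lt_of_lt hκ0 hθκ ?_)
    exact mk_Iio_toType_ord_lt a
  have hge : ∀ a, θ ≤ #(S a) := fun a => by
    rw [← hD]
    exact mk_le_mk_of_subset (hSD a)
  obtain ⟨Z, hZ⟩ : ∃ Z : Type u, #Z = κ := ⟨κ.out, mk_out κ⟩
  obtain ⟨f, hf1, hf2⟩ := exists_coherent_family (fun a => (S a ↪[L] F.obj Z))
    (fun {b a} h g => g.comp (Substructure.inclusion (hSlt b a h))) (fun a g => K.Emb g) (by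
      intro a g hg1 hg2
      by_cases hne : Nonempty (Set.Iio a)
      · have hinc : Monotone fun b : Set.Iio a => S b.1 := fun b c h => hSm h
        obtain ⟨G, hG1, hG2⟩ := glue_emb (K := K) (fun b : Set.Iio a => S b.1) hinc
          (fun b => g b.1 b.2) (fun b => hg1 b.1 b.2) (by
            intro b c hbc x
            rcases hbc.eq_or_lt with rfl | h
            · rfl
            · have h1 := hg2 b.1 c.1 h c.2
              exact DFunLike.congr_fun h1 x)
        have hU : K.le (⨆ b : Set.Iio a, S b.1) :=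
          K.chain_smooth _ (fun b c h => hinc h) fun b => hSle b.1
        have hUa : (⨆ b : Set.Iio a, S b.1) ≤ S a := iSup_le fun b => hSlt b.1 a b.2
        have hj := (AEC.sle_of_le_le hUa hU (hSle a)).2
        have hDU : D ⊆ (⨆ b : Set.Iio a, S b.1 : L.Substructure N) := by
          obtain ⟨b⟩ := hne
          exact (hSD b.1).trans (le_iSup (fun b : Set.Iio a => S b.1) b)
        have hUθ : θ ≤ #(⨆ b : Set.Iio a, S b.1 : L.Substructure N) := by
          rw [← hD]
          exact mk_le_mk_of_subset hDU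
        have hUeq : #(S a) = #(⨆ b : Set.Iio a, S b.1 : L.Substructure N) := by
          refine le_antisymm ?_ (mk_le_mk_of_subset hUa)
          have hU0 := hθ0.trans hUθ
          rw [hS]
          refine (hh3 _).trans (add_le_of_le hU0 ?_ ((hl.trans hθ.le).trans hUθ))
          have h3 : (D ∪ {en a} ∪ ⋃ b : Set.Iio a, (S b.1 : Set N) : Set N) ⊆
              insert (en a) ((⨆ b : Set.Iio a, S b.1 : L.Substructure N) : Set N) := by
            rintro x ((hx | hx) | hx)
            · exact Or.inr (hDU hx)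
            · exact Or.inl hx
            · obtain ⟨b, hb⟩ := Set.mem_iUnion.1 hx
              exact Or.inr (le_iSup (fun b : Set.Iio a => S b.1) b hb)
          refine (mk_le_mk_of_subset h3).trans (mk_insert_le.trans ?_)
          exact add_le_of_le hU0 le_rfl (one_le_aleph0.trans hU0)
        obtain ⟨f', h1, h2⟩ := extend_emb hχ (Substructure.inclusion hUa) hj hUeq
          (hθ.trans_le hUθ) (hstd _ hUθ (hUeq.symm.trans_lt (hlt a)))
          (fun X Y i hX hY => hfl X Y i (hX.trans hY.symm) (hUθ.trans hX.ge)) G hG1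
          (by rw [hZ]; exact hUeq.symm.trans_lt (hlt a))
        refine ⟨f', h1, fun b hb => ?_⟩
        apply Language.Embedding.ext
        intro x
        have h3 := h2 (Substructure.inclusion (le_iSup (fun b : Set.Iio a => S b.1) ⟨b, hb⟩) x)
        have h4 := hG2 ⟨b, hb⟩ x
        change f' (Substructure.inclusion _ x) = g b hb x
        rw [← h4, ← h3]
        rfl
      · obtain ⟨e⟩ := hstd _ (hge a) (hlt a) (S a) (K.mem_of_le _ (hSle a)).1 rfl (S a) rfl
        obtain ⟨i⟩ : Nonempty (S a ↪ Z) := by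
          rw [← Cardinal.le_def, hZ]
          exact (hlt a).le
        refine ⟨(F.map i).comp e.toEmbedding, ?_, fun b hb => absurd ⟨⟨b, hb⟩⟩ hne⟩
        exact (F.emb_map i (hθ.trans_le (hge a))).comp
          (AEC.Emb.of_equiv e (K.mem_of_le _ (hSle a)).1))
  have hne : Nonempty κ.ord.ToType := by
    rw [← mk_ne_zero_iff, mk_ord_toType]
    exact (aleph0_pos.trans_le hκ0).ne'
  obtain ⟨G, hG1, -⟩ := glue_emb (K := K) S hSm f hf1 (by
    intro b c hbc x
    rcases hbc.eq_or_lt with rfl | h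
    · rfl
    · exact DFunLike.congr_fun (hf2 b c h) x)
  have htop : (⨆ a, S a) = ⊤ := by
    rw [eq_top_iff]
    intro x _
    have h1 := hSen (en.symm x)
    rw [en.apply_symm_apply] at h1
    exact le_iSup S (en.symm x) h1
  have e1 : N ≃[L] (⊤ : L.Substructure N) := Substructure.topEquiv.symm
  rw [← htop] at e1
  refine std_of_emb (G.comp e1.toEmbedding) (hG1.comp (AEC.Emb.of_equiv e1 hN)) ?_ ?_
  · rw [hNκ]
    exact hθ.trans hθκ
  · rw [hX, hNκ]

end SymmetricFamily

end Vale.Agent.P307.H227
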